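import Vale.Agent.P281Z.Ky.Defs
import Vale.Agent.P281Z.An.Basic
import Vale.Agent.P272.K.QN.H705.Pull

/-!
# P281Z, block KY: the chain rule, coordinate systems
-/

set_option linter.unusedSectionVars false

open scoped Manifold ContDiff Topology ComplexOrder Matrix
open Filter Set Metric
open Vale.Agent.P272.K
open Vale.Agent.P272.K.QN (jm jm_holo jm_apply dz_comp_F dzb_comp_F jm_comp jm_congr)
open Vale.Agent.P277Z (Hol)
open Vale.Agent.P277Z.Pos (nsq PosAt FlatAt)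

noncomputable section

namespace Vale.Agent.P281Z.Ky

section flat
variable {N n : ℕ} {Φ : Cm N → Cm n} {z : Cm N} {g : Cm n → ℝ}

theorem two {m : ℕ} {u : Cm m → ℝ} {x : Cm m} (h : ContDiffAt ℝ ∞ u x) : ContDiffAt ℝ 2 u x :=
  h.of_le (by norm_cast)

theorem an_diff (h : AnalyticAt ℂ Φ z) : DifferentiableAt ℂ Φ z := h.differentiableAt

theorem an_sm (h : AnalyticAt ℂ Φ z) : ContDiffAt ℝ ∞ Φ z :=
  (h.restrictScalars (𝕜 := ℝ)).contDiffAt

theorem jc_comp {r : ℕ} {σ : Cm n → Cm r} (hσ : AnalyticAt ℂ σ (Φ z)) (h : AnalyticAt ℂ Φ z) :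
    jc (fun y => σ (Φ y)) z = jc σ (Φ z) * jc Φ z := jm_comp hσ.differentiableAt h.differentiableAt

theorem jc_congr {Ψ : Cm N → Cm n} (h : Φ =ᶠ[𝓝 z] Ψ) : jc Φ z = jc Ψ z := jm_congr h

theorem jc_an (h : AnalyticAt ℂ Φ z) (a : Fin n) (j : Fin N) :
    AnalyticAt ℂ (fun y => jc Φ y a j) z := (jm_holo h.contDiffAt a j).analyticAt

theorem jc_id (z : Cm N) : jc (fun y => y) z = 1 := by
  ext a j
  have := jm_apply (F := fun y : Cm N => y) (z := z) differentiableAt_id a j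
  rw [show jc (fun y => y) z a j = _ from this, fderiv_fun_id, ContinuousLinearMap.id_apply,
    Pi.single_apply, Matrix.one_apply]

/-- the chain rule for the complex Hessian -/
theorem cHess_comp (hg : ContDiffAt ℝ 2 g (Φ z)) (h' : AnalyticAt ℂ Φ z) :
    cHess (fun y => g (Φ y)) z = (jc Φ z)ᵀ * cHess g (Φ z) * (jc Φ z).map (starRingEnd ℂ) := by
  change _ = (jm Φ z)ᵀ * cHess g (Φ z) * (jm Φ z).map (starRingEnd ℂ)
  have h : ContDiffAt ℂ ω Φ z := h'.contDiffAt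
  have hF : ContDiffAt ℝ 2 (fun y => (g y : ℂ)) (Φ z) := ofReal_contDiffAt hg
  have hev : ∀ᶠ y in 𝓝 z, ContDiffAt ℂ ω Φ y := h.eventually (by simp)
  have hev2 : ∀ᶠ y in 𝓝 z, ContDiffAt ℝ 2 (fun y => (g y : ℂ)) (Φ y) :=
    h.continuousAt.eventually (hF.eventually (by simp))
  ext j k
  rw [cHess_apply]
  have h1 : dzb k (fun y => ((g (Φ y) : ℝ) : ℂ)) =ᶠ[𝓝 z]
      fun y => ∑ q, dzb q (fun y => (g y : ℂ)) (Φ y) * cj (jm Φ y q k) := by
    filter_upwards [hev, hev2] with y hy hy2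
    exact dzb_comp_F (f := fun y => (g y : ℂ)) (hy2.differentiableAt (by norm_num))
      (hy.differentiableAt (by simp))
  rw [dz_congr h1]
  have hd1 : ∀ q, DifferentiableAt ℝ (fun y => dzb q (fun y => (g y : ℂ)) (Φ y)) z := fun q =>
    (differentiableAt_dzb hF).comp z ((h.differentiableAt (by simp)).restrictScalars ℝ)
  have hd2 : ∀ q, DifferentiableAt ℝ (fun y => jm Φ y q k) z := fun q =>
    ((jm_holo h q k).differentiableAt (by simp)).restrictScalars ℝ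
  have hd3 : ∀ q, DifferentiableAt ℝ (fun y => cj (jm Φ y q k)) z := fun q =>
    Complex.conjCLE.differentiableAt.comp z (hd2 q)
  rw [dz_sum (F := fun q y => dzb q (fun y => (g y : ℂ)) (Φ y) * cj (jm Φ y q k)) Finset.univ
    fun q _ => (hd1 q).mul (hd3 q)]
  have h2 : ∀ q, dz j (fun y => dzb q (fun y => (g y : ℂ)) (Φ y) * cj (jm Φ y q k)) z =
      ∑ p, jm Φ z p j * cHess g (Φ z) p q * cj (jm Φ z q k) := by
    intro q
    rw [dz_mul (hd1 q) (hd3 q), dz_cj (hd2 q),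
      dzb_of_holo ((jm_holo h q k).differentiableAt (by simp)),
      dz_comp_F (differentiableAt_dzb hF) (h.differentiableAt (by simp))]
    simp only [cj, map_zero, mul_zero, add_zero]
    rw [Finset.sum_mul]
    refine Finset.sum_congr rfl fun p _ => ?_
    rw [cHess_apply]; ring
  rw [Finset.sum_congr rfl fun q _ => h2 q]
  simp only [Matrix.mul_apply, Matrix.transpose_apply, Matrix.map_apply, Finset.sum_mul]

theorem Fl.congr {u v : Cm N → ℝ} (h : Fl u z) (e : v =ᶠ[𝓝 z] u) : Fl v z :=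
  ⟨h.1.congr_of_eventuallyEq e, (cHess_congr e).trans h.2⟩

theorem Fl.comp (h : Fl g (Φ z)) (h' : AnalyticAt ℂ Φ z) : Fl (fun y => g (Φ y)) z :=
  ⟨h.1.comp z (an_sm h'), by rw [cHess_comp (two h.1) h', h.2, Matrix.mul_zero, Matrix.zero_mul]⟩

theorem jc_unit {Φ Ψ : Cm N → Cm N} (h : AnalyticAt ℂ Φ z) (h' : AnalyticAt ℂ Ψ (Φ z))
    (e : ∀ᶠ y in 𝓝 z, Ψ (Φ y) = y) : IsUnit (jc Φ z).det := by
  have h1 : jc Ψ (Φ z) * jc Φ z = 1 := by rw [← jc_comp h' h, jc_congr e, jc_id]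
  exact Matrix.isUnit_det_of_left_inverse h1

theorem Bih.unit {τ : Chart N (Cm N)} (h : Bih τ) (hz : z ∈ τ.source) : IsUnit (jc τ z).det :=
  jc_unit (h z hz).1 (h z hz).2 (τ.eventually_left_inverse hz)

/-- smooth with positive definite complex Hessian -/
def Pd (u : Cm N → ℝ) (z : Cm N) : Prop := ContDiffAt ℝ ∞ u z ∧ (cHess u z).PosDef

theorem Pd.congr {u v : Cm N → ℝ} (h : Pd u z) (e : v =ᶠ[𝓝 z] u) : Pd v z :=
  ⟨h.1.congr_of_eventuallyEq e, (cHess_congr e).symm ▸ h.2⟩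

theorem Pd.comp {Φ : Cm N → Cm N} {g : Cm N → ℝ} (h : Pd g (Φ z)) (h' : AnalyticAt ℂ Φ z)
    (hu : IsUnit (jc Φ z).det) : Pd (fun y => g (Φ y)) z :=
  ⟨h.1.comp z (an_sm h'), by rw [cHess_comp (two h.1) h']; exact posDef_form h.2 hu⟩

end flat

section mfd
variable {p : ℕ} {Y : Type} [TopologicalSpace Y] [ChartedSpace (Cm p) Y] {e e' : Chart p Y} {y : Y}

theorem at_chartAt (y : Y) : At (chartAt (Cm p) y) y := ⟨chart_mem_atlas _ _, mem_chart_source _ _⟩

theorem isOpen_bl (e : Chart p Y) (r : ℝ) : IsOpen (Bl e r) :=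
  e.continuousOn.isOpen_inter_preimage e.open_source isOpen_ball

theorem Bl.mono {r r' : ℝ} (h : r ≤ r') : Bl e r ⊆ Bl e r' :=
  fun _ hy => ⟨hy.1, ball_subset_ball h hy.2⟩

/-- the closed coordinate polydisc -/
def cBl (e : Chart p Y) (r : ℝ) : Set Y := e.symm '' closedBall 0 r

theorem cBl_cpt {r : ℝ} (h : closedBall 0 r ⊆ e.target) : IsCompact (cBl e r) :=
  (isCompact_closedBall 0 r).image_of_continuousOn (e.continuousOn_symm.mono h)

theorem mem_cBl {r : ℝ} (h : closedBall 0 r ⊆ e.target) :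
    y ∈ cBl e r ↔ y ∈ e.source ∧ e y ∈ closedBall 0 r :=
  ⟨fun ⟨_, hz, k⟩ => k ▸ ⟨e.map_target (h hz), (e.right_inv (h hz)).symm ▸ hz⟩,
    fun k => ⟨_, k.2, e.left_inv k.1⟩⟩

theorem tends_symm (hy : y ∈ e.source) : Tendsto e.symm (𝓝 (e y)) (𝓝 y) := e.tendsto_symm hy

theorem ev_sy (hy : y ∈ e.source) {P : Y → Prop} (h : ∀ᶠ x in 𝓝 y, P x) :
    ∀ᶠ z in 𝓝 (e y), P (e.symm z) := (tends_symm hy).eventually h

theorem ev_of_sy (hy : y ∈ e.source) {P : Y → Prop} (h : ∀ᶠ z in 𝓝 (e y), P (e.symm z)) :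
    ∀ᶠ x in 𝓝 y, P x := by
  filter_upwards [(e.continuousAt hy).eventually h, e.open_source.mem_nhds hy] with y a b
  rwa [e.left_inv b] at a

theorem ev_tr {β : Type} (u : Y → β) (hy : y ∈ e.source) (hy' : y ∈ e'.source) :
    (fun z => u (e.symm z)) =ᶠ[𝓝 (e y)] fun z => u (e'.symm (e' (e.symm z))) :=
  (ev_sy hy (e'.open_source.mem_nhds hy')).mono fun z hz => by simp only [e'.left_inv hz]

theorem ev_inv (hy : y ∈ e.source) (hy' : y ∈ e'.source) :
    ∀ᶠ z in 𝓝 (e y), e (e'.symm (e' (e.symm z))) = z := by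
  filter_upwards [ev_sy hy (e'.open_source.mem_nhds hy'),
    e.open_target.mem_nhds (e.map_source hy)] with z h1 h2
  rw [e'.left_inv h1, e.right_inv h2]

variable [IsManifold 𝓘(ℂ, Cm p) ω Y]

theorem cd_atlas (he : e ∈ atlas (Cm p) Y) : Cd e := fun _ hy _ h' =>
  ⟨(INT.transition_contDiffAt h' ⟨he, hy⟩).analyticAt,
    (INT.transition_contDiffAt ⟨he, hy⟩ h').analyticAt⟩

theorem Cd.tr (h : Cd e) (h' : Cd e') (hy : y ∈ e.source) (hy' : y ∈ e'.source) :
    AnalyticAt ℂ (fun z => e' (e.symm z)) (e y) := by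
  have hc := at_chartAt (p := p) y
  exact ((h' y hy' _ hc).1.comp_of_eq (h y hy _ hc).2 (by rw [e.left_inv hy])).congr
    (ev_tr e' hy hc.2).symm

theorem Cd.bih (h : Cd e) (h' : Cd e') : Bih (e.symm.trans e') := fun z hz => by
  have h1 : e.symm z ∈ e.source := e.map_target hz.1
  have h2 := h.tr h' h1 hz.2
  rw [e.right_inv hz.1] at h2
  exact ⟨h2, h'.tr h hz.2 h1⟩

theorem Cd.unit (h : Cd e) (h' : Cd e') (hy : y ∈ e.source) (hy' : y ∈ e'.source) :
    IsUnit (jc (fun z => e' (e.symm z)) (e y)).det :=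
  jc_unit (Ψ := fun z => e (e'.symm z)) (h.tr h' hy hy')
    (by rw [e.left_inv hy]; exact h'.tr h hy' hy) (ev_inv hy hy')

theorem Cd.an_tr (h : Cd e) (h' : Cd e') (hy : y ∈ e.source) (hy' : y ∈ e'.source) {g : Y → ℂ}
    (k : AnalyticAt ℂ (fun z => g (e'.symm z)) (e' y)) :
    AnalyticAt ℂ (fun z => g (e.symm z)) (e y) :=
  (k.comp_of_eq (h.tr h' hy hy') (by rw [e.left_inv hy])).congr (ev_tr g hy hy').symm

theorem Cd.fl_tr (h : Cd e) (h' : Cd e') (hy : y ∈ e.source) (hy' : y ∈ e'.source) {u : Y → ℝ}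
    (k : Fl (fun z => u (e'.symm z)) (e' y)) : Fl (fun z => u (e.symm z)) (e y) :=
  (Fl.comp (Φ := fun z => e' (e.symm z)) (by rwa [e.left_inv hy]) (h.tr h' hy hy')).congr
    (ev_tr u hy hy')

theorem Cd.pd_tr (h : Cd e) (h' : Cd e') (hy : y ∈ e.source) (hy' : y ∈ e'.source) {u : Y → ℝ}
    (k : Pd (fun z => u (e'.symm z)) (e' y)) : Pd (fun z => u (e.symm z)) (e y) :=
  (Pd.comp (Φ := fun z => e' (e.symm z)) (by rwa [e.left_inv hy]) (h.tr h' hy hy')
    (h.unit h' hy hy')).congr (ev_tr u hy hy')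

theorem Cd.hol_iff (h : Cd e) (hy : y ∈ e.source) {g : Y → ℂ} :
    Hol p g y ↔ AnalyticAt ℂ (fun z => g (e.symm z)) (e y) :=
  ⟨fun k => h.an_tr (cd_atlas (at_chartAt y).1) hy (at_chartAt y).2 (k _ (at_chartAt y)),
    fun k _ h' => (cd_atlas h'.1).an_tr h h'.2 hy k⟩

theorem Cd.flat_iff (h : Cd e) (hy : y ∈ e.source) {u : Y → ℝ} :
    FlatAt p u y ↔ Fl (fun z => u (e.symm z)) (e y) :=
  ⟨fun k => h.fl_tr (cd_atlas (at_chartAt y).1) hy (at_chartAt y).2 (k _ (at_chartAt y)),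
    fun k _ h' => (cd_atlas h'.1).fl_tr h h'.2 hy k⟩

theorem Cd.pos_iff (h : Cd e) (hy : y ∈ e.source) {u : Y → ℝ} :
    PosAt p u y ↔ Pd (fun z => u (e.symm z)) (e y) :=
  ⟨fun k => h.pd_tr (cd_atlas (at_chartAt y).1) hy (at_chartAt y).2 (k _ (at_chartAt y)),
    fun k _ h' => (cd_atlas h'.1).pd_tr h h'.2 hy k⟩

theorem Cd.hol_comp (h : Cd e) (hy : y ∈ e.source) {g : Cm p → ℂ} (hg : AnalyticAt ℂ g (e y)) :
    Hol p (fun x => g (e x)) y :=
  (h.hol_iff hy).2 (hg.congr ((e.eventually_right_inverse' hy).mono fun z hz => by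
    simp only [hz]))

theorem flat_cont {u : Y → ℝ} (h : FlatAt p u y) : ContinuousAt u y := by
  have hc := at_chartAt (p := p) y
  refine ((h _ hc).1.continuousAt.comp ((chartAt (Cm p) y).continuousAt hc.2)).congr ?_
  exact ((chartAt (Cm p) y).eventually_left_inverse hc.2).mono fun x hx => by simp [hx]

variable {n : ℕ} {X : Type} [TopologicalSpace X] [ChartedSpace (Cm n) X]
  [IsManifold 𝓘(ℂ, Cm n) ω X] {f : X → Y} {x : X}

theorem Cd.coord (h : Cd e) (hf : HolM n p f) (hx : f x ∈ e.source) (a : Fin p) :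
    Hol n (fun x => e (f x) a) x :=
  hf.hol (a := fun y => e y a) (h.hol_comp (g := fun z => z a) hx
    ((ContinuousLinearMap.proj (R := ℂ) (φ := fun _ : Fin p => ℂ) a).analyticAt _))

theorem flat_comp (hf : HolM n p f) {u : Y → ℝ} (h : FlatAt p u (f x)) :
    FlatAt n (fun x => u (f x)) x := fun c hc => by
  have he := at_chartAt (p := p) (f x)
  refine Fl.congr (Fl.comp (g := fun z => u ((chartAt (Cm p) (f x)).symm z))
    (Φ := fun z => chartAt (Cm p) (f x) (f (c.symm z))) (by rw [c.left_inv hc.2]; exact h _ he)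
    (hf.an hc he)) ?_
  exact (ev_sy hc.2 (hf.cont.continuousAt.eventually
    ((chartAt (Cm p) (f x)).eventually_left_inverse he.2))).mono fun z hz => by simp only [hz]

/-- the affine map `z ↦ r⁻¹ (z - c)` -/
def aff (c : Cm p) (r : ℝ) (hr : r ≠ 0) : Cm p ≃ₜ Cm p :=
  (Homeomorph.subRight c).trans (Homeomorph.smulOfNeZero (r⁻¹ : ℂ) (by simpa using hr))

theorem aff_apply (c : Cm p) (r : ℝ) (hr : r ≠ 0) (z : Cm p) :
    aff c r hr z = (r⁻¹ : ℂ) • (z - c) := rfl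

theorem aff_symm (c : Cm p) (r : ℝ) (hr : r ≠ 0) (z : Cm p) :
    (aff c r hr).symm z = (r : ℂ) • z + c := by
  rw [Homeomorph.symm_apply_eq, aff_apply, add_sub_cancel_right, smul_smul,
    inv_mul_cancel₀ (by simpa using hr), one_smul]

theorem exists_cd (y : Y) :
    ∃ e : Chart p Y, Cd e ∧ closedBall 0 5 ⊆ e.target ∧ y ∈ Bl e 1 := by
  have hc := at_chartAt (p := p) y
  set c := chartAt (Cm p) y
  obtain ⟨R, hR, h⟩ := nhds_basis_closedBall.mem_iff.1
    (c.open_target.mem_nhds (c.map_source hc.2))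
  have hr : R / 5 ≠ 0 := by positivity
  refine ⟨c.transHomeomorph (aff (c y) (R / 5) hr), fun x hx e' he' => ⟨?_, ?_⟩, fun z hz => ?_,
    hc.2, ?_⟩
  · have := (cd_atlas hc.1 x hx e' he').1
    exact (this.sub analyticAt_const).const_smul (c := ((R / 5 : ℝ) : ℂ)⁻¹)
  · have h1 : AnalyticAt ℂ (fun z => (aff (c y) (R / 5) hr).symm z) (aff (c y) (R / 5) hr (c x)) := by
      simp only [aff_symm]
      fun_prop
    exact (cd_atlas hc.1 x hx e' he').2.comp_of_eq h1 (Homeomorph.symm_apply_apply _ _)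
  · refine h (?_ : (aff (c y) (R / 5) hr).symm z ∈ _)
    rw [aff_symm, mem_closedBall_iff_norm, add_sub_cancel_right, norm_smul, Complex.norm_real,
      Real.norm_of_nonneg (by positivity)]
    have := mem_closedBall_zero_iff.1 hz
    nlinarith
  · change aff (c y) (R / 5) hr (c y) ∈ ball 0 1
    simp [aff_apply]

theorem exists_cv [CompactSpace Y] : Nonempty (Cv p Y) := by
  choose e h1 h2 h3 using exists_cd (p := p) (Y := Y)
  obtain ⟨T, hT⟩ := isCompact_univ.elim_finite_subcover (fun y => Bl (e y) 1)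
    (fun y => isOpen_bl _ _) fun y _ => mem_iUnion.2 ⟨y, h3 y⟩
  refine ⟨⟨T, fun i => e i, fun i => h1 i, fun i => h2 i, fun y => ?_⟩⟩
  obtain ⟨a, k1, k2⟩ := mem_iUnion₂.1 (hT (mem_univ y))
  exact ⟨⟨a, k1⟩, k2⟩

end mfd

theorem stCd : StCd := fun _ _ =>
  ⟨exists_cv, fun _ => cd_atlas, fun _ _ => Cd.bih, fun _ h _ hy =>
    ⟨fun _ => h.hol_iff hy, fun _ => h.flat_iff hy, fun _ => h.pos_iff hy, fun _ _ _ _ hf k =>
      ⟨h.coord hf (k ▸ hy), fun _ hg => hf.hol (k ▸ hg), fun _ hu => flat_comp hf (k ▸ hu)⟩⟩⟩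

end Vale.Agent.P281Z.Ky
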