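import Vale.Agent.P281Z.Ky.Basic
import Vale.Agent.P272.K.INT.Dens
import Vale.Agent.P272.K.C2.Wirt

/-!
# P281Z, block KY: change of coordinates (CHG)
-/

open scoped ContDiff Topology ComplexOrder Matrix
open MeasureTheory Filter Set
open Vale.Agent.P272.K

noncomputable section

namespace Vale.Agent.P281Z.Ky

namespace ChgH

variable {p : ℕ}

theorem ct_of {V K : Set (Cm p)} {F : Cm p → ℂ} (hK : IsCompact K) (hKV : K ⊆ V)
    (hc : ∀ w ∈ V, ContinuousAt F w) (h0 : ∀ w ∉ K, F w = 0) : Ct V F := by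
  have h : tsupport F ⊆ V :=
    (closure_minimal (Function.support_subset_iff'.2 h0) hK.isClosed).trans hKV
  exact ⟨continuous_of_tsupport fun w hw => hc w (h hw), HasCompactSupport.intro hK h0, h⟩

variable {τ : Chart p (Cm p)} {U : Set (Cm p)} {ψ : Cm p → ℂ} {j k a b : Fin p}

theorem tw_apply {z : Cm p} (hz : z ∈ τ.source) : tw τ ψ j k a b (τ z) =
    ψ z * (jc τ z a j * star (jc τ z b k) / (‖(jc τ z).det‖ ^ 2 : ℝ)) := by
  rw [tw, if_pos (τ.map_source hz), τ.left_inv hz]

theorem ct_tw (h : Bih τ) (hU : U ⊆ τ.source) (hψ : Ct U ψ) : Ct (τ '' U) (tw τ ψ j k a b) := by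
  refine ct_of (K := τ '' tsupport ψ)
    (hψ.2.1.isCompact.image_of_continuousOn (τ.continuousOn.mono (hψ.2.2.trans hU)))
    (image_mono hψ.2.2) ?_ fun w hw => ?_
  · rintro _ ⟨z, hz, rfl⟩
    have hs := hU hz
    have c1 : ∀ a j, ContinuousAt (fun y => jc τ y a j) z := fun a j =>
      (jc_an (h z hs).1 a j).continuousAt
    have c2 : ContinuousAt (fun y => (jc τ y).det) z := continuous_id.matrix_det.continuousAt.comp
      (continuousAt_pi.2 fun a => continuousAt_pi.2 fun j => c1 a j)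
    have c3 : ContinuousAt (fun y => ψ y * (jc τ y a j * star (jc τ y b k) /
        (‖(jc τ y).det‖ ^ 2 : ℝ))) z := hψ.1.continuousAt.mul (((c1 a j).mul (c1 b k).star).div
      (Complex.continuous_ofReal.continuousAt.comp (c2.norm.pow 2))
      (Complex.ofReal_ne_zero.2 (pow_ne_zero 2 (norm_ne_zero_iff.2 (h.unit hs).ne_zero))))
    refine (c3.comp_of_eq (τ.continuousAt_symm (τ.map_source hs)) (τ.left_inv hs)).congr ?_
    filter_upwards [τ.open_target.mem_nhds (τ.map_source hs)] with w hw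
    exact (if_pos hw).symm
  · rw [tw]
    split_ifs with ht
    · rw [image_eq_zero_of_notMem_tsupport fun c => hw ⟨_, c, τ.right_inv ht⟩, zero_mul]
    · rfl

end ChgH

open ChgH in
/-- **CHG** -/
theorem stChg : StChg := by
  intro p τ U h hO hU
  refine ⟨fun φ P A => ⟨fun m z hz => (A.sm m _ ⟨z, hz, rfl⟩).comp z (an_sm (h z (hU hz)).1),
    fun m z hz => ?_, fun m z hz => A.anti m _ ⟨z, hz, rfl⟩, fun z hz => A.lim _ ⟨z, hz, rfl⟩,
    fun z hz => ?_⟩, fun ψ hψ j k => ⟨fun a b => ct_tw h hU hψ, fun φ hφ => ?_⟩⟩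
  · rw [cHess_comp (two (A.sm m _ ⟨z, hz, rfl⟩)) (h z (hU hz)).1]
    exact (A.psd m _ ⟨z, hz, rfl⟩).mul_mul_conjTranspose_same _
  · have := A.pos _ ⟨z, hz, rfl⟩
    rwa [← τ.map_nhds_eq (hU hz), frequently_map] at this
  · have h0 : ∀ a b, ∀ w ∉ tsupport (tw τ ψ j k a b), tw τ ψ j k a b w * cHess φ w a b = 0 :=
      fun a b w hw => by rw [image_eq_zero_of_notMem_tsupport hw, zero_mul]
    have hi : ∀ a b, Integrable fun w => tw τ ψ j k a b w * cHess φ w a b := fun a b => by
      have c := ct_tw (j := j) (k := k) (a := a) (b := b) h hU hψ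
      have d := ct_of c.2.1.isCompact c.2.2 (fun w hw => c.1.continuousAt.mul (by
        obtain ⟨z, hz, rfl⟩ := hw
        exact (C2.contDiffAt_cHess (m := 0) (hφ z hz) (by norm_cast) a b).continuousAt)) (h0 a b)
      exact d.1.integrable_of_hasCompactSupport d.2.1
    simp only [← integral_finsetSum _ fun b _ => hi _ b]
    rw [← integral_finsetSum _ fun a _ => integrable_finsetSum _ fun b _ => hi a b,
      ← setIntegral_eq_integral_of_forall_compl_eq_zero (s := τ '' U) fun w hw =>
        Finset.sum_eq_zero fun a _ => Finset.sum_eq_zero fun b _ =>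
          h0 a b w fun c => hw ((ct_tw h hU hψ).2.2 c),
      integral_image_eq_integral_abs_det_fderiv_smul volume hO.measurableSet
        (fun z hz => HasFDerivAt.hasFDerivWithinAt
          ((h z (hU hz)).1.differentiableAt.restrictScalars ℝ).hasFDerivAt) (τ.injOn.mono hU),
      ← setIntegral_eq_integral_of_forall_compl_eq_zero (s := U) fun z hz => by
        rw [image_eq_zero_of_notMem_tsupport fun c => hz (hψ.2.2 c), zero_mul]]
    refine setIntegral_congr_fun hO.measurableSet fun z hz => ?_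
    have e : |(fderiv ℝ τ z).det| = ‖(jc τ z).det‖ ^ 2 :=
      (congrArg abs (INT.det_fderiv_real (h z (hU hz)).1.differentiableAt)).trans (abs_sq _)
    have n0 : ((‖(jc τ z).det‖ ^ 2 : ℝ) : ℂ) ≠ 0 :=
      Complex.ofReal_ne_zero.2 (pow_ne_zero 2 (norm_ne_zero_iff.2 (h.unit (hU hz)).ne_zero))
    simp only [tw_apply (hU hz), cHess_comp (two (hφ z hz)) (h z (hU hz)).1, e,
      Complex.real_smul, Matrix.mul_apply, Matrix.transpose_apply, Matrix.map_apply,
      Finset.sum_mul, Finset.mul_sum]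
    rw [Finset.sum_comm]
    refine Finset.sum_congr rfl fun a _ => Finset.sum_congr rfl fun b _ => ?_
    rw [Complex.star_def]
    field_simp

end Vale.Agent.P281Z.Ky
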