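import Vale.Agent.P281Z.Ky.Defs
import Vale.Agent.P284Z.F0.Ops

/-!
# P281Z, block KY: comparison of the Bergman spaces of two charts
-/

open scoped Topology ENNReal
open MeasureTheory Filter Set Metric
open Vale.Agent.P272.K (Cm Chart)

noncomputable section

namespace Vale.Agent.P281Z.Ky

namespace CmpA

theorem tube {X Y : Type} [PseudoMetricSpace X] [PseudoMetricSpace Y] {K : Set X}
    (hK : IsCompact K) {f : X → Y} (hf : ContinuousOn f K) {P : X × Y → Prop}
    (h : ∀ x ∈ K, ∀ᶠ q in 𝓝 (x, f x), P q) :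
    ∃ δ > (0 : ℝ), δ ≤ 1 ∧ ∀ x ∈ K, ∀ w ∈ ball (f x) δ, P (x, w) := by
  have hc := hK.image_of_continuousOn (continuousOn_id.prodMk hf)
  obtain ⟨δ, h0, h1⟩ := hc.exists_thickening_subset_open (isOpen_interior (s := {q | P q})) (by
    rintro _ ⟨x, hx, rfl⟩
    exact mem_interior_iff_mem_nhds.2 (h x hx))
  refine ⟨min δ 1, by positivity, min_le_right _ _, fun x hx w hw => interior_subset
    (h1 (mem_thickening_iff.2 ⟨_, mem_image_of_mem _ hx, ?_⟩))⟩
  simpa [Prod.dist_eq, h0] using (mem_ball.1 hw).trans_le (min_le_left _ _)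

theorem pt {a E j s : ℝ} (hE : 0 < E) (hj : 0 ≤ j) (h : j * s * E ≤ 1) {g : ℝ} (hg : 0 ≤ g) :
    ENNReal.ofReal j * (ENNReal.ofReal (s * g) * (ENNReal.ofReal a)⁻¹) ≤
      ENNReal.ofReal g * (ENNReal.ofReal (a * E))⁻¹ := by
  rw [ENNReal.ofReal_mul' hE.le, ENNReal.mul_inv (Or.inr ENNReal.ofReal_ne_top)
    (Or.inl ENNReal.ofReal_ne_top), ← ENNReal.ofReal_inv_of_pos hE, ← mul_assoc,
    ← ENNReal.ofReal_mul hj, mul_comm _ (ENNReal.ofReal E⁻¹), ← mul_assoc (ENNReal.ofReal g),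
    ← ENNReal.ofReal_mul hg]
  refine mul_le_mul_left (ENNReal.ofReal_le_ofReal ?_) _
  rw [← div_eq_mul_inv, le_div_iff₀ hE]
  nlinarith

end CmpA

theorem stCmp_of (hE : StExt) : StCmp := by
  intro p τ U K W W' T hτ hU h1 h2 _ hK h4 h5 _ hW' hT hc η hη
  let F : Cm p → ℝ := fun z => |(fderiv ℝ τ z).det|
  have hF : ∀ z ∈ τ.source, ContinuousAt F z := fun z hz =>
    (ContinuousLinearMap.continuous_det.continuousAt.comp
      ((hτ z hz).1.restrictScalars (𝕜 := ℝ)).fderiv.continuousAt).abs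
  obtain ⟨J, hJ⟩ := hK.exists_bound_of_continuousOn fun z hz =>
    (hF z (h1 (h4 hz))).continuousWithinAt
  obtain ⟨δ, d0, d1, hδ⟩ := CmpA.tube hK (τ.continuousOn.mono (h4.trans h1))
    (P := fun q => q.2 ∈ τ.target ∧ τ.symm q.2 ∈ U ∧ T (τ.symm q.2) < T q.1 + η ∧
      F (τ.symm q.2) < F q.1 + 1) fun x hx => by
    have a := h1 (h4 hx)
    have b : Tendsto (fun q : Cm p × Cm p => τ.symm q.2) (𝓝 (x, τ x)) (𝓝 x) :=
      (τ.tendsto_symm a).comp continuousAt_snd
    have b' : Tendsto (fun q : Cm p × Cm p => q.1) (𝓝 (x, τ x)) (𝓝 x) := continuousAt_fst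
    have c := hT.continuousAt (hU.mem_nhds (h4 hx))
    exact (continuousAt_snd.eventually (τ.open_target.mem_nhds (τ.map_source a))).and
      ((b.eventually (hU.mem_nhds (h4 hx))).and
      (((c.tendsto.comp b).eventually_lt ((c.tendsto.comp b').add_const η)
        (lt_add_of_pos_right _ hη)).and (((hF x a).tendsto.comp b).eventually_lt
          (((hF x a).tendsto.comp b').add_const 1) (lt_add_one _))))
  obtain ⟨C, hC, h6⟩ := hE p δ d0 d1
  refine ⟨(|J| + 1) * C ^ 2, by positivity, fun k x hx g hg => ?_⟩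
  obtain ⟨L, hL⟩ : ∃ L, L = (|J| + 1) * Real.exp (k * (η + T x)) := ⟨_, rfl⟩
  have hL0 : 0 < L := by rw [hL]; positivity
  have hs : ‖((√L⁻¹ : ℝ) : ℂ)‖ ^ 2 = L⁻¹ := by
    rw [Complex.norm_real, Real.norm_of_nonneg (Real.sqrt_nonneg _), Real.sq_sqrt (by positivity)]
  have key := h6 (fun z => W' z ^ k) (τ x) (fun w => (√L⁻¹ : ℝ) * g (τ.symm w))
    (hW'.pow k) (h5 hx) (fun w hw => ?_) ?_
  · obtain ⟨G, h7, h8⟩ := key
    refine ⟨G, h7, le_of_eq ?_⟩
    have h9 := congrArg (fun z : ℂ => L * ‖z‖ ^ 2) h8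
    simp only [τ.left_inv (h1 (h4 hx)), norm_mul, mul_pow, hs] at h9
    rw [mul_inv_cancel_left₀ hL0.ne', Complex.norm_real, Real.norm_eq_abs, sq_abs] at h9
    rw [h9, hL]
    ring
  · obtain ⟨a, b, -⟩ := hδ x hx w hw
    have c := (hτ _ (τ.map_target a)).2
    rw [τ.right_inv a] at c
    exact (((hg.1.differentiableAt (isOpen_ball.mem_nhds (h2 b))).comp w
      c.differentiableAt).const_mul _).differentiableWithinAt
  · have hA : IsOpen (τ.source ∩ τ ⁻¹' ball (τ x) δ) := τ.isOpen_inter_preimage isOpen_ball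
    have e : ball (τ x) δ = τ '' (τ.source ∩ τ ⁻¹' ball (τ x) δ) := by
      refine Subset.antisymm (fun w hw => ?_) (image_subset_iff.2 inter_subset_right)
      have a := (hδ x hx w hw).1
      exact ⟨_, ⟨τ.map_target a, by rwa [mem_preimage, τ.right_inv a]⟩, τ.right_inv a⟩
    rw [e, lintegral_image_eq_lintegral_abs_det_fderiv_mul volume hA.measurableSet
      (fun z hz => ((hτ z hz.1).1.restrictScalars
        (𝕜 := ℝ)).differentiableAt.hasFDerivAt.hasFDerivWithinAt) (τ.injOn.mono inter_subset_left)]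
    have k1 : ∀ z ∈ τ.source ∩ τ ⁻¹' ball (τ x) δ, z ∈ U ∧ T z < T x + η ∧ F z < F x + 1 :=
      fun z hz => by simpa only [τ.left_inv hz.1] using (hδ x hx _ hz.2).2
    refine le_trans (setLIntegral_mono' hA.measurableSet fun z hz => ?_)
      ((lintegral_mono_set fun z hz => h2 (k1 z hz).1).trans hg.2)
    obtain ⟨a, b, c⟩ := k1 z hz
    beta_reduce
    rw [τ.left_inv hz.1, norm_mul, mul_pow, hs, hc z a, mul_pow, ← Real.exp_nat_mul]
    refine CmpA.pt (Real.exp_pos _) (abs_nonneg _) ?_ (sq_nonneg _)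
    rw [mul_right_comm, ← div_eq_mul_inv, div_le_one hL0, hL]
    have c' : F x ≤ |J| := ((le_abs_self _).trans (hJ x hx)).trans (le_abs_self J)
    exact mul_le_mul (show F z ≤ _ by linarith) (Real.exp_le_exp.2
      (mul_le_mul_of_nonneg_left (by linarith) k.cast_nonneg)) (Real.exp_pos _).le (by positivity)

end Vale.Agent.P281Z.Ky
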