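import Vale.Agent.P281Z.Ky.Basic

/-!
# P281Z, block KY: the direct image currents of two charts are compatible
-/

set_option linter.unusedSectionVars false

open scoped Manifold ContDiff Topology ComplexOrder ENNReal Matrix
open MeasureTheory Filter Set Metric
open Vale.Agent.P272.K (Cm Chart At IsHermitian)
open Vale.Agent.P301.H599 (Fm)

noncomputable section

namespace Vale.Agent.P281Z.Ky

namespace CmtH

theorem alg {p : ℕ} (J G : Matrix (Fin p) (Fin p) ℂ) (h : IsUnit J.det) (t : ℂ) (j k : Fin p) :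
    ∑ a, ∑ b, t * (J a j * star (J b k) / (‖J.det‖ ^ 2 : ℝ)) * (J.map star * G * Jᵀ).adjugate a b =
      t * G.adjugate j k := by
  have h0 : ((‖J.det‖ ^ 2 : ℝ) : ℂ) ≠ 0 := by simpa using h.ne_zero
  have hd : (J.map star).det = star J.det :=
    ((starRingEnd ℂ).map_det J).symm
  have h1 : Jᵀ * (J.map star * G * Jᵀ).adjugate * J.map star =
      ((‖J.det‖ ^ 2 : ℝ) : ℂ) • G.adjugate := by
    rw [Matrix.adjugate_mul_distrib, Matrix.adjugate_mul_distrib, ← Matrix.mul_assoc,
      Matrix.mul_adjugate, Matrix.mul_assoc, Matrix.mul_assoc, Matrix.adjugate_mul, hd,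
      Matrix.det_transpose, Matrix.smul_mul, Matrix.one_mul, Matrix.mul_smul, Matrix.mul_one,
      smul_smul, Complex.star_def, Complex.mul_conj, Complex.normSq_eq_norm_sq]
  have h2 := congrFun (congrFun h1 j) k
  generalize (J.map star * G * Jᵀ).adjugate = A at h2 ⊢
  simp only [Matrix.mul_apply, Matrix.transpose_apply, Matrix.map_apply, Matrix.smul_apply,
    smul_eq_mul, Finset.sum_mul] at h2
  rw [← mul_div_cancel_left₀ (G.adjugate j k) h0, ← h2, Finset.sum_comm, Finset.sum_div,
    Finset.mul_sum]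
  refine Finset.sum_congr rfl fun b _ => ?_
  rw [Finset.sum_div, Finset.mul_sum]
  exact Finset.sum_congr rfl fun a _ => by ring

theorem intg {p : ℕ} {Ω : Type} [MeasurableSpace Ω] {T : Cur p Ω} {U U' : Set (Cm p)} {c : ℝ}
    (h : T.Ok U c) {ψ : Cm p → ℂ} (hψ : Ct U' ψ) (a b : Fin p) :
    Integrable (fun x => ψ (T.y x) * T.S x a b) T.μ := by
  have := h.fin
  obtain ⟨B, hB⟩ := hψ.1.bounded_above_of_compact_support hψ.2.1
  obtain ⟨C, hC⟩ := h.bd
  refine (integrable_const (B * C)).mono' ((hψ.1.comp_aestronglyMeasurable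
    h.my.aestronglyMeasurable).mul (h.mS a b)) (hC.mono fun x hx => ?_)
  rw [norm_mul]
  exact mul_le_mul (hB _) (hx a b) (norm_nonneg _) ((norm_nonneg _).trans (hB 0))

theorem gm_congr {n p : ℕ} {X : Type} [TopologicalSpace X] [ChartedSpace (Cm n) X] (w : Fm n X)
    {y y' : X → Cm p} {x : X} (h : y =ᶠ[𝓝 x] y') : gm w y x = gm w y' x := by
  rw [gm, gm, gmc, gmc, jc_congr (ev_sy (at_chartAt (p := n) x).2 h)]

end CmtH

open CmtH in
theorem stCmt_of (_ : StCd) (hG : StGm) (hC : StChg) : StCmt := by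
  intro n p V Y _ _ w μ f e e' c U ψ hw hf he he' hok hU hs h5 h5' hψ j k
  have hb := he.bih he'
  have hO : ∀ e : Chart p Y.X, MeasurableSet (f ⁻¹' Bl e 5) := fun e =>
    ((isOpen_bl e 5).preimage hf.cont).measurableSet
  have hi := fun a b => intg hok (((hC p _ U hb hU hs).2 ψ hψ j k).1 a b) a b
  have h0 : ∀ z, z ∉ U → ψ z = 0 := fun z hz =>
    image_eq_zero_of_notMem_tsupport fun h => hz (hψ.2.2 h)
  simp only [Cur.ap, Matrix.of_apply]
  rw [Finset.sum_congr rfl fun a _ => (integral_finsetSum _ fun b _ => hi a b).symm,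
    ← integral_finsetSum _ fun a _ => integrable_finsetSum _ fun b _ => hi a b]
  simp only [cur]
  rw [← integral_indicator (hO e), ← integral_indicator (hO e')]
  refine integral_congr_ae (Eventually.of_forall fun x => ?_)
  have hsy : f x ∈ e'.source → (e.symm.trans e').symm (e' (f x)) = e (f x) := fun h => by
    change e (e'.symm (e' (f x))) = _
    rw [e'.left_inv h]
  by_cases hx : f x ∈ e.source ∧ e (f x) ∈ U
  · have hτ : (e.symm.trans e') (e (f x)) = e' (f x) := by
      change e' (e.symm (e (f x))) = _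
      rw [e.left_inv hx.1]
    have h' : f x ∈ e'.source := e.left_inv hx.1 ▸ (hs hx.2).2
    have ht : e' (f x) ∈ (e.symm.trans e').target := hτ ▸ (e.symm.trans e').map_source (hs hx.2)
    have hg : gm w (fun x => e' (f x)) x = gm w (fun x => (e.symm.trans e') (e (f x))) x :=
      gm_congr w ((hf.cont.continuousAt.eventually (e.open_source.mem_nhds hx.1)).mono
        fun z hz => by
          change _ = e' (e.symm (e (f z)))
          rw [e.left_inv hz])
    rw [indicator_of_mem (show x ∈ f ⁻¹' Bl e' 5 from ⟨h', show e' (f x) ∈ ball 0 5 from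
        hτ ▸ h5' hx.2⟩),
      indicator_of_mem (show x ∈ f ⁻¹' Bl e 5 from ⟨hx.1, h5 hx.2⟩), hg,
      ((hG n p V w (fun x => e (f x)) (f ⁻¹' e.source) hw (e.open_source.preimage hf.cont)
        fun x hx a => he.coord hf hx a).2 x hx.1).2.2.2 _ (hb _ (hs hx.2)).1]
    simp only [tw, if_pos ht, hsy h']
    exact alg _ _ (hb.unit (hs hx.2)) _ j k
  · have h1 : (f ⁻¹' Bl e 5).indicator
        (fun x => ψ (e (f x)) * (gm w (fun x => e (f x)) x).adjugate j k) x = 0 :=
      indicator_apply_eq_zero.2 fun h => by rw [h0 _ fun h' => hx ⟨h.1, h'⟩, zero_mul]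
    rw [h1]
    refine indicator_apply_eq_zero.2 fun h => Finset.sum_eq_zero fun a _ =>
      Finset.sum_eq_zero fun b _ => ?_
    rw [tw]
    split_ifs with ht
    · rw [hsy h.1, h0 _ fun h' => hx ⟨e'.left_inv h.1 ▸ ht.2, h'⟩, zero_mul, zero_mul]
    · exact zero_mul _

end Vale.Agent.P281Z.Ky
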