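import Vale.Agent.P281Z.Ky.Basic
import Vale.Agent.P284Z.F0.Ops

/-!
# P281Z, block KY: the comparison of the local Bergman kernels on the manifold
-/

open scoped Manifold ContDiff Topology
open Filter Set Metric
open Vale.Agent.P272.K (Cm Chart)
open Vale.Agent.P277Z.Pos (nsq)
open Vale.Agent.P284Z (LPsh)

noncomputable section

namespace Vale.Agent.P281Z.Ky

section flat
variable {p : ℕ} {W : Cm p → ℝ} {z : Cm p}

theorem zero_mem_Bg (W : Cm p → ℝ) : (fun _ => 0) ∈ Bg W :=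
  ⟨differentiableOn_const _, by simp⟩

theorem bg_nonneg (W : Cm p → ℝ) (z : Cm p) : 0 ≤ bg W z :=
  Real.sSup_nonneg fun _ ⟨_, _, h⟩ => h ▸ sq_nonneg _

theorem bg_le {a : ℝ} (h : ∀ g ∈ Bg W, ‖g z‖ ^ 2 ≤ a) : bg W z ≤ a :=
  csSup_le ⟨_, _, zero_mem_Bg W, rfl⟩ fun _ ⟨g, hg, k⟩ => k ▸ h g hg

theorem bdd_bg (hB : StBd) (hW : LPsh W (ball 0 4)) (hz : z ∈ ball (0 : Cm p) 3) :
    BddAbove ((fun g : Cm p → ℂ => ‖g z‖ ^ 2) '' Bg W) := by
  obtain ⟨C, hC⟩ := (hB p W hW).1 z hz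
  exact ⟨C ^ 2, fun _ ⟨g, hg, k⟩ => k ▸ pow_le_pow_left₀ (norm_nonneg _) (hC.self_of_nhds g hg) 2⟩

theorem isLUB_bg (hB : StBd) (hW : LPsh W (ball 0 4)) (hz : z ∈ ball (0 : Cm p) 3) :
    IsLUB ((fun g : Cm p → ℂ => ‖g z‖ ^ 2) '' Bg W) (bg W z) :=
  isLUB_csSup ⟨_, _, zero_mem_Bg W, rfl⟩ (bdd_bg hB hW hz)

theorem le_bg (hB : StBd) (hW : LPsh W (ball 0 4)) (hz : z ∈ ball (0 : Cm p) 3) {g : Cm p → ℂ}
    (hg : g ∈ Bg W) : ‖g z‖ ^ 2 ≤ bg W z :=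
  (isLUB_bg hB hW hz).1 ⟨g, hg, rfl⟩

theorem Cmy.nsq_cont : Continuous (nsq : Cm p → ℝ) := by
  unfold nsq
  fun_prop

end flat

theorem Cmy.pair (hB : StBd) (hC : StCmp) {p : ℕ} {Y : Mf p} (K : KC p Y.X) {η : ℝ} (hη : 0 < η)
    (i j : K.ι) : ∃ C : ℝ, 0 < C ∧ ∀ k : ℕ, ∀ y ∈ Bl (K.e i) 2, y ∈ Bl (K.e j) 2 →
      K.Q k i y ≤ C * Real.exp (k * η) * (K.Q k j y * Real.exp (k * K.h i j y)) := by
  have t2 : ∀ l, closedBall 0 2 ⊆ (K.e l).target := fun l =>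
    (closedBall_subset_closedBall (by norm_num)).trans (K.tgt l)
  have b23 : closedBall (0 : Cm p) 2 ⊆ ball 0 3 := closedBall_subset_ball (by norm_num)
  have b34 : ball (0 : Cm p) 3 ⊆ ball 0 4 := ball_subset_ball (by norm_num)
  set τ := (K.e i).symm.trans (K.e j)
  have hU : ∀ z ∈ Bl τ 3 ∩ ball 0 3, (K.e i).symm z ∈ Bl (K.e i) 4 ∧
      (K.e i).symm z ∈ Bl (K.e j) 4 := fun z hz =>
    ⟨⟨(K.e i).map_target hz.1.1.1, by
      rw [mem_preimage, (K.e i).right_inv hz.1.1.1]; exact b34 hz.2⟩, hz.1.1.2, b34 hz.1.2⟩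
  have hK : ∀ y ∈ cBl (K.e i) 2 ∩ cBl (K.e j) 2, K.e i y ∈ τ.source ∧ τ (K.e i y) = K.e j y :=
    fun y hy => by
      have h1 := ((mem_cBl (t2 i)).1 hy.1).1
      refine ⟨⟨(K.e i).map_source h1, ?_⟩, congrArg (K.e j) ((K.e i).left_inv h1)⟩
      change (K.e i).symm (K.e i y) ∈ (K.e j).source
      rw [(K.e i).left_inv h1]
      exact ((mem_cBl (t2 j)).1 hy.2).1
  obtain ⟨C, h0, h⟩ := hC p τ (Bl τ 3 ∩ ball 0 3) (K.e i '' (cBl (K.e i) 2 ∩ cBl (K.e j) 2))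
    (K.W i) (K.W j) (fun z => K.h i j ((K.e i).symm z) + K.c j * nsq (τ z) - K.c i * nsq z)
    ((K.cd i).bih (K.cd j)) ((isOpen_bl τ 3).inter isOpen_ball) (fun z hz => hz.1.1)
    inter_subset_right (fun z hz => hz.1.2)
    (((cBl_cpt (t2 i)).inter (cBl_cpt (t2 j))).image_of_continuousOn
      ((K.e i).continuousOn.mono fun y hy => ((mem_cBl (t2 i)).1 hy.1).1))
    (by
      rintro _ ⟨y, hy, rfl⟩
      refine ⟨⟨(hK y hy).1, ?_⟩, b23 ((mem_cBl (t2 i)).1 hy.1).2⟩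
      rw [mem_preimage, (hK y hy).2]
      exact b23 ((mem_cBl (t2 j)).1 hy.2).2)
    (by
      rintro _ ⟨y, hy, rfl⟩
      rw [(hK y hy).2]
      exact ((mem_cBl (t2 j)).1 hy.2).2)
    (K.lpsh i) (K.lpsh j)
    (fun z hz => ContinuousAt.continuousWithinAt ((((flat_cont (K.flat i j _ (hU z hz).1
      (hU z hz).2)).comp ((K.e i).continuousAt_symm hz.1.1.1)).add (continuousAt_const.mul
        (Cmy.nsq_cont.continuousAt.comp (τ.continuousAt hz.1.1)))).sub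
          (continuousAt_const.mul Cmy.nsq_cont.continuousAt)))
    (fun z hz => by
      have h1 := K.chg i j _ (hU z hz).1 (hU z hz).2
      rw [(K.e i).right_inv hz.1.1.1] at h1
      rw [Real.exp_sub, Real.exp_add, ← mul_div_assoc, eq_div_iff (Real.exp_pos _).ne', h1,
        mul_assoc, mul_comm (Real.exp _)]
      rfl) η hη
  refine ⟨C, h0, fun k y hi hj => ?_⟩
  have hy : y ∈ cBl (K.e i) 2 ∩ cBl (K.e j) 2 :=
    ⟨(mem_cBl (t2 i)).2 ⟨hi.1, ball_subset_closedBall hi.2⟩,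
      (mem_cBl (t2 j)).2 ⟨hj.1, ball_subset_closedBall hj.2⟩⟩
  have h1 : bg (fun z => K.W i z ^ k) (K.e i y) ≤ C * Real.exp (k * (η + (K.h i j y +
      K.c j * nsq (K.e j y) - K.c i * nsq (K.e i y)))) * bg (fun z => K.W j z ^ k) (K.e j y) :=
    bg_le fun g hg => by
      obtain ⟨G, hG, h2⟩ := h k _ ⟨y, hy, rfl⟩ g hg
      rw [(hK y hy).2, (K.e i).left_inv hi.1] at h2
      exact h2.trans (mul_le_mul_of_nonneg_left (le_bg hB ((K.lpsh j).pow k)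
        (b23 (ball_subset_closedBall hj.2)) hG) (by positivity))
  refine (mul_le_mul_of_nonneg_right h1 (Real.exp_pos _).le).trans_eq ?_
  have h3 : Real.exp (k * (η + (K.h i j y + K.c j * nsq (K.e j y) - K.c i * nsq (K.e i y)))) *
      Real.exp (k * (K.c i * nsq (K.e i y))) = Real.exp (k * η) *
        (Real.exp (k * (K.c j * nsq (K.e j y))) * Real.exp (k * K.h i j y)) := by
    simp only [← Real.exp_add]
    exact congrArg _ (by ring)
  rw [KC.Q]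
  linear_combination C * bg (fun z => K.W j z ^ k) (K.e j y) * h3

theorem stCmy_of (_ : StCd) (hB : StBd) (hC : StCmp) : StCmy := by
  intro p Y K η hη
  choose C h0 h using Cmy.pair hB hC K hη
  have s0 : 0 ≤ ∑ q : K.ι × K.ι, C q.1 q.2 := Finset.sum_nonneg fun q _ => (h0 _ _).le
  refine ⟨1 + ∑ q : K.ι × K.ι, C q.1 q.2, by linarith, fun k i j y hi hj =>
    (h i j k y hi hj).trans ?_⟩
  have h1 : C i j ≤ ∑ q : K.ι × K.ι, C q.1 q.2 :=
    Finset.single_le_sum (f := fun q : K.ι × K.ι => C q.1 q.2) (fun q _ => (h0 _ _).le)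
      (Finset.mem_univ (i, j))
  have h2 : 0 ≤ K.Q k j y := mul_nonneg (bg_nonneg _ _) (Real.exp_pos _).le
  gcongr
  linarith

end Vale.Agent.P281Z.Ky
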