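import Vale.Agent.P281Z.Ky.Vol
import Vale.Agent.P284.H451.D.Sard

/-!
# P281Z, block KY, row CUR: the direct image is a Kähler current
-/

open scoped Manifold ContDiff Topology ComplexOrder Matrix
open Filter Set MeasureTheory Metric Matrix
open Vale.Agent.P272.K
open Vale.Agent.P277Z (Hol)
open Vale.Agent.P277Z.Pos (nsq)

noncomputable section

namespace Vale.Agent.P281Z.Ky

namespace CurAux

theorem bdm {X ι : Type} [TopologicalSpace X] [Fintype ι] {K : Set X} (hK : IsCompact K)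
    {φ : ι → X → ℂ} (h : ∀ i, ContinuousOn (φ i) K) :
    ∃ C : ℝ, 0 < C ∧ ∀ x ∈ K, ∀ i, ‖φ i x‖ ≤ C := by
  obtain ⟨C, hC⟩ := hK.exists_bound_of_continuousOn (f := fun x i => φ i x) (continuousOn_pi.2 h)
  exact ⟨max C 1, by positivity, fun x hx i =>
    ((norm_le_pi_norm (fun i => φ i x) i).trans (hC x hx)).trans (le_max_left _ _)⟩

theorem quad_int {Ω : Type} [MeasurableSpace Ω] {ν : Measure Ω} {p : ℕ}
    {g : Ω → Matrix (Fin p) (Fin p) ℂ} {a : Ω → ℝ}
    (h : ∀ j k, Integrable (fun x => (a x : ℂ) * g x j k) ν) (v : Cm p) :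
    Integrable (fun x => a x * (star v ⬝ᵥ (g x *ᵥ v)).re) ν ∧
    (star v ⬝ᵥ ((of fun j k => ∫ x, (a x : ℂ) * g x j k ∂ν) *ᵥ v)).re =
      ∫ x, a x * (star v ⬝ᵥ (g x *ᵥ v)).re ∂ν := by
  have h1 : ∀ j k, Integrable (fun x => star v j * ((a x : ℂ) * g x j k * v k)) ν := fun j k =>
    ((h j k).mul_const _).const_mul _
  have h2 := integrable_finsetSum Finset.univ fun j _ =>
    integrable_finsetSum Finset.univ fun k _ => h1 j k
  have h3 : (fun x => a x * (star v ⬝ᵥ (g x *ᵥ v)).re) =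
      fun x => RCLike.re (∑ j, ∑ k, star v j * ((a x : ℂ) * g x j k * v k)) := by
    funext x
    rw [← Complex.re_ofReal_mul]
    simp only [dotProduct, mulVec, Finset.mul_sum, mul_assoc, mul_left_comm (a x : ℂ)]
    rfl
  rw [h3]
  refine ⟨h2.re, ?_⟩
  rw [integral_re h2, integral_finsetSum _ fun j _ => integrable_finsetSum _ fun k _ => h1 j k]
  simp only [integral_finsetSum _ fun k _ => h1 _ k, integral_const_mul, integral_mul_const,
    dotProduct, mulVec, of_apply, Finset.mul_sum]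
  rfl

theorem ex_reg {n p : ℕ} (V : Mf n) {y : V.X → Cm p} {S : Set V.X} (hS : IsOpen S)
    (hy : ∀ x ∈ S, ∀ a, Hol n (fun x => y x a) x) {U : Set (Cm p)} (hU : volume U ≠ 0) :
    ∃ z ∈ U, ∀ x ∈ S, y x = z → ∃ e : Chart n V.X, At e x ∧
      Function.Surjective (fderiv ℂ (fun z => y (e.symm z)) (e x)) := by
  obtain ⟨t, ht⟩ := CompactSpace.elim_nhds_subcover _ (chart_source_mem_nhds (Cm n) (M := V.X))
  have h := P284.H451.D.sard_ae_iUnion (ι := t)
    (fun i => (chartAt (Cm n) i.1).isOpen_inter_preimage_symm hS)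
    (T := fun i z => y ((chartAt (Cm n) i.1).symm z)) fun i z hz => by
      have k := an_of_hol (hy _ hz.2) ⟨chart_mem_atlas _ i.1, (chartAt _ i.1).map_target hz.1⟩
      rwa [(chartAt _ i.1).right_inv hz.1] at k
  obtain ⟨z, hz, k⟩ := Measure.exists_mem_of_measure_ne_zero_of_ae hU (ae_restrict_of_ae h)
  refine ⟨z, hz, fun x hx e => ?_⟩
  obtain ⟨i, hi, hx'⟩ := mem_iUnion₂.1 (ht.ge (mem_univ x))
  have k1 := (chartAt (Cm n) i).left_inv hx'
  exact ⟨_, ⟨chart_mem_atlas _ i, hx'⟩, k ⟨i, hi⟩ _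
    ⟨(chartAt _ i).map_source hx', by rwa [mem_preimage, k1]⟩ (by rwa [k1])⟩

end CurAux

open CurAux in
theorem stCur_of (_ : StCd) (hG : StGm) (hS : StStg) (hE : StExtr) (hF : StFib) (hA : StAdj) :
    StCur := by
  intro n p V Y _ _ w μ f e hw hμ hf hs he ht
  have hh := hw.toIsHermitian
  have := vol_fin hh hμ
  have := (P277Z.C1.vol2 n V.X w μ hh hμ).2
  set y : V.X → Cm p := fun x => e (f x)
  set O := f ⁻¹' Bl e 5
  set K := f ⁻¹' cBl e 5
  have oS : IsOpen (f ⁻¹' e.source) := e.open_source.preimage hf.cont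
  have oO : IsOpen O := (isOpen_bl e 5).preimage hf.cont
  have mO := oO.measurableSet
  have cK : IsClosed K := (cBl_cpt ht).isClosed.preimage hf.cont
  have hK := cK.isCompact
  have KS : K ⊆ f ⁻¹' e.source := fun x hx => ((mem_cBl ht).1 hx).1
  have OK : O ⊆ K := fun x hx => (mem_cBl ht).2 ⟨hx.1, ball_subset_closedBall hx.2⟩
  have hy : ∀ x ∈ f ⁻¹' e.source, ∀ a, Hol n (fun x => y x a) x := fun x hx => he.coord hf hx
  have cy : ContinuousOn y K := e.continuousOn.comp hf.cont.continuousOn KS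
  obtain ⟨g1, g2⟩ := hG n p V w y _ hh oS hy
  have cG : ContinuousOn (gm w y) K :=
    continuousOn_pi.2 fun j => continuousOn_pi.2 fun k => (g1 j k).mono KS
  have cA : ∀ j k, ContinuousOn (fun x => (gm w y x).adjugate j k) K := fun j k =>
    (continuous_id.matrix_adjugate.matrix_elem j k).comp_continuousOn cG
  have cD : ContinuousOn (fun x => (gm w y x).det) K := continuous_id.matrix_det.comp_continuousOn cG
  have cD' := Complex.continuous_re.comp_continuousOn cD
  have ms : ∀ {φ : V.X → ℂ}, ContinuousOn φ K → AEStronglyMeasurable φ (μ.restrict O) :=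
    fun h => (h.mono OK).aestronglyMeasurable mO
  have ae : ∀ {q : V.X → Prop}, (∀ x ∈ K, q x) → ∀ᵐ x ∂μ.restrict O, q x :=
    fun h => (ae_restrict_mem mO).mono fun x hx => h x (OK hx)
  have my := (cy.mono OK).aemeasurable (μ := μ) mO
  have psd : ∀ x ∈ K, (gm w y x).PosSemidef := fun x hx => (g2 x (KS hx)).2.1
  have ex := fun ψ (hψ : Tst (ball 0 5) ψ) => by
    have ca : ∀ m, ContinuousOn (fun x => dz m ψ (y x)) K := fun m =>
      (continuous_iff_continuousAt.2 fun z => (C2.contDiffAt_dz (j := m) (m := 0)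
        hψ.1.contDiffAt (by norm_cast)).continuousAt).comp_continuousOn cy
    have k := bdm hK (φ := Sum.elim (fun (i : Fin p × Fin p) x => gm w y x i.1 i.2)
      fun m x => dz m ψ (y x)) (Sum.rec (fun i => (g1 _ _).mono KS) ca)
    have k1 : {x ∈ O | y x ∈ tsupport ψ} = K ∩ y ⁻¹' tsupport ψ :=
      Set.ext fun x => ⟨fun h => ⟨OK h.1, h.2⟩, fun h => ⟨⟨KS h.1, hψ.2.2 h.2⟩, h.2⟩⟩
    exact hE p V.X (μ.restrict O) (gm w y) (fun x m => dz m ψ (y x)) k.choose
      (fun i j => ms ((g1 i j).mono KS)) (fun i => ms (ca i))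
      (ae fun x hx => ⟨fun i j => k.choose_spec.2 x hx (.inl (i, j)),
        fun i => k.choose_spec.2 x hx (.inr i)⟩)
      (hS n p V w μ O y ψ · · hw hμ oO (fun x hx => hy x hx.1) hψ.1
        (k1 ▸ (cy.preimage_isClosed_of_isClosed cK (isClosed_tsupport ψ)).isCompact))
  obtain ⟨C, -, hC⟩ := bdm hK (φ := fun (_ : Unit) x => (gm w y x).det) fun _ => cD
  obtain ⟨B, hB⟩ := hF p V.X (μ.restrict O) y (fun x => (gm w y x).det.re) C 5 my
    ((cD'.mono OK).aestronglyMeasurable mO)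
    (ae fun x hx => (Complex.abs_re_le_norm _).trans (hC x hx ())) fun ψ hψ k => by
      rw [← (ex ψ hψ).1 k]
      exact integral_congr_ae (ae fun x hx => congrArg (dz k ψ (y x) * ·)
        (Complex.ext rfl (Complex.le_def.1 (psd x hx).det_nonneg).2))
  have hB' : ∀ ψ : Cm p → ℝ, Ct (ball 0 5) (fun z => ψ z) →
      ∫ x in O, ψ (y x) * (gm w y x).det.re ∂μ = B * ∫ z, ψ z := fun ψ hψ => by
    have k := hB _ hψ
    simp only [← Complex.ofReal_mul, integral_complex_ofReal] at k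
    exact_mod_cast k
  have D0 : ∀ x ∈ K, 0 ≤ (gm w y x).det.re := fun x hx =>
    (Complex.le_def.1 (psd x hx).det_nonneg).1
  have B0 : 0 < B := by
    obtain ⟨z, hz, k⟩ := ex_reg V oS hy (measure_ball_pos volume (0 : Cm p) (r := 5)
      (by norm_num)).ne'
    obtain ⟨x, hx⟩ := hs (e.symm z)
    have k1 : f x ∈ e.source := hx ▸ e.map_target (ht (ball_subset_closedBall hz))
    have k2 : y x = z := by simp only [y, hx, e.right_inv (ht (ball_subset_closedBall hz))]
    obtain ⟨c, hc, k3⟩ := k x k1 k2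
    have k4 := (Complex.lt_def.1 ((g2 x k1).2.2.1 c hc k3).det_pos).1
    obtain ⟨ψ, a1, a2, a3, a4, a5⟩ := exists_contDiff_tsupport_subset (n := 0)
      (isOpen_ball.mem_nhds hz)
    have a6 : ∀ z, 0 ≤ ψ z := fun z => (a4 ⟨z, rfl⟩).1
    have a7 := (a3.continuous.comp_continuousOn cy).mul cD'
    refine pos_of_mul_pos_left ?_ (integral_nonneg (μ := volume) a6)
    rw [← hB' ψ ⟨Complex.continuous_ofReal.comp a3.continuous, a2.comp_left Complex.ofReal_zero,
      (tsupport_comp_subset Complex.ofReal_zero ψ).trans a1⟩,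
      setIntegral_pos_iff_support_of_nonneg_ae (ae fun x hx => mul_nonneg (a6 _) (D0 x hx))
        ((a7.integrableOn_compact hK).mono_set OK), inter_comm]
    refine ((a7.mono OK).isOpen_inter_preimage oO isOpen_ne).measure_pos μ
      ⟨x, ⟨k1, show y x ∈ _ from k2 ▸ hz⟩, ?_⟩
    show ψ (y x) * _ ≠ 0
    rw [k2, a5, one_mul]
    exact k4.ne'
  obtain ⟨T, hT, hT'⟩ := bdm hK (φ := fun (_ : Unit) x => (gm w y x).trace) fun _ =>
    continuous_id.matrix_trace.comp_continuousOn cG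
  obtain ⟨C', -, hC'⟩ := bdm hK (φ := fun (i : Fin p × Fin p) x => (gm w y x).adjugate i.1 i.2)
    fun _ => cA _ _
  refine ⟨B / T, by positivity, inferInstanceAs (IsFiniteMeasure (μ.restrict O)), my,
    fun j k => ms (cA j k), ⟨C', ae fun x hx j k => hC' x hx (j, k)⟩,
    ae fun x hx => (hA p _ (psd x hx)).1, fun ψ hψ => (ex ψ hψ).2, fun ψ hψ h0 v => ?_⟩
  have c1 := hψ.1.comp_continuousOn cy
  have c2 : ContinuousOn (fun x => ψ (y x)) K := Complex.continuous_re.comp_continuousOn c1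
  obtain ⟨q1, q2⟩ := quad_int (ν := μ.restrict O) (g := fun x => (gm w y x).adjugate)
    (a := fun x => ψ (y x))
    (fun j k => ((c1.mul (cA j k)).integrableOn_compact hK).mono_set OK) v
  refine le_trans ?_ q2.ge
  rw [show B / T * nsq v * ∫ z, ψ z = nsq v / T * (B * ∫ z, ψ z) by ring, ← hB' ψ hψ,
    ← integral_const_mul]
  refine integral_mono_ae ((((c2.mul cD').integrableOn_compact hK).mono_set OK).const_mul _) q1
    (ae fun x hx => ?_)
  obtain ⟨r1, r2⟩ := hA p _ (psd x hx)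
  have r3 := (r2 v).trans (mul_le_mul_of_nonneg_right ((Complex.re_le_norm _).trans (hT' x hx ()))
    (Complex.le_def.1 (r1.dotProduct_mulVec_nonneg v)).1)
  refine (mul_left_comm _ _ _).trans_le (mul_le_mul_of_nonneg_left ?_ (h0 _))
  rwa [div_mul_eq_mul_div, div_le_iff₀' hT, mul_comm]

end Vale.Agent.P281Z.Ky
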