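import Vale.Agent.P281Z.Ky.Defs
import Vale.Agent.P284Z.Z.Bomb
import Vale.Agent.P284Z.F0.Ball

/-!
# P281Z, block KY: extension from a small polydisc
-/

open scoped Topology ENNReal ComplexConjugate ContDiff
open Filter Set Metric MeasureTheory
open Vale.Agent.P272.K Vale.Agent.P271.Dom Vale.Agent.P284Z Vale.Agent.P284Z.Z

noncomputable section

namespace Vale.Agent.P281Z.Ky

theorem wle {a a' P W c d : ℝ} (h1 : a ≤ c * a') (h2 : P ≤ d * W) (hc : 0 ≤ c) (hd : 0 < d) :
    ENNReal.ofReal a * (ENNReal.ofReal W)⁻¹ ≤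
      ENNReal.ofReal (c * d) * (ENNReal.ofReal a' * (ENNReal.ofReal P)⁻¹) := by
  have h3 := (ENNReal.ofReal_pos.2 hd).ne'
  have h4 : (ENNReal.ofReal W)⁻¹ ≤ ENNReal.ofReal d * (ENNReal.ofReal P)⁻¹ := by
    refine le_trans (le_of_eq ?_) (mul_le_mul_right (ENNReal.inv_le_inv.2
      (ENNReal.ofReal_le_ofReal h2)) _)
    rw [ENNReal.ofReal_mul hd.le, ENNReal.mul_inv (Or.inl h3) (Or.inl ENNReal.ofReal_ne_top),
      ← mul_assoc, ENNReal.mul_inv_cancel h3 ENNReal.ofReal_ne_top, one_mul]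
  refine (mul_le_mul' (ENNReal.ofReal_le_ofReal h1) h4).trans_eq ?_
  rw [ENNReal.ofReal_mul hc, ENNReal.ofReal_mul hc, mul_mul_mul_comm]

variable {N : ℕ} {P : Cm N → ℝ}

theorem solve' (hP : LPsh P (ball 0 4)) {s : Cm N → ℂ} (hs : ContDiff ℝ 2 s)
    (hc : HasCompactSupport s) {A : ℝ} (hA : 0 ≤ A) (h3 : ∫⁻ y in ball 0 3,
      ENNReal.ofReal (∑ j, ‖dzb j s y‖ ^ 2) * (ENNReal.ofReal (P y))⁻¹ ≤ ENNReal.ofReal A) :
    ∃ F : Cm N → ℂ, DifferentiableOn ℂ F (ball 0 3) ∧ ∫⁻ z in ball 0 3, ENNReal.ofReal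
      (‖F z - s z‖ ^ 2 * Real.exp (-∑ i, ‖z i‖ ^ 2)) * (ENNReal.ofReal (P z))⁻¹ ≤
        ENNReal.ofReal (2 * A) := by
  obtain ⟨c, h1⟩ := (hs.continuous_fderiv two_ne_zero).bounded_above_of_compact_support
    (hc.fderiv ℝ)
  obtain ⟨ψ, r1, r2, r3, r4, r5⟩ := reg hP
  obtain ⟨p, C, -, hp⟩ := exh_ball (z₀ := (0 : Cm N)) (r := 3) (by norm_num)
  have h0 : ∀ z : Cm N, 0 ≤ ∑ i, ‖z i‖ ^ 2 := fun z => by positivity
  have hl : ∀ m, ∀ z ∈ ball (0 : Cm N) 3, ∀ β, ∑ j, ‖β j‖ ^ 2 ≤
      leviF (fun z => ψ m z + ∑ i, ‖z i‖ ^ 2) β z := fun m z hz β => by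
    rw [leviF_add (r1 m).contDiffAt contDiff_sq.contDiffAt, leviF_sumSq]
    exact le_add_of_nonneg_left (leviF_nonneg (r2 m) (isOpen_ball.mem_nhds hz) (r1 m).contDiffAt β)
  have hc : ∀ m, ContDiff ℝ 2 fun z => ψ m z + ∑ i, ‖z i‖ ^ 2 := fun m => (r1 m).add contDiff_sq
  have ha : Continuous fun y => ∑ j, ‖dzb j s y‖ ^ 2 := continuous_finsetSum _ fun j _ =>
    (continuous_iff_continuousAt.2 fun y => (INT.contDiffAt_dzb (m := 0) hs.contDiffAt
      (by norm_num)).continuousAt).norm.pow 2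
  obtain ⟨F, hF, H⟩ := holo_dom_sing isOpen_ball hp (Φ := fun m z => ψ m z + ∑ i, ‖z i‖ ^ 2)
    (fun m => (hc m).contDiffOn) (fun m z hz => add_le_add_left (r3 m z hz) _)
    (fun m => ⟨-m, fun z hz => ((le_lg _ _).trans (r4 m z hz)).trans (le_add_of_nonneg_right (h0 z))⟩)
    (fun m z hz β => (h0 β).trans (hl m z hz β)) hs.contDiffOn
    ⟨c, 0, fun z _ j => ((norm_dzb_le s z j).trans (h1 z)).trans_eq (by simp)⟩
    (fun _ y => ∑ j, ‖dzb j s y‖ ^ 2) (fun _ _ => by positivity) (fun _ => ha.aemeasurable)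
    (fun m z hz β => by
      refine le_trans ?_ (mul_le_mul_of_nonneg_left (hl m z hz β) (by positivity))
      refine (pow_le_pow_left₀ (norm_nonneg _) (norm_sum_le _ _) 2).trans ?_
      simp only [norm_mul, Complex.norm_conj]
      exact Finset.sum_mul_sq_le_sq_mul_sq _ _ _) hA fun m => by
      refine (setLIntegral_mono' measurableSet_ball fun z hz => ?_).trans h3
      rw [ofReal_exp_neg]
      refine mul_le_mul_right (ENNReal.inv_le_inv.2 (ENNReal.ofReal_le_ofReal ?_)) _
      exact (le_exp_lg m _).trans (Real.exp_le_exp.2 ((r4 m z hz).trans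
        (le_add_of_nonneg_right (h0 z))))
  refine ⟨F, hF, fatou (fun m => ?_) ((ae_restrict_mem measurableSet_ball).mono fun z hz => ?_)
    (.of_forall H)⟩
  · exact ((((hF.continuousOn.sub hs.continuous.continuousOn).norm.pow 2).mul
      (hc m).continuous.neg.rexp.continuousOn).aemeasurable measurableSet_ball).ennreal_ofReal
  · simp only [neg_add_rev, Real.exp_add, ← mul_assoc, ofReal_exp_neg _ (ψ _ z)]
    exact ENNReal.Tendsto.const_mul ((ENNReal.continuous_ofReal.tendsto _).comp (r5 z hz)).inv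
      (Or.inr ENNReal.ofReal_ne_top)

/-- a continuous function with a finite integral vanishes at the pole -/
theorem vanish {W u : Cm N → ℝ} {q : Cm N} (hW : LPsh W (ball 0 4)) (hq : q ∈ ball (0 : Cm N) 3)
    (hu : ContinuousAt u q) (H : ∫⁻ z in ball 0 3, ENNReal.ofReal (u z) *
      (ENNReal.ofReal (W z * ‖z - q‖ ^ (2 * N + 1)))⁻¹ < ⊤) : u q ≤ 0 := by
  by_contra h2
  rw [not_le] at h2
  have h3 := (ENNReal.ofReal_pos.2 (half_pos h2)).ne'
  have key : LI volume (fun y => W y * ‖y - q‖ ^ (2 * N + 1)) 1 q := by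
    refine LF.mono ⟨_, isOpen_ball.mem_nhds hq, H⟩ (ENNReal.inv_ne_top.2 h3)
      ((hu.eventually_const_le (half_lt_self h2)).mono fun y hy => ?_)
    rw [ENNReal.rpow_neg_one, ← mul_assoc]
    exact le_mul_of_one_le_left' ((ENNReal.inv_mul_cancel h3 ENNReal.ofReal_ne_top).symm.trans_le
      (mul_le_mul_right (ENNReal.ofReal_le_ofReal hy) _))
  refine key.not_le one_pos (t := (2 * N + 1 : ℕ)) (K := W q + 1) (by simp) ?_
  filter_upwards [usc_ev isOpen_ball hW.usc (ball_subset_ball (by norm_num) hq) (lt_add_one _)]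
    with y hy
  rw [Real.rpow_natCast]
  exact mul_le_mul_of_nonneg_right hy.2.le (by positivity)

theorem stExt : StExt := by
  intro N δ hδ hδ1
  let f : ContDiffBump (0 : Cm N) := ⟨δ / 3, 2 * δ / 3, by positivity, by linarith⟩
  have hf : ContDiff ℝ 2 fun z => (f z : ℂ) := Complex.ofRealCLM.contDiff.comp f.contDiff
  obtain ⟨c, hc⟩ := (hf.continuous_fderiv two_ne_zero).bounded_above_of_compact_support
    ((f.hasCompactSupport.comp_left (g := fun t : ℝ => (t : ℂ)) Complex.ofReal_zero).fderiv ℝ)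
  set A : ℝ := N * c ^ 2 * ((δ / 3) ^ (2 * N + 1))⁻¹ with hA
  set E : ℝ := Real.exp (N * 3 ^ 2) * 5 ^ (2 * N + 1) with hE
  have hA0 : 0 ≤ A := by positivity
  have hE0 : 0 ≤ E := by positivity
  set C : ℝ := 2 * (E * (2 * A)) + 2 with hC
  have hC1 : 1 ≤ C := by linarith [mul_nonneg hE0 (mul_nonneg zero_le_two hA0)]
  refine ⟨C, by linarith, fun W x g hW hx hg hI => ?_⟩
  have h4 : ball (0 : Cm N) 3 ⊆ ball 0 4 := ball_subset_ball (by norm_num)
  have hx3 : x ∈ ball (0 : Cm N) 3 := closedBall_subset_ball (by norm_num) hx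
  set s : Cm N → ℂ := fun z => f (z - x) * g z with hs
  have hf' : ContDiff ℝ 2 fun z => (f (z - x) : ℂ) := hf.comp (contDiff_id.sub contDiff_const)
  have hs0 : ∀ z, z ∉ closedBall x (2 * δ / 3) → s z = 0 := fun z hz => by
    rw [hs]
    simp only [f.zero_of_le_dist (x := z - x)
      (by simpa [dist_eq_norm] using (not_le.1 (mt mem_closedBall.2 hz)).le)]
    simp
  have hs1 : ∀ z, z ∉ closedBall x (2 * δ / 3) → s =ᶠ[𝓝 z] fun _ => 0 := fun z hz =>
    mem_of_superset (isClosed_closedBall.isOpen_compl.mem_nhds hz) hs0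
  have hb : closedBall x (2 * δ / 3) ⊆ ball x δ := closedBall_subset_ball (by linarith)
  have hga := P268.analyticOnNhd_of_differentiableOn isOpen_ball hg
  have hsm : ContDiff ℝ 2 s := contDiff_iff_contDiffAt.2 fun z => by
    by_cases hz : z ∈ closedBall x (2 * δ / 3)
    · exact hf'.contDiffAt.mul ((hga z (hb hz)).restrictScalars (𝕜 := ℝ)).contDiffAt
    · exact contDiffAt_const.congr_of_eventuallyEq (hs1 z hz)
  have hd : ∀ z ∈ ball x δ, ∀ j, dzb j s z = dzb j (fun z => (f (z - x) : ℂ)) z * g z :=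
    fun z hz j => by
      rw [hs, INT.dzb_mul (hf'.differentiable two_ne_zero z)
        ((hga z hz).differentiableAt.restrictScalars ℝ),
        INT.dzb_of_holo (hga z hz).differentiableAt, mul_zero, add_zero]
  obtain ⟨F, hF, H⟩ := solve' (P := fun y => W y * ‖y - x‖ ^ (2 * N + 1))
    (hW.mul ((lpsh_norm isOpen_ball (by fun_prop)).pow _)) hsm
    (.intro (isCompact_closedBall x _) hs0) hA0 (by
      refine le_trans ?_ ((mul_le_mul_right hI (ENNReal.ofReal A)).trans_eq (mul_one _))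
      rw [← lintegral_const_mul' _ _ ENNReal.ofReal_ne_top,
        ← lintegral_indicator (s := ball x δ) measurableSet_ball]
      refine (setLIntegral_mono' measurableSet_ball fun z hz => ?_).trans
        (setLIntegral_le_lintegral _ _)
      by_cases h1 : z ∈ closedBall x (2 * δ / 3)
      · rw [indicator_of_mem (hb h1)]
        by_cases h2 : z ∈ ball x (δ / 3)
        · have : ∀ j, dzb j (fun z => (f (z - x) : ℂ)) z = 0 := fun j => dzb_const (c := 1) (by
            filter_upwards [isOpen_ball.mem_nhds h2] with y hy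
            rw [f.one_of_mem_closedBall (by simpa [dist_eq_norm] using (mem_ball.1 hy).le)]
            simp) j
          simp [hd z (hb h1), this]
        · refine wle ?_ ?_ (by positivity) (by positivity)
          · rw [mul_assoc, ← nsmul_eq_mul, ← mul_pow]
            refine (Finset.sum_le_card_nsmul _ _ ((c * ‖g z‖) ^ 2) fun j _ => ?_).trans_eq (by simp)
            rw [hd z (hb h1), norm_mul]
            refine pow_le_pow_left₀ (by positivity) (mul_le_mul_of_nonneg_right
              ((norm_dzb_le _ _ _).trans ?_) (norm_nonneg _)) 2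
            rw [fderiv_comp_sub (f := fun z => (f z : ℂ))]
            exact hc _
          · rw [le_inv_mul_iff₀ (by positivity), mul_comm]
            exact mul_le_mul_of_nonneg_left (pow_le_pow_left₀ (by positivity)
              (not_lt.1 (mt mem_ball_iff_norm.2 h2)) _) (hW.1 z (h4 hz))
      · simp [fun j => dzb_const (hs1 z h1) j])
  have hFc := hF.continuousOn
  have hFx : F x = g x := by
    have := vanish (u := fun z => ‖F z - s z‖ ^ 2 * Real.exp (-∑ i, ‖z i‖ ^ 2)) hW hx3 ((((hFc.continuousAt (isOpen_ball.mem_nhds hx3)).sub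
      hsm.continuous.continuousAt).norm.pow 2).mul contDiff_sq.continuous.neg.rexp.continuousAt)
      (H.trans_lt ENNReal.ofReal_lt_top)
    have h1 := le_antisymm (nonpos_of_mul_nonpos_left this (Real.exp_pos _)) (by positivity)
    rw [sub_eq_zero.1 (norm_eq_zero.1 (pow_eq_zero_iff two_ne_zero |>.1 h1)), hs]
    simp [f.one_of_mem_closedBall (mem_closedBall_self f.rIn_pos.le)]
  have hC0 : (C : ℂ) ≠ 0 := by exact_mod_cast (by linarith : C ≠ 0)
  refine ⟨fun z => F z / C, ⟨by simpa only [div_eq_mul_inv] using hF.mul_const _, ?_⟩,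
    by simp only [hFx, mul_div_cancel₀ _ hC0]⟩
  have k1 : ∫⁻ z in ball 0 3, ENNReal.ofReal (‖F z - s z‖ ^ 2) * (ENNReal.ofReal (W z))⁻¹ ≤
      ENNReal.ofReal (E * (2 * A)) := by
    rw [ENNReal.ofReal_mul hE0]
    refine le_trans ?_ (mul_le_mul_right H _)
    rw [← lintegral_const_mul' _ _ ENNReal.ofReal_ne_top]
    refine setLIntegral_mono' measurableSet_ball fun z hz => wle ?_ ?_ (by positivity)
      (by positivity)
    · rw [mul_left_comm, ← Real.exp_add]
      refine le_mul_of_one_le_right (by positivity) (Real.one_le_exp (sub_nonneg.2 ?_))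
      rw [← nsmul_eq_mul]
      exact (Finset.sum_le_card_nsmul _ _ (3 ^ 2) fun j _ => pow_le_pow_left₀ (norm_nonneg _)
        ((norm_le_pi_norm z j).trans (mem_ball_zero_iff.1 hz).le) 2).trans_eq (by simp)
    · rw [mul_comm]
      exact mul_le_mul_of_nonneg_right (pow_le_pow_left₀ (norm_nonneg _) ((norm_sub_le _ _).trans
        (by linarith [mem_ball_zero_iff.1 hz, mem_closedBall_zero_iff.1 hx])) _) (hW.1 z (h4 hz))
  have k2 : ∫⁻ z in ball 0 3, ENNReal.ofReal (‖s z‖ ^ 2) * (ENNReal.ofReal (W z))⁻¹ ≤ 1 := by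
    refine le_trans ?_ hI
    rw [← lintegral_indicator (s := ball x δ) measurableSet_ball]
    refine (setLIntegral_le_lintegral _ _).trans (lintegral_mono fun z => ?_)
    by_cases h1 : z ∈ closedBall x (2 * δ / 3)
    · rw [indicator_of_mem (hb h1)]
      refine mul_le_mul_left (ENNReal.ofReal_le_ofReal (pow_le_pow_left₀ (norm_nonneg _) ?_ 2)) _
      rw [hs, norm_mul, Complex.norm_real, Real.norm_of_nonneg f.nonneg]
      exact mul_le_of_le_one_left (norm_nonneg _) f.le_one
    · simp [hs0 z h1]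
  have k3 : AEMeasurable (fun z => ENNReal.ofReal (‖s z‖ ^ 2) * (ENNReal.ofReal (W z))⁻¹)
      (volume.restrict (ball 0 3)) := (hsm.continuous.norm.pow 2).aemeasurable.ennreal_ofReal.mul
    (usc_aemeasurable _ (hW.usc.mono h4) measurableSet_ball).ennreal_ofReal.inv
  have k4 : 0 ≤ 2 / C := by positivity
  refine (lintegral_mono (g := fun z => ENNReal.ofReal (2 / C) *
    (ENNReal.ofReal (‖F z - s z‖ ^ 2) * (ENNReal.ofReal (W z))⁻¹ +
      ENNReal.ofReal (‖s z‖ ^ 2) * (ENNReal.ofReal (W z))⁻¹)) fun z => ?_).trans ?_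
  · simp only
    rw [← add_mul, ← mul_assoc, ← ENNReal.ofReal_add (by positivity) (by positivity),
      ← ENNReal.ofReal_mul k4]
    refine mul_le_mul_left (ENNReal.ofReal_le_ofReal ?_) _
    rw [norm_div, Complex.norm_real, Real.norm_of_nonneg (by linarith), div_pow, div_mul_eq_mul_div]
    refine div_le_div₀ (by positivity) ?_ (by linarith) (by nlinarith)
    have := norm_add_le (F z - s z) (s z)
    rw [sub_add_cancel] at this
    nlinarith [norm_nonneg (F z), sq_nonneg (‖F z - s z‖ - ‖s z‖)]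
  · rw [lintegral_const_mul' _ _ ENNReal.ofReal_ne_top, lintegral_add_right' _ k3]
    refine (mul_le_mul_right (add_le_add k1 k2) _).trans_eq ?_
    rw [← ENNReal.ofReal_one, ← ENNReal.ofReal_add (by positivity) zero_le_one,
      ← ENNReal.ofReal_mul k4]
    congr 1
    rw [div_mul_eq_mul_div, div_eq_one_iff_eq (by linarith), hC]
    ring

end Vale.Agent.P281Z.Ky
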