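import Vale.Agent.P281Z.Ky.Defs
import Vale.Agent.P272.K.INT.Piola

/-!
# P281Z, block KY: extraction of coefficients
-/

open scoped Matrix Topology
open Set Matrix Polynomial MeasureTheory Filter
open Vale.Agent.P272.K (Cm)

noncomputable section

namespace Vale.Agent.P281Z.Ky

namespace Ex

variable {p : ℕ}

theorem interp (N : ℕ) : ∃ l : ℕ → Fin (N + 1) → ℂ, ∀ q : ℂ[X], q.natDegree ≤ N → ∀ i,
    q.coeff i = ∑ j : Fin (N + 1), l i j * q.eval (((j : ℕ) : ℂ) + 1) := by
  refine ⟨fun i j => (Lagrange.basis Finset.univ (fun j : Fin (N + 1) => ((j : ℕ) : ℂ) + 1) j).coeff i,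
    fun q hq i => ?_⟩
  have h := Lagrange.eq_interpolate (s := Finset.univ) (f := q)
    (v := fun j : Fin (N + 1) => ((j : ℕ) : ℂ) + 1) (fun a _ b _ h => Fin.ext (by simpa using h))
    (by
      rw [Finset.card_univ, Fintype.card_fin]
      exact degree_le_natDegree.trans_lt (by exact_mod_cast Nat.lt_succ_of_le hq))
  conv_lhs => rw [h, Lagrange.interpolate_apply, finsetSum_coeff]
  exact Finset.sum_congr rfl fun j _ => by rw [coeff_C_mul, mul_comm]

theorem adj_poly (M : Matrix (Fin p) (Fin p) ℂ) (i j : Fin p) : ∃ q : ℂ[X], q.natDegree ≤ p ∧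
    ∀ t : ℂ, (t • 1 + M).adjugate i j = q.eval t := by
  refine ⟨det ((X : ℂ[X]) • ((1 : Matrix (Fin p) (Fin p) ℂ).updateRow j 0).map C +
    (M.updateRow j (Pi.single i 1)).map C),
    (natDegree_det_X_add_C_le _ _).trans_eq (Fintype.card_fin p), fun t => ?_⟩
  rw [adjugate_apply, ← coe_evalRingHom, RingHom.map_det]
  congr 1
  ext a b
  by_cases h : a = j
  · simp [h, updateRow_apply]
  · simp [h, updateRow_apply, mul_comm t]

theorem det_deriv (M : Matrix (Fin p) (Fin p) ℂ) :
    HasDerivAt (fun s : ℝ => ((s : ℂ) • 1 + M).det) M.adjugate.trace 0 := by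
  have h1 : ∀ i j, HasDerivAt (fun s : ℝ => ((s : ℂ) • 1 + M : Matrix (Fin p) (Fin p) ℂ) i j)
      ((1 : Matrix (Fin p) (Fin p) ℂ) i j) 0 := fun i j => by
    simpa using (((hasDerivAt_id (0 : ℝ)).ofReal_comp).mul_const
      ((1 : Matrix (Fin p) (Fin p) ℂ) i j)).add_const (M i j)
  have h2 := (P272.K.INT.differentiableAt_det fun i j => (h1 i j).differentiableAt).hasDerivAt
  rw [← fderiv_apply_one_eq_deriv, P272.K.INT.fderiv_det fun i j => (h1 i j).differentiableAt] at h2
  simp only [fderiv_apply_one_eq_deriv, fun i j => (h1 i j).deriv] at h2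
  refine h2.congr_deriv (Finset.sum_congr rfl fun r _ => ?_)
  rw [diag_apply, adjugate_apply]
  congr 2
  · simp
  · ext l
    simp only [one_apply, Pi.single_apply, eq_comm (a := r)]

/-- the first two coefficients -/
theorem two_coeff (G α B : Matrix (Fin p) (Fin p) ℂ) (hB : α * B = 1) (a : Fin p → ℂ) (k : Fin p) :
    ∃ q : ℂ[X], q.natDegree ≤ p ∧
      (∀ t : ℂ, ∑ m, a m * ((t • 1 + G * α).adjugate * G) k m = q.eval t) ∧
      q.coeff 0 = ∑ m, a m * ((G * α).adjugate * G) k m ∧
      q.coeff 1 = ∑ m, a m * (((G * α).adjugate.trace • 1 - (G * α).adjugate) * B) k m := by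
  choose q h1 h2 using adj_poly (G * α)
  have h3 : ∀ t : ℂ, ∑ m, a m * ((t • 1 + G * α).adjugate * G) k m =
      (∑ m, C (a m) * ∑ l, q k l * C (G l m)).eval t := fun t => by
    simp only [eval_finsetSum, eval_mul, eval_C, mul_apply, h2]
  refine ⟨_, natDegree_sum_le_of_forall_le _ _ fun m _ => (natDegree_C_mul_le _ _).trans
    (natDegree_sum_le_of_forall_le _ _ fun l _ => (natDegree_mul_C_le _ _).trans (h1 k l)), h3,
    ?_, ?_⟩
  · rw [coeff_zero_eq_eval_zero, ← h3, zero_smul, zero_add]
  · have h4 := ((∑ m, C (a m) * ∑ l, q k l * C (G l m)).hasDerivAt ((0 : ℝ) : ℂ)).comp_ofReal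
    rw [Complex.ofReal_zero, ← coeff_zero_eq_eval_zero, coeff_derivative] at h4
    simp only [← h3, zero_add, Nat.cast_zero, mul_one] at h4
    refine h4.unique ?_
    have h5 : ∀ t : ℂ, (t • 1 + G * α).adjugate * G =
        ((t • 1 + G * α).det • 1 - t • (t • 1 + G * α).adjugate) * B := fun t => by
      rw [← adjugate_mul, Matrix.mul_add, Matrix.mul_smul, Matrix.mul_one, add_sub_cancel_left,
        Matrix.mul_assoc, Matrix.mul_assoc, hB, Matrix.mul_one]
    simp only [h5]
    simp only [mul_apply, Matrix.sub_apply, Matrix.smul_apply, smul_eq_mul]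
    refine HasDerivAt.fun_sum fun m _ => HasDerivAt.const_mul _ (HasDerivAt.fun_sum fun l _ =>
      HasDerivAt.mul_const (((det_deriv _).mul_const _).fun_sub ?_) _)
    have h6 := ((hasDerivAt_id (0 : ℝ)).ofReal_comp).fun_mul
      ((q k l).hasDerivAt ((0 : ℝ) : ℂ)).comp_ofReal
    simpa [← h2] using h6

variable {Ω : Type} [MeasurableSpace Ω] {μ : Measure Ω} [IsFiniteMeasure μ]
  {G : Ω → Matrix (Fin p) (Fin p) ℂ} {a : Ω → Fin p → ℂ} {C : ℝ}

/-- continuous functions of bounded data are integrable -/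
theorem intg (hG : ∀ i j, AEStronglyMeasurable (fun x => G x i j) μ)
    (ha : ∀ i, AEStronglyMeasurable (fun x => a x i) μ)
    (hb : ∀ᵐ x ∂μ, (∀ i j, ‖G x i j‖ ≤ C) ∧ ∀ i, ‖a x i‖ ≤ C)
    (F : Matrix (Fin p) (Fin p) ℂ → (Fin p → ℂ) → ℂ)
    (hF' : Continuous fun u : Matrix (Fin p) (Fin p) ℂ × (Fin p → ℂ) => F u.1 u.2) :
    Integrable (fun x => F (G x) (a x)) μ := by
  have hF : Continuous fun u : (Fin p → Fin p → ℂ) × (Fin p → ℂ) => F u.1 u.2 := hF'
  obtain ⟨D, hD⟩ := (isCompact_closedBall (0 : (Fin p → Fin p → ℂ) × (Fin p → ℂ))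
    |C|).exists_bound_of_continuousOn hF.continuousOn
  have hm : AEMeasurable (fun x => ((G x, a x) : (Fin p → Fin p → ℂ) × (Fin p → ℂ))) μ :=
    (aemeasurable_pi_lambda _ fun i => aemeasurable_pi_lambda _ fun j =>
      (hG i j).aemeasurable).prodMk (aemeasurable_pi_lambda _ fun i => (ha i).aemeasurable)
  refine .of_bound (hF.measurable.comp_aemeasurable hm).aestronglyMeasurable D
    (hb.mono fun x hx => hD (G x, a x) ?_)
  rw [mem_closedBall_zero_iff, Prod.norm_def]
  exact max_le ((pi_norm_le_iff_of_nonneg (abs_nonneg C)).2 fun i =>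
    (pi_norm_le_iff_of_nonneg (abs_nonneg C)).2 fun j => (hx.1 i j).trans (le_abs_self C))
    ((pi_norm_le_iff_of_nonneg (abs_nonneg C)).2 fun i => (hx.2 i).trans (le_abs_self C))

end Ex

open Ex in
theorem stExtr : StExtr := by
  intro p Ω _ μ _ G a C hG ha hb H
  obtain ⟨l, hl⟩ := interp p
  have cG : Continuous fun u : Matrix (Fin p) (Fin p) ℂ × (Fin p → ℂ) => u.1 := continuous_fst
  have ca : ∀ m, Continuous fun u : Matrix (Fin p) (Fin p) ℂ × (Fin p → ℂ) => u.2 m := fun m =>
    (continuous_apply m).comp continuous_snd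
  have key : ∀ α B : Matrix (Fin p) (Fin p) ℂ, α * B = 1 → ∀ k,
      ∫ x, ∑ m, a x m * ((G x * α).adjugate * G x) k m ∂μ = 0 ∧
      ∫ x, ∑ m, a x m * (((G x * α).adjugate.trace • 1 - (G x * α).adjugate) * B) k m ∂μ = 0 := by
    intro α B hB k
    choose q h1 h2 h3 h4 using fun x => two_coeff (G x) α B hB (a x) k
    have h5 : ∀ i, ∫ x, (q x).coeff i ∂μ = 0 := fun i => by
      simp only [fun x => hl (q x) (h1 x) i, ← h2]
      rw [integral_finsetSum _ fun (j : Fin (p + 1)) _ => Integrable.const_mul (intg hG ha hb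
        (fun u b => ∑ m, b m * (((((j : ℕ) : ℂ) + 1) • 1 + u * α).adjugate * u) k m)
        (continuous_finsetSum _ fun m _ => (ca m).mul (((continuous_const.add
          (cG.matrix_mul continuous_const)).matrix_adjugate.matrix_mul cG).matrix_elem k m))) _]
      refine Finset.sum_eq_zero fun j _ => ?_
      rw [integral_const_mul, H α _ (Nat.cast_add_one_ne_zero _) k, mul_zero]
    exact ⟨by simpa only [h3] using h5 0, by simpa only [h4] using h5 1⟩
  have hi : ∀ k i j, Integrable (fun x => a x k * (G x).adjugate i j) μ := fun k i j =>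
    intg hG ha hb (fun u b => b k * u.adjugate i j)
      ((ca k).mul (cG.matrix_adjugate.matrix_elem i j))
  set I : Fin p → Fin p → Fin p → ℂ := fun k i j => ∫ x, a x k * (G x).adjugate i j ∂μ with hI
  have lin : ∀ B : Matrix (Fin p) (Fin p) ℂ, IsUnit B.det → ∀ q,
      ∑ u, ∑ v, B u v * I q v u = ∑ m, ∑ v, B v m * I m q v := by
    intro B hB q
    have e1 : ∀ x, ∑ k, (B.det * B⁻¹ q k) * ∑ m, a x m * (((G x * B⁻¹).adjugate.trace • 1 -
        (G x * B⁻¹).adjugate) * B) k m = ∑ u, ∑ v, B u v * (a x q * (G x).adjugate v u) -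
        ∑ m, ∑ v, B v m * (a x m * (G x).adjugate q v) := fun x => by
      have e2 : B⁻¹.adjugate = B⁻¹.det • B := by
        rw [← Matrix.mul_one B⁻¹.adjugate, ← nonsing_inv_mul B hB, ← Matrix.mul_assoc,
          adjugate_mul, Matrix.smul_mul, Matrix.one_mul]
      have e3 : B.det • B⁻¹ * (((G x * B⁻¹).adjugate.trace • 1 - (G x * B⁻¹).adjugate) * B) =
          (B * (G x).adjugate).trace • 1 - (G x).adjugate * B := by
        rw [adjugate_mul_distrib, e2, Matrix.smul_mul B⁻¹.det, trace_smul, smul_assoc, ← smul_sub,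
          Matrix.smul_mul, Matrix.smul_mul, Matrix.mul_smul, smul_smul, mul_comm B.det,
          det_nonsing_inv_mul_det B hB, one_smul, Matrix.sub_mul, Matrix.mul_sub, Matrix.smul_mul,
          Matrix.mul_smul, Matrix.one_mul, nonsing_inv_mul B hB, Matrix.mul_assoc,
          nonsing_inv_mul_cancel_left B _ hB]
      simp only [Finset.mul_sum]
      rw [Finset.sum_comm]
      have e4 : ∀ m, ∑ k, B.det * B⁻¹ q k * (a x m * (((G x * B⁻¹).adjugate.trace • 1 -
          (G x * B⁻¹).adjugate) * B) k m) = a x m * ((B * (G x).adjugate).trace • 1 -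
          (G x).adjugate * B : Matrix (Fin p) (Fin p) ℂ) q m := fun m => by
        rw [← e3, mul_apply, Finset.mul_sum]
        exact Finset.sum_congr rfl fun k _ => by rw [Matrix.smul_apply, smul_eq_mul]; ring
      simp only [e4]
      simp only [Matrix.sub_apply, Matrix.smul_apply, one_apply, smul_eq_mul, mul_sub, mul_ite, mul_one,
        mul_zero, Finset.sum_sub_distrib, Finset.sum_ite_eq, Finset.mem_univ, if_true, trace,
        diag_apply, mul_apply, Finset.mul_sum]
      congr 1 <;> exact Finset.sum_congr rfl fun _ _ => Finset.sum_congr rfl fun _ _ => by ring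
    have i2 : ∀ f : Fin p → Fin p → Ω → ℂ, (∀ u v, Integrable (f u v) μ) →
        Integrable (fun x => ∑ u, ∑ v, f u v x) μ ∧
        ∫ x, ∑ u, ∑ v, f u v x ∂μ = ∑ u, ∑ v, ∫ x, f u v x ∂μ := fun f hf =>
      ⟨integrable_finsetSum _ fun u _ => integrable_finsetSum _ fun v _ => hf u v, by
        rw [integral_finsetSum _ fun u _ => integrable_finsetSum _ fun v _ => hf u v]
        exact Finset.sum_congr rfl fun u _ => integral_finsetSum _ fun v _ => hf u v⟩
    have j1 := i2 _ fun u v => (hi q v u).const_mul (B u v)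
    have j2 := i2 _ fun m v => (hi m q v).const_mul (B v m)
    have e5 := integral_congr_ae (μ := μ) (Eventually.of_forall e1)
    rw [integral_sub j1.1 j2.1, j1.2, j2.2, integral_finsetSum _ fun k _ => Integrable.const_mul
      (intg hG ha hb (fun u b => ∑ m, b m * (((u * B⁻¹).adjugate.trace • 1 -
        (u * B⁻¹).adjugate) * B) k m)
        (continuous_finsetSum _ fun m _ => (ca m).mul (((((cG.matrix_mul
          continuous_const).matrix_adjugate.matrix_trace.smul continuous_const).sub
          (cG.matrix_mul continuous_const).matrix_adjugate).matrix_mul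
            continuous_const).matrix_elem k m))) _] at e5
    simp only [integral_const_mul, fun k => (key _ B (nonsing_inv_mul B hB) k).2, mul_zero,
      Finset.sum_const_zero] at e5
    exact (sub_eq_zero.1 e5.symm)
  refine ⟨fun k => ?_, fun i j k => ?_⟩
  · simpa [adjugate_mul, one_apply] using (key 1 1 (Matrix.one_mul 1) k).1
  · have h1 := lin 1 (by simp) k
    have h2 := lin (1 + single j i 1) (by
      by_cases h : j = i
      · subst h
        rw [show (1 : Matrix (Fin p) (Fin p) ℂ) + single j j 1 =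
          diagonal (Function.update 1 j 2) by
            ext u v
            by_cases h1 : u = v <;> by_cases h2 : u = j <;>
              simp_all [single_apply, one_apply, diagonal_apply, eq_comm, one_add_one_eq_two],
          det_diagonal, isUnit_iff_ne_zero, Finset.prod_ne_zero_iff]
        intro u _
        by_cases h : u = j <;> simp [h]
      · exact (det_transvection_of_ne j i h (1 : ℂ)).symm ▸ isUnit_one) k
    simp only [Matrix.add_apply, add_mul, Finset.sum_add_distrib, h1, add_right_inj] at h2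
    simpa [single_apply, ite_and] using h2

end Vale.Agent.P281Z.Ky
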