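import Vale.Agent.P281Z.Ky.Defs
import Vale.Agent.P277Z.Oka.Noe
import Vale.Agent.P268.Hol

/-!
# P281Z, block KY: finitely many functions dominate the Bergman space near a point (FG)
-/

open scoped Topology
open Filter Set Metric
open Vale.Agent.P272.K (Cm)
open Vale.Agent.P277Z.Oka (in_iff noe)
open Vale.Agent.P298.H941 (O)

noncomputable section

namespace Vale.Agent.P281Z.Ky

namespace Fg

/-- the germs of a family generate a finitely generated ideal -/
theorem fin {E : Type} [NormedAddCommGroup E] [NormedSpace ℂ E] [FiniteDimensional ℂ E] {x : E}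
    {B : Set (E → ℂ)} (hB : ∀ f ∈ B, AnalyticAt ℂ f x) :
    ∃ (N : ℕ) (g : Fin N → E → ℂ), (∀ l, g l ∈ B) ∧
      ∀ f ∈ B, ∃ C : ℝ, ∀ᶠ z in 𝓝 x, ‖f z‖ ≤ C * ∑ l, ‖g l z‖ := by
  have hN : IsNoetherianRing (O E) := noe E
  obtain ⟨s, h1, h2⟩ := (Submodule.fg_span_iff_fg_span_finset_subset (R := O E)
    (P277Z.Oka.gm x '' B)).1 ((isNoetherianRing_iff_ideal_fg _).1 hN _)
  choose u hu hu' using fun a : s => h1 a.2
  refine ⟨s.card, fun l => u (s.equivFin.symm l), fun l => hu _, fun f hf => ?_⟩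
  have e : (s : Set (O E)) ⊆ range fun l => P277Z.Oka.gm x (u (s.equivFin.symm l)) :=
    fun a ha => ⟨s.equivFin ⟨a, ha⟩, by simp only [Equiv.symm_apply_apply, hu']⟩
  obtain ⟨c, hc, h3⟩ := (in_iff (g := fun l => u (s.equivFin.symm l)) (fun l => hB _ (hu _))
    (hB f hf)).2 (Submodule.span_mono e (h2.le (Submodule.subset_span (mem_image_of_mem _ hf))))
  refine ⟨∑ l, (‖c l x‖ + 1), ?_⟩
  filter_upwards [h3, eventually_all.2 fun l =>
    (hc l).continuousAt.norm.eventually (gt_mem_nhds (lt_add_one _))] with z h4 h5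
  rw [h4, Finset.mul_sum]
  refine norm_sum_le_of_le _ fun l _ => ?_
  rw [norm_mul]
  exact mul_le_mul_of_nonneg_right ((h5 l).le.trans (Finset.single_le_sum
    (f := fun l => ‖c l x‖ + 1) (fun _ _ => by positivity) (Finset.mem_univ l))) (norm_nonneg _)

/-- the coefficients -/
def co (e : ℕ → Bool) (j : ℕ) : ℝ := if e j then 1 / 2 / 2 ^ j else 0

theorem co_nonneg (e : ℕ → Bool) (j : ℕ) : 0 ≤ co e j := by
  unfold co
  split_ifs <;> positivity

theorem co_le (e : ℕ → Bool) (j : ℕ) : co e j ≤ 1 / 2 / 2 ^ j := by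
  unfold co
  split_ifs
  exacts [le_rfl, by positivity]

theorem co_sum (e : ℕ → Bool) : Summable (co e) :=
  (summable_geometric_two' 1).of_nonneg_of_le (co_nonneg e) (co_le e)

/-- uniform constants, by the theorem of Baire -/
theorem unif {X : Type} [PseudoMetricSpace X] {x : X} {B : Set (X → ℂ)} {S : X → ℝ} {U : Set X}
    (hS : ∀ z, 0 ≤ S z) (hU : U ∈ 𝓝 x) (hb : ∀ z ∈ U, ∃ C : ℝ, ∀ f ∈ B, ‖f z‖ ≤ C)
    (hc : ∀ (g : ℕ → X → ℂ) (a : ℕ → ℝ), (∀ j, g j ∈ B) → (∀ j, 0 ≤ a j) → Summable a →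
      ∑' j, a j ≤ 1 → (fun z => ∑' j, (a j : ℂ) * g j z) ∈ B)
    (h : ∀ f ∈ B, ∃ C : ℝ, ∀ᶠ z in 𝓝 x, ‖f z‖ ≤ C * S z) :
    ∃ C : ℝ, ∀ᶠ z in 𝓝 x, ∀ f ∈ B, ‖f z‖ ≤ C * S z := by
  by_contra hn
  have h1 : ∀ j : ℕ, ∃ z ∈ ball x (1 / (j + 1 : ℝ)) ∩ U, ∃ f ∈ B,
      j * 2 ^ (j + 2) * S z < ‖f z‖ := fun j => by
    by_contra hj
    push Not at hj
    exact hn ⟨_, mem_of_superset (inter_mem (ball_mem_nhds x Nat.one_div_pos_of_nat) hU) hj⟩
  choose z hz f hf hlt using h1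
  have bd : ∀ y ∈ U, ∃ C : ℝ, ∀ j e, ‖(co e j : ℂ) * f j y‖ ≤ 1 / 2 / 2 ^ j * C := fun y hy =>
    (hb y hy).imp fun C hC j e => by
      rw [norm_mul, Complex.norm_real, Real.norm_of_nonneg (co_nonneg e j)]
      exact mul_le_mul (co_le e j) (hC _ (hf j)) (norm_nonneg _) (by positivity)
  have ct : ∀ y ∈ U, Continuous fun e : ℕ → Bool => ∑' j, (co e j : ℂ) * f j y := fun y hy => by
    obtain ⟨C, hC⟩ := bd y hy
    exact continuous_tsum (fun j => (continuous_of_discreteTopology (f := fun b : Bool =>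
      ((if b then 1 / 2 / 2 ^ j else 0 : ℝ) : ℂ) * f j y)).comp (continuous_apply j))
      ((summable_geometric_two' 1).mul_right C) hC
  obtain ⟨m, e, he⟩ := nonempty_interior_of_iUnion_of_closed (f := fun m : ℕ =>
    ⋂ y ∈ ball x (1 / (m + 1 : ℝ)) ∩ U, {e : ℕ → Bool | ‖∑' j, (co e j : ℂ) * f j y‖ ≤ m * S y})
    (fun m => isClosed_biInter fun y hy => isClosed_le (ct y hy.2).norm continuous_const)
    (eq_univ_of_forall fun e => by
      obtain ⟨C, hC⟩ := h _ (hc f (co e) hf (co_nonneg e) (co_sum e)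
        (((co_sum e).tsum_le_tsum (co_le e) (summable_geometric_two' 1)).trans_eq
          (tsum_geometric_two' 1)))
      obtain ⟨ε, hε, hC⟩ := Metric.eventually_nhds_iff_ball.1 hC
      obtain ⟨m, h2, h3⟩ := ((tendsto_one_div_add_atTop_nhds_zero_nat.eventually
        (gt_mem_nhds hε)).and (tendsto_natCast_atTop_atTop.eventually_ge_atTop C)).exists
      exact mem_iUnion.2 ⟨m, mem_iInter₂.2 fun y hy => (hC y (ball_subset_ball h2.le hy.1)).trans
        (mul_le_mul_of_nonneg_right h3 (hS y))⟩)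
  have up : ∀ b, Tendsto (fun j => Function.update e j b) atTop (𝓝 e) := fun b =>
    tendsto_pi_nhds.2 fun i => tendsto_const_nhds.congr'
      ((eventually_gt_atTop i).mono fun j hj => (Function.update_of_ne hj.ne _ _).symm)
  have he' := mem_interior_iff_mem_nhds.1 he
  obtain ⟨j, ⟨a, b⟩, c⟩ := ((((up true).eventually he').and ((up false).eventually he')).and
    (eventually_ge_atTop m)).exists
  have hm : z j ∈ ball x (1 / (m + 1 : ℝ)) ∩ U :=
    ⟨ball_subset_ball (Nat.one_div_le_one_div c) (hz j).1, (hz j).2⟩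
  obtain ⟨C, hC⟩ := bd _ hm.2
  have sm : ∀ e, Summable fun i => (co e i : ℂ) * f i (z j) := fun e =>
    .of_norm_bounded ((summable_geometric_two' 1).mul_right C) fun i => hC i e
  have h2 := norm_sub_le_of_le (mem_iInter₂.1 a _ hm) (mem_iInter₂.1 b _ hm)
  rw [← (sm _).tsum_sub (sm _), tsum_eq_single j fun i hi => by simp [co, hi]] at h2
  have h3 : ‖f j (z j)‖ ≤ 2 ^ (j + 2) * (m * S (z j)) := by
    simp only [co, Function.update_self, if_true, Bool.false_eq_true, if_false,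
      Complex.ofReal_zero, zero_mul, sub_zero, norm_mul, Complex.norm_real] at h2
    rw [Real.norm_of_nonneg (by positivity), div_div, div_mul_eq_mul_div, one_mul,
      div_le_iff₀ (by positivity)] at h2
    refine h2.trans_eq ?_
    ring
  have h4 : (m : ℝ) * S (z j) ≤ j * S (z j) := mul_le_mul_of_nonneg_right (Nat.cast_le.2 c) (hS _)
  have h5 := mul_le_mul_of_nonneg_left h4 (show (0 : ℝ) ≤ 2 ^ (j + 2) by positivity)
  linarith [hlt j]

end Fg

theorem stFg_of (hBd : StBd) : StFg := by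
  intro p W hW x hx
  obtain ⟨h1, h2⟩ := hBd p W hW
  obtain ⟨N, g, h3, h4⟩ := Fg.fin (B := Bg W) fun f hf =>
    P268.analyticAt_of_differentiableOn isOpen_ball hf.1 hx
  obtain ⟨C, hC⟩ := Fg.unif (fun z => Finset.sum_nonneg fun l _ => norm_nonneg (g l z))
    (isOpen_ball.mem_nhds hx) (fun z hz => (h1 z hz).imp fun _ h => h.self_of_nhds) h2 h4
  exact ⟨N, g, C, h3, hC⟩

end Vale.Agent.P281Z.Ky
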