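import Vale.Agent.P281Z.Ky.Basic

/-!
# P281Z, block KY: the volume of the fibres is constant
-/

open scoped ContDiff Topology
open Filter Set MeasureTheory Metric
open Vale.Agent.P272.K (Cm dz dzb)
open Vale.Agent.P272.K.INT
open Vale.Agent.P284Y.Lib

noncomputable section

namespace Vale.Agent.P281Z.Ky

variable {p : ℕ}

theorem Tst.ct {U : Set (Cm p)} {ψ : Cm p → ℂ} (h : Tst U ψ) : Ct U ψ := ⟨h.1.continuous, h.2⟩

theorem Ct.mono {U V : Set (Cm p)} {ψ : Cm p → ℂ} (h : Ct U ψ) (h' : U ⊆ V) : Ct V ψ :=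
  ⟨h.1, h.2.1, h.2.2.trans h'⟩

theorem ker_supp {r : ℝ} (hr : 0 < r) (z : Cm p) :
    tsupport (fun w => (ker volume r (w - z) : ℂ)) ⊆ closedBall z r :=
  closure_minimal (fun w hw => by
    by_contra h
    exact hw (by simp only [ker_zero hr (show r < ‖w - z‖ by simpa [dist_eq_norm] using h)]; simp))
    isClosed_closedBall

theorem tst_ker {r : ℝ} (hr : 0 < r) {z : Cm p} {U : Set (Cm p)} (h : closedBall z r ⊆ U) :
    Tst U fun w => (ker volume r (w - z) : ℂ) :=
  ⟨Complex.ofRealCLM.contDiff.comp ((ker_sm r).comp (contDiff_id.sub contDiff_const)),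
    (isCompact_closedBall z r).of_isClosed_subset (isClosed_tsupport _) (ker_supp hr z),
    (ker_supp hr z).trans h⟩

theorem cb_sub {r R : ℝ} {z : Cm p} (hz : z ∈ ball (0 : Cm p) (R - r)) :
    closedBall z r ⊆ ball 0 R := closedBall_subset_ball' (by linarith [mem_ball.1 hz])

theorem dzb_real (u : Cm p → ℝ) (k : Fin p) (z : Cm p) :
    dzb k (fun w => (u w : ℂ)) z = starRingEnd ℂ (dz k (fun w => (u w : ℂ)) z) := by
  rw [← dzb_conj]
  simp only [Complex.conj_ofReal]

theorem stFib_of (hM : StMoll) : StFib := by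
  intro p Ω _ μ _ y D C R hy hD hC h
  rcases le_or_gt R 0 with hR | hR
  · refine ⟨0, fun ψ hψ => ?_⟩
    have : ψ = 0 := by
      have := hψ.2.2
      rwa [ball_eq_empty.2 hR, subset_empty_iff, tsupport_eq_empty_iff] at this
    simp [this]
  obtain ⟨h1, -, h3⟩ := hM p Ω μ y (fun x => D x) C hy
    (Complex.continuous_ofReal.comp_aestronglyMeasurable hD) (hC.mono fun x hx => by simpa using hx)
  have h4 : ∀ r > (0 : ℝ), ∀ z ∈ ball (0 : Cm p) (R - r),
      mo μ y (fun x => D x) r z = mo μ y (fun x => D x) r 0 := fun r hr z hz => by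
    refine isOpen_ball.is_const_of_fderiv_eq_zero (𝕜 := ℝ) (convex_ball _ _).isPreconnected
      ((h1 r hr).1.differentiable (by simp)).differentiableOn (fun z hz => ?_) hz
      (mem_ball_self (pos_of_mem_ball hz))
    have k1 := fun k => h _ (tst_ker hr (cb_sub hz)) k
    have k2 : ∀ k, ∫ x, dzb k (fun w => (ker volume r (w - z) : ℂ)) (y x) * D x ∂μ = 0 := fun k => by
      rw [← map_zero (starRingEnd ℂ), ← k1 k, ← integral_conj]
      simp only [dzb_real, map_mul, Complex.conj_ofReal]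
    ext v
    simp [fderiv_apply, ((h1 r hr).2 z _).1, ((h1 r hr).2 z _).2, k1, k2]
  have h5 : ∀ ψ, Ct (ball 0 R) ψ → Tendsto (fun r => mo μ y (fun x => D x) r 0 * ∫ z, ψ z)
      (𝓝[>] 0) (𝓝 (∫ x, ψ (y x) * D x ∂μ)) := fun ψ hψ => by
    obtain ⟨R', k1, k2⟩ := exists_lt_subset_ball (isClosed_tsupport ψ) hψ.2.2
    refine (h3 ψ (hψ.mono (subset_univ _))).congr' ?_
    filter_upwards [Ioo_mem_nhdsGT (sub_pos.2 k1)] with r hr
    rw [← integral_const_mul]
    refine integral_congr_ae (Eventually.of_forall fun z => ?_)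
    by_cases hz : z ∈ tsupport ψ
    · simp only [h4 r hr.1 z (ball_subset_ball (by linarith [hr.2]) (k2 hz)), mul_comm]
    · simp only [image_eq_zero_of_notMem_tsupport hz, zero_mul, mul_zero]
  have h6 := h5 _ (tst_ker (half_pos hR) (closedBall_subset_ball (half_lt_self hR))).ct
  simp only [sub_zero, integral_complex_ofReal, ker_one (half_pos hR), Complex.ofReal_one, mul_one,
    ← Complex.ofReal_mul] at h6
  exact ⟨_, fun ψ hψ => tendsto_nhds_unique (h5 ψ hψ) (h6.mul_const _)⟩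

end Vale.Agent.P281Z.Ky
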