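import Vale.Agent.P281Z.Ky.Basic
import Vale.Agent.P272.K.N.Det
import Mathlib.Analysis.Calculus.BumpFunction.FiniteDimension

/-!
# P281Z, block KY: gluing of the local approximations
-/

open scoped Manifold ContDiff Topology ComplexOrder Matrix
open Filter Set Metric
open Vale.Agent.P272.K
open Vale.Agent.P277Z (Hol)
open Vale.Agent.P277Z.Pos (nsq PosAt FlatAt)
open Vale.Agent.P277Z.Hir (Cpb)

noncomputable section

namespace Vale.Agent.P281Z.Ky

namespace Gl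

variable {p : ℕ}

theorem nsq_sm : ContDiff ℝ ∞ (nsq : Cm p → ℝ) :=
  ContDiff.sum fun l _ => (contDiff_apply ℝ ℂ l).norm_sq ℂ

theorem dz_co (l k : Fin p) (z : Cm p) :
    dz k (fun w => w l) z = (1 : Matrix (Fin p) (Fin p) ℂ) l k := congrFun (congrFun (jc_id z) l) k

theorem cHess_nsq (z : Cm p) : cHess nsq z = 1 := by
  ext j k
  have d : ∀ l y, DifferentiableAt ℝ (fun w : Cm p => w l) y := fun l y => differentiableAt_apply l y
  have h1 : dzb k (fun y : Cm p => ((nsq y : ℝ) : ℂ)) = fun y => y k := by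
    funext y
    have e : (fun y : Cm p => ((nsq y : ℝ) : ℂ)) = fun y => ∑ l, y l * (starRingEnd ℂ) (y l) := by
      funext y; simp [nsq, Complex.mul_conj, Complex.normSq_eq_norm_sq]
    have e' : ∀ l, dzb k (fun w : Cm p => w l) y = 0 := fun l =>
      dzb_of_holo (differentiableAt_apply l y)
    rw [e, C2.dzb_sum k _ fun l _ => (d l y).fun_mul (C2.differentiableAt_conj (d l y))]
    simp only [fun l => C2.dzb_mul k (d l y) (C2.differentiableAt_conj (d l y)),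
      fun l => C2.dzb_conj k (d l y), dz_co, e']
    simp [Matrix.one_apply]
  rw [C2.cHess_apply, h1, dz_co, Matrix.one_apply, Matrix.one_apply]
  simp only [eq_comm]

theorem pd_add {u w : Cm p → ℝ} {z : Cm p} (h : Pd u z) (h' : Fl w z) :
    Pd (fun y => u y + w y) z :=
  ⟨h.1.add h'.1, by rw [C2.cHess_add (two h.1) (two h'.1), h'.2, add_zero]; exact h.2⟩

theorem fl_mul (c : ℝ) {w : Cm p → ℝ} {z : Cm p} (h : Fl w z) : Fl (fun y => c * w y) z :=
  ⟨contDiffAt_const.mul h.1, by rw [C2.cHess_const_mul c (two h.1), h.2, smul_zero]⟩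

theorem bump (p : ℕ) : ∃ (χ : Cm p → ℝ) (B : ℝ), 0 < B ∧ (∀ z, 0 ≤ χ z ∧ χ z ≤ 1) ∧
    (∀ z ∈ ball (0 : Cm p) 1, χ z = 1) ∧ (∀ z ∉ closedBall (0 : Cm p) (3 / 2), χ z = 0) ∧
    ∀ a L : ℝ, 0 ≤ L → L * B < a → ∀ z ∈ ball (0 : Cm p) 2,
      Pd (fun y => a * nsq y + L * χ y) z := by
  let χ : ContDiffBump (0 : Cm p) := ⟨1, 3 / 2, one_pos, by norm_num⟩
  have hχ : ContDiff ℝ ∞ χ := χ.contDiff
  obtain ⟨C, hC⟩ := (isCompact_closedBall (0 : Cm p) 2).exists_bound_of_continuousOn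
    (f := fun z j k => cHess χ z j k) fun z _ => (continuousAt_pi.2 fun j => continuousAt_pi.2
      fun k => (C2.contDiffAt_cHess (m := 0) (two hχ.contDiffAt) (by norm_num) j
        k).continuousAt).continuousWithinAt
  have hC0 : 0 ≤ C := (norm_nonneg _).trans (hC 0 (mem_closedBall_self two_pos.le))
  obtain ⟨ε, hε, h⟩ := N.posDef_of_near (Matrix.PosDef.one (n := Fin p) (R := ℂ))
  refine ⟨χ, (C + 1) / ε, by positivity, fun z => ⟨χ.nonneg, χ.le_one⟩,
    fun z hz => χ.one_of_mem_closedBall (ball_subset_closedBall hz),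
    fun z hz => χ.zero_of_le_dist (not_le.1 hz).le, fun a L hL ha z hz => ?_⟩
  have ha0 : 0 < a := lt_of_le_of_lt (by positivity) ha
  have h1 : ContDiffAt ℝ ∞ (fun y => nsq y + L / a * χ y) z :=
    (nsq_sm.add (contDiff_const.mul hχ)).contDiffAt
  have e : (fun y => a * nsq y + L * χ y) = fun y => a * (nsq y + L / a * χ y) := by
    funext y; field_simp
  rw [e]
  refine ⟨contDiffAt_const.mul h1, ?_⟩
  rw [C2.cHess_const_mul a (two h1)]
  refine (h _ (C2.cHess_isHermitian (two h1)) fun j k => ?_).smul (Complex.zero_lt_real.2 ha0)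
  rw [C2.cHess_add (two nsq_sm.contDiffAt) (two (contDiff_const.mul hχ).contDiffAt), cHess_nsq,
    C2.cHess_const_mul _ (two hχ.contDiffAt), Matrix.add_apply, add_sub_cancel_left,
    Matrix.smul_apply, smul_eq_mul, norm_mul, Complex.norm_real,
    Real.norm_of_nonneg (by positivity)]
  have h2 : ‖cHess χ z j k‖ ≤ C := (norm_le_pi_norm (fun k => cHess χ z j k) k).trans
    ((norm_le_pi_norm (fun j k => cHess χ z j k) j).trans (hC z (ball_subset_closedBall hz)))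
  rw [← mul_div_assoc, div_lt_iff₀ hε] at ha
  rw [div_mul_eq_mul_div, div_le_iff₀ ha0]
  nlinarith [mul_le_mul_of_nonneg_left h2 hL]

theorem bg_nonneg (W : Cm p → ℝ) (z : Cm p) : 0 ≤ bg W z :=
  Real.sSup_nonneg fun _ ⟨_, _, h⟩ => h ▸ sq_nonneg _

theorem bg_lub (h : StBd) {W : Cm p → ℝ} (hW : P284Z.LPsh W (ball 0 4)) {z : Cm p}
    (hz : z ∈ ball (0 : Cm p) 3) : IsLUB ((fun g : Cm p → ℂ => ‖g z‖ ^ 2) '' Bg W) (bg W z) := by
  obtain ⟨C, hC⟩ := (h p W hW).1 z hz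
  refine isLUB_csSup ⟨_, fun _ => 0, ⟨differentiableOn_const 0, by simp⟩, rfl⟩ ⟨C ^ 2, ?_⟩
  rintro _ ⟨g, hg, rfl⟩
  exact pow_le_pow_left₀ (norm_nonneg _) (hC.self_of_nhds g hg) 2

theorem consts {ι : Type} [Finite ι] {c : ι → ℝ} (hc : ∀ i, 0 < c i) {B : ℝ} :
    ∃ η > (0 : ℝ), ∀ a : ℝ, ∃ k : ℕ, ∀ i, (a + k * η) * B < k * c i := by
  obtain ⟨η, h1, h2⟩ := (((eventually_all.2 fun i => ((continuous_id.mul continuous_const
    (g := fun _ => B)).continuousAt (x := (0 : ℝ))).eventually_lt continuousAt_const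
      (show id (0 : ℝ) * B < c i by simpa using hc i)).filter_mono nhdsWithin_le_nhds).and
        (self_mem_nhdsWithin (s := Ioi (0 : ℝ)))).exists
  refine ⟨η, h2, fun a => ?_⟩
  obtain ⟨k, hk⟩ := (eventually_all.2 fun i => (tendsto_natCast_atTop_atTop.atTop_mul_const
    (sub_pos.2 (h1 i))).eventually_gt_atTop (a * B)).exists
  exact ⟨k, fun i => by have : a * B < k * (c i - η * B) := hk i; linarith⟩

end Gl

open Gl

theorem stGl_of (hB : StBd) (hC : StCmy) (hI : StIdl) : StGl := by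
  intro p Y K
  obtain ⟨χ, B, B0, χ1, χ2, χ3, χ4⟩ := bump p
  obtain ⟨η, η0, hη⟩ := consts K.c_pos (B := B)
  obtain ⟨C, C1, hcmp⟩ := hC p Y K η η0
  obtain ⟨k, hk⟩ := hη (Real.log C)
  set L := Real.log C + k * η with hL
  have L0 : 0 ≤ L := add_nonneg (Real.log_nonneg C1) (by positivity)
  have hD : K.Cmp k (Real.exp L) := by
    rw [hL, Real.exp_add, Real.exp_log (one_pos.trans_le C1)]; exact hcmp k
  obtain ⟨I, I1, I2⟩ := hI p Y K k _ (Real.exp_pos L) hD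
  have b24 : ∀ {i y}, y ∈ Bl (K.e i) 2 → y ∈ Bl (K.e i) 4 := fun h => Bl.mono (by norm_num) h
  have b12 : ∀ {i y}, y ∈ Bl (K.e i) 1 → y ∈ Bl (K.e i) 2 := fun h => Bl.mono (by norm_num) h
  have Q0 : ∀ i y, 0 ≤ K.Q k i y := fun i y => mul_nonneg (bg_nonneg _ _) (Real.exp_pos _).le
  set T : K.ι → K.ι → Y.X → ℝ := fun j i y =>
    K.Q k i y * Real.exp (k * K.h j i y + L * χ (K.e i y)) with hT
  have Tc : ∀ j j' i y, y ∈ Bl (K.e j) 2 → y ∈ Bl (K.e j') 2 → y ∈ Bl (K.e i) 2 →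
      T j i y = T j' i y * Real.exp (k * K.h j j' y) := fun j j' i y a b c => by
    simp only [hT, mul_assoc, ← Real.exp_add, ← K.coc j j' i y (b24 a) (b24 b) (b24 c)]
    ring_nf
  have Tl : ∀ j i l y, y ∈ Bl (K.e j) 2 → y ∈ Bl (K.e i) 2 → y ∈ Bl (K.e l) 2 →
      T j i y ≤ K.Q k l y * Real.exp (k * K.h j l y + L * (1 + χ (K.e i y))) :=
    fun j i l y a b c => by
    refine (mul_le_mul_of_nonneg_right (hD i l y b c) (Real.exp_pos _).le).trans_eq ?_
    rw [← K.coc j i l y (b24 a) (b24 b) (b24 c), mul_left_comm, mul_assoc, ← Real.exp_add,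
      ← Real.exp_add]
    ring_nf
  obtain ⟨m, m1, m2⟩ : ∃ m : Y.X → K.ι, (∀ y, y ∈ Bl (K.e (m y)) 2) ∧ ∀ y j i,
      y ∈ Bl (K.e j) 2 → y ∈ Bl (K.e i) 2 → T j i y ≤ T j (m y) y := by
    choose c hc using K.cov
    choose m m1 m2 using fun y => Set.exists_max_image {i | y ∈ Bl (K.e i) 2}
      (fun i => T (c y) i y) (Set.toFinite _) ⟨c y, b12 (hc y)⟩
    refine ⟨m, m1, fun y j i a b => ?_⟩
    rw [Tc j (c y) i y a (b12 (hc y)) b, Tc j (c y) (m y) y a (b12 (hc y)) (m1 y)]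
    exact mul_le_mul_of_nonneg_right (m2 y i b) (Real.exp_pos _).le
  have h0 : ∀ j y, y ∈ Bl (K.e j) 2 → K.h j j y = 0 := fun j y a =>
    add_eq_left.1 (K.coc j j j y (b24 a) (b24 a) (b24 a))
  refine ⟨⟨I, I1, K.ι, fun j => Bl (K.e j) 2, fun j => isOpen_bl _ _,
    fun y => (K.cov y).imp fun _ => b12, fun j y => T j (m y) y, fun i j y => k * K.h i j y,
    fun i j y a b e he => fl_mul k (K.flat i j y (b24 a) (b24 b) e he),
    fun i j y a b => Tc i j _ y a b (m1 y), fun j y hy => ?_, fun j γ y a b => ?_⟩⟩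
  · obtain ⟨i₀, hi₀⟩ := K.cov y
    have t3 : ∀ i, closedBall 0 (3 / 2) ⊆ (K.e i).target := fun i =>
      (closedBall_subset_closedBall (by norm_num)).trans (K.tgt i)
    have b23 : ∀ {i x}, x ∈ Bl (K.e i) 2 → K.e i x ∈ ball (0 : Cm p) 3 := fun h =>
      ball_subset_ball (by norm_num) h.2
    have hl := fun i x (h : x ∈ Bl (K.e i) 2) => bg_lub hB ((K.lpsh i).pow k) (b23 h)
    have e1 : ∀ i x, T j i x = bg (fun z => K.W i z ^ k) (K.e i x) * Real.exp
        (k * K.c i * nsq (K.e i x) + L * χ (K.e i x) + k * K.h j i x) := fun i x => by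
      simp only [hT, KC.Q, mul_assoc, ← Real.exp_add]
      ring_nf
    refine ⟨{i // y ∈ Bl (K.e i) 2}, inferInstance, fun a x => k * K.c a * nsq (K.e a x) +
      L * χ (K.e a x) + k * K.h j a x, fun a => (fun g x => g (K.e a x)) '' Bg fun z => K.W a z ^ k,
      {x | (∀ i, y ∈ Bl (K.e i) 2 → x ∈ Bl (K.e i) 2) ∧ x ∈ Bl (K.e i₀) 1 ∧
        ∀ i, y ∉ Bl (K.e i) 2 → x ∉ cBl (K.e i) (3 / 2)},
      inter_mem (eventually_all.2 fun i => eventually_imp_distrib_left.2 fun h =>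
        (isOpen_bl _ _).mem_nhds h) (inter_mem ((isOpen_bl _ _).mem_nhds hi₀)
        (eventually_all.2 fun i => eventually_imp_distrib_left.2 fun h =>
          (cBl_cpt (t3 i)).isClosed.isOpen_compl.mem_nhds fun h' => h
            ⟨((mem_cBl (t3 i)).1 h').1, closedBall_subset_ball (by norm_num)
              ((mem_cBl (t3 i)).1 h').2⟩)), fun a => ?_, ?_, fun x hx => ⟨?_, fun b hb => ?_⟩⟩
    · refine ((K.cd a).pos_iff a.2.1).2 ((pd_add (χ4 _ L L0 (hk a) _ a.2.2) (fl_mul k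
        (((K.cd a).flat_iff a.2.1).1 (K.flat j a y (b24 hy) (b24 a.2))))).congr ?_)
      exact ((K.e a).eventually_right_inverse' a.2.1).mono fun z hz => by simp only [hz]
    · rintro a _ ⟨g, hg, rfl⟩ x hx
      exact (K.cd a).hol_comp (hx.1 a a.2).1
        (P268.analyticOnNhd_of_differentiableOn isOpen_ball hg.1 _ (b23 (hx.1 a a.2)))
    · rintro _ ⟨a, _, ⟨g, hg, rfl⟩, rfl⟩
      refine le_trans ?_ (m2 x j a (hx.1 j hy) (hx.1 a a.2))
      rw [e1]
      exact mul_le_mul_of_nonneg_right ((hl a x (hx.1 a a.2)).1 ⟨g, hg, rfl⟩) (Real.exp_pos _).le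
    · have h1 : ∀ i, y ∈ Bl (K.e i) 2 → T j i x ≤ b := fun i hi => by
        rw [e1, ← le_div_iff₀ (Real.exp_pos _)]
        refine (hl i x (hx.1 i hi)).2 ?_
        rintro _ ⟨g, hg, rfl⟩
        exact (le_div_iff₀ (Real.exp_pos _)).2 (hb ⟨⟨i, hi⟩, _, ⟨g, hg, rfl⟩, rfl⟩)
      by_cases h : y ∈ Bl (K.e (m x)) 2
      · exact h1 _ h
      · refine (Tl j _ i₀ x (hx.1 j hy) (m1 x) (b12 hx.2.1)).trans (le_trans ?_ (h1 i₀ (b12 hi₀)))
        rw [χ3 _ fun h' => hx.2.2 _ h ((mem_cBl (t3 _)).2 ⟨(m1 x).1, h'⟩), add_zero]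
        simp only [hT, χ2 _ hx.2.1.2, le_refl]
  · obtain ⟨C₀, c0, c1⟩ := I2 j γ y a b
    have e2 : 1 ≤ Real.exp (L * 2) := Real.one_le_exp (by positivity)
    refine ⟨Real.exp (L * 2) * C₀, by positivity, ?_⟩
    filter_upwards [c1, (isOpen_bl _ _).mem_nhds a] with x ⟨d1, d2⟩ hx
    have f1 : T j (m x) x ≤ Real.exp (L * 2) * K.Q k j x := by
      refine (Tl j _ j x hx (m1 x) hx).trans ?_
      rw [h0 j x hx, mul_zero, zero_add, mul_comm]
      exact mul_le_mul_of_nonneg_right (Real.exp_le_exp.2 (mul_le_mul_of_nonneg_left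
        (by linarith [(χ1 (K.e (m x) x)).2]) L0)) (Q0 _ _)
    have f2 : K.Q k j x ≤ T j (m x) x := by
      refine le_trans (le_mul_of_one_le_right (Q0 _ _) (Real.one_le_exp ?_)) (m2 x j j hx hx)
      rw [h0 j x hx, mul_zero, zero_add]
      exact mul_nonneg L0 (χ1 _).1
    refine ⟨f1.trans ?_, d2.trans ?_⟩
    · rw [mul_assoc]
      exact mul_le_mul_of_nonneg_left d1 (Real.exp_pos _).le
    · exact mul_le_mul (le_mul_of_one_le_left c0.le e2) f2 (Q0 _ _) (by positivity)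

end Vale.Agent.P281Z.Ky
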