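import Vale.Agent.P281Z.Ky.Basic

/-!
# P281Z, block KY: the ideal of the singularities
-/

set_option linter.unusedSectionVars false

open scoped Manifold ContDiff Topology ComplexOrder ENNReal Matrix
open MeasureTheory Filter Set Metric
open Vale.Agent.P272.K (Cm Chart At)
open Vale.Agent.P277Z.Pos (nsq)
open Vale.Agent.P277Z.Hir (Cpb)

noncomputable section

namespace Vale.Agent.P281Z.Ky

namespace IdlH

/-- `f` is dominated by `g` -/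
def Dm {T : Type} (l : Filter T) (f g : T → ℝ) : Prop := ∃ C : ℝ, 0 < C ∧ ∀ᶠ z in l, f z ≤ C * g z

section dm
variable {T : Type} {l : Filter T} {f g h : T → ℝ}

theorem Dm.trans (a : Dm l f g) (b : Dm l g h) : Dm l f h := by
  obtain ⟨C, hC, a⟩ := a
  obtain ⟨C', hC', b⟩ := b
  exact ⟨C * C', mul_pos hC hC', (a.and b).mono fun z hz =>
    hz.1.trans ((mul_le_mul_of_nonneg_left hz.2 hC.le).trans_eq (mul_assoc _ _ _).symm)⟩

theorem Dm.cpb (a : Dm l f g) (b : Dm l g f) (hf : ∀ z, 0 ≤ f z) (hg : ∀ z, 0 ≤ g z) :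
    Cpb l f g := by
  obtain ⟨C, hC, a⟩ := a
  obtain ⟨C', hC', b⟩ := b
  exact ⟨max C C', lt_max_of_lt_left hC, (a.and b).mono fun z hz =>
    ⟨hz.1.trans (mul_le_mul_of_nonneg_right (le_max_left _ _) (hg z)),
      hz.2.trans (mul_le_mul_of_nonneg_right (le_max_right _ _) (hf z))⟩⟩

theorem Dm.of_sq (a : Dm l (fun z => f z ^ 2) fun z => g z ^ 2) (hg : ∀ z, 0 ≤ g z) : Dm l f g := by
  obtain ⟨C, hC, a⟩ := a
  refine ⟨√C, Real.sqrt_pos.2 hC, a.mono fun z hz => (le_abs_self _).trans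
    (abs_le_of_sq_le_sq ?_ (mul_nonneg (Real.sqrt_nonneg _) (hg z)))⟩
  rwa [mul_pow, Real.sq_sqrt hC.le]

variable [TopologicalSpace T] {x : T}

theorem dm_mul (hg : ContinuousAt g x) (hf : ∀ z, 0 ≤ f z) : Dm (𝓝 x) (fun z => f z * g z) f :=
  ⟨|g x| + 1, by positivity, (hg.eventually (gt_mem_nhds ((le_abs_self _).trans_lt
    (lt_add_one _)))).mono fun z hz => (mul_le_mul_of_nonneg_left hz.le (hf z)).trans_eq
      (mul_comm _ _)⟩

theorem dm_mul' (hg : ContinuousAt g x) (h0 : 0 < g x) (hf : ∀ z, 0 ≤ f z) :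
    Dm (𝓝 x) f fun z => f z * g z :=
  ⟨(g x / 2)⁻¹, by positivity, (hg.eventually (lt_mem_nhds (half_lt_self h0))).mono fun z hz => by
    rw [le_inv_mul_iff₀ (half_pos h0), mul_comm]
    exact mul_le_mul_of_nonneg_left hz.le (hf z)⟩

end dm

variable {p : ℕ}

theorem bg_nonneg (W : Cm p → ℝ) (z : Cm p) : 0 ≤ bg W z :=
  Real.sSup_nonneg fun _ ⟨_, _, h⟩ => h ▸ sq_nonneg _

theorem bg_cmp {W : Cm p → ℝ} {z : Cm p} {N : ℕ} {g : Fin N → Cm p → ℂ} {C : ℝ}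
    (hg : ∀ l, g l ∈ Bg W) (h : ∀ f ∈ Bg W, ‖f z‖ ≤ C * ∑ l, ‖g l z‖) :
    bg W z ≤ (C ^ 2 + 1) * (∑ l, ‖g l z‖) ^ 2 ∧
      (∑ l, ‖g l z‖) ^ 2 ≤ ((N : ℝ) ^ 2 + 1) * bg W z := by
  have h1 : ∀ t ∈ (fun g : Cm p → ℂ => ‖g z‖ ^ 2) '' Bg W, t ≤ (C ^ 2 + 1) * (∑ l, ‖g l z‖) ^ 2 := by
    rintro _ ⟨f, hf, rfl⟩
    refine (pow_le_pow_left₀ (norm_nonneg _) (h f hf) 2).trans ?_
    rw [mul_pow]
    exact mul_le_mul_of_nonneg_right (le_add_of_nonneg_right zero_le_one) (sq_nonneg _)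
  refine ⟨Real.sSup_le h1 (by positivity), sq_sum_le_card_mul_sum_sq.trans ?_⟩
  have h2 := Finset.sum_le_card_nsmul Finset.univ (fun l => ‖g l z‖ ^ 2) (bg W z)
    fun l _ => le_csSup ⟨_, h1⟩ ⟨g l, hg l, rfl⟩
  rw [Finset.card_fin, nsmul_eq_mul] at h2
  rw [Finset.card_fin]
  nlinarith [bg_nonneg W z, mul_le_mul_of_nonneg_left h2 (Nat.cast_nonneg (α := ℝ) N)]

theorem bg_an {W : Cm p → ℝ} {g : Cm p → ℂ} (h : g ∈ Bg W) : AnalyticOnNhd ℂ g (ball 0 3) :=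
  P268.analyticOnNhd_of_differentiableOn isOpen_ball h.1

variable {Y : Type} [TopologicalSpace Y] [ChartedSpace (Cm p) Y] (K : KC p Y) (k : ℕ)

theorem Q_nonneg (i : K.ι) (y : Y) : 0 ≤ K.Q k i y :=
  mul_nonneg (bg_nonneg _ _) (Real.exp_pos _).le

theorem Q_bg {i : K.ι} {y : Y} (hy : y ∈ (K.e i).source) :
    Dm (𝓝 y) (K.Q k i) (fun x => bg (fun z => K.W i z ^ k) (K.e i x)) ∧
      Dm (𝓝 y) (fun x => bg (fun z => K.W i z ^ k) (K.e i x)) (K.Q k i) := by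
  have h1 : Continuous fun z : Cm p => Real.exp (k * (K.c i * nsq z)) := by
    unfold nsq
    fun_prop
  have h2 := h1.continuousAt.comp ((K.e i).continuousAt hy)
  exact ⟨dm_mul h2 fun _ => bg_nonneg _ _, dm_mul' h2 (Real.exp_pos _) fun _ => bg_nonneg _ _⟩

variable {K k} in
theorem Q_Q [IsManifold 𝓘(ℂ, Cm p) ω Y] {D : ℝ} (hD : 0 < D) (h : K.Cmp k D) {i j : K.ι} {y : Y}
    (hi : y ∈ Bl (K.e i) 2) (hj : y ∈ Bl (K.e j) 2) : Dm (𝓝 y) (K.Q k i) (K.Q k j) := by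
  have h1 := flat_cont (K.flat i j y (Bl.mono (by norm_num) hi) (Bl.mono (by norm_num) hj))
  refine Dm.trans ⟨D, hD, ?_⟩ (dm_mul (g := fun x => Real.exp (k * K.h i j x))
    (Real.continuous_exp.continuousAt.comp (h1.const_mul _)) (Q_nonneg K k j))
  filter_upwards [(isOpen_bl _ _).mem_nhds hi, (isOpen_bl _ _).mem_nhds hj] with x a b
  exact h i j x a b

theorem loc (hF : StFg) (y : Y) : ∃ (i : K.ι) (N : ℕ) (g : Fin N → Cm p → ℂ) (C : ℝ) (U : Set Y),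
    IsOpen U ∧ y ∈ U ∧ U ⊆ Bl (K.e i) 2 ∧ (∀ l, g l ∈ Bg fun z => K.W i z ^ k) ∧
      ∀ x ∈ U, ∀ f ∈ Bg fun z => K.W i z ^ k, ‖f (K.e i x)‖ ≤ C * ∑ l, ‖g l (K.e i x)‖ := by
  obtain ⟨i, hi⟩ := K.cov y
  obtain ⟨N, g, C, h1, h2⟩ := hF p _ ((K.lpsh i).pow k) (K.e i y)
    (ball_subset_ball (by norm_num) hi.2)
  obtain ⟨U, h3, h4, h5⟩ := eventually_nhds_iff.1 ((((K.e i).continuousAt hi.1).eventually h2).and
    ((isOpen_bl (K.e i) 2).mem_nhds (Bl.mono (by norm_num) hi)))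
  exact ⟨i, N, g, C, U, h4, h5, fun x hx => (h3 x hx).2, h1, fun x hx => (h3 x hx).1⟩

end IdlH

open IdlH in
theorem stIdl_of (_ : StCd) (_ : StBd) (hF : StFg) (hN : StNz) : StIdl := by
  intro p Y K k D hD hc
  choose i N g C U h1 h2 h3 h4 h5 using loc K k hF
  have hS : ∀ γ x, 0 ≤ ∑ l, ‖g γ l (K.e (i γ) x)‖ := fun γ x => by positivity
  have key : ∀ j γ, ∀ y ∈ Bl (K.e j) 2, y ∈ U γ →
      Dm (𝓝 y) (K.Q k j) (fun x => (∑ l, ‖g γ l (K.e (i γ) x)‖) ^ 2) ∧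
      Dm (𝓝 y) (fun x => (∑ l, ‖g γ l (K.e (i γ) x)‖) ^ 2) (K.Q k j) := fun j γ y hj hy => by
    have a := ((h1 γ).eventually_mem hy).mono fun x hx => bg_cmp (h4 γ) (h5 γ x hx)
    have b := Q_bg K k (h3 γ hy).1
    exact ⟨((Q_Q hD hc hj (h3 γ hy)).trans b.1).trans ⟨_, by positivity, a.mono fun x hx => hx.1⟩,
      (Dm.trans ⟨_, by positivity, a.mono fun x hx => hx.2⟩ b.2).trans (Q_Q hD hc (h3 γ hy) hj)⟩
  refine ⟨⟨Y.X, U, N, fun γ l x => g γ l (K.e (i γ) x), h1, fun x => ⟨x, h2 x⟩,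
    fun γ l x hx => (K.cd _).hol_comp (h3 γ hx).1
      (bg_an (h4 γ l) _ (ball_subset_ball (by norm_num) (h3 γ hx).2)), fun γ γ' x hx hx' => ?_⟩,
    fun y => mem_closure_iff_frequently.2 fun h => ?_, fun j γ y hj hy =>
      (key j γ y hj hy).1.cpb (key j γ y hj hy).2 (Q_nonneg K k j) fun _ => sq_nonneg _⟩
  · have a := key _ γ x (h3 γ hx) hx
    have b := key _ γ' x (h3 γ hx) hx'
    exact ((a.2.trans b.1).of_sq (hS γ')).cpb ((b.2.trans a.1).of_sq (hS γ)) (hS γ) (hS γ')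
  · obtain ⟨z, hz, hz'⟩ := K.pos (i y)
    obtain ⟨f, hf, w, hw, hw'⟩ := hN p _ ((K.lpsh (i y)).pow k) ⟨z, hz, pow_pos hz' k⟩
    have hy := h3 y (h2 y)
    have a : ∀ᶠ x in 𝓝 y, f (K.e (i y) x) = 0 := by
      filter_upwards [h, (h1 y).mem_nhds (h2 y)] with x hx hx'
      have := h5 y x hx' f hf
      rw [Finset.sum_eq_zero fun l _ => norm_eq_zero.2 (not_not.1 hx y hx' l), mul_zero] at this
      exact norm_le_zero_iff.1 this
    refine hw' ((bg_an hf).eqOn_zero_of_preconnected_of_eventuallyEq_zero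
      (convex_ball _ _).isPreconnected (ball_subset_ball (by norm_num) hy.2) ?_ hw)
    filter_upwards [ev_sy hy.1 a, (K.e (i y)).eventually_right_inverse' hy.1] with z a b
    rwa [b] at a

end Vale.Agent.P281Z.Ky
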