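import Vale.Agent.P281Z.Ky.Basic
import Vale.Agent.P277Z.Van.Vol

/-!
# P281Z, block KY: the direct image is a Kähler current with local potentials
-/

open scoped ContDiff Topology
open MeasureTheory Filter Set Metric
open Vale.Agent.P272.K
open Vale.Agent.P277Z.Pos (nsq FlatAt)

noncomputable section

namespace Vale.Agent.P281Z.Ky

namespace KcH

variable {p : ℕ} {U U' : Set (Cm p)}

theorem apx_mono {φ : ℕ → Cm p → ℝ} {P : Cm p → ℝ} (h : Apx U φ P) (e : U' ⊆ U) : Apx U' φ P :=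
  ⟨fun m z k => h.sm m z (e k), fun m z k => h.psd m z (e k), fun m z k => h.anti m z (e k),
    fun z k => h.lim z (e k), fun z k => h.pos z (e k)⟩

theorem ct_mono {ψ : Cm p → ℂ} (h : Ct U' ψ) (e : U' ⊆ U) : Ct U ψ := ⟨h.1, h.2.1, h.2.2.trans e⟩

end KcH

open KcH in
theorem stKC_of (h0 : StCd) (h1 : StCur) (h2 : StPot) (h3 : StUniq) (h4 : StChg) (h5 : StCmt) :
    StKC := by
  intro n p V Y f ⟨w, hw⟩ hf hs
  borelize V.X
  obtain ⟨μ, hμ⟩ : ∃ μ, P277Z.Van.IsVol w μ := ⟨_, P277Z.Van.isVol_volX hw.toIsHermitian⟩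
  obtain ⟨⟨C⟩, -, hb, -⟩ := h0 p Y
  choose c c0 hT using fun i => h1 n p V Y w μ f (C.e i) hw hμ hf hs (C.cd i) (C.tgt i)
  choose φ P hA hL hW using fun i => h2 p V.X (cur w μ f (C.e i)) (c i) (c0 i).le (hT i)
  have ex : ∀ i j, ∃ h : Cm p → ℝ, ∀ y ∈ Bl (C.e i) 4, y ∈ Bl (C.e j) 4 → Fl h (C.e i y) ∧
      P i (C.e i y) = P j (C.e j y) * Real.exp (h (C.e i y)) := by
    intro i j
    set τ := (C.e i).symm.trans (C.e j) with hτ
    have hU : IsOpen (τ.source ∩ τ ⁻¹' ball 0 4 ∩ ball 0 4) :=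
      (τ.continuousOn.isOpen_inter_preimage τ.open_source isOpen_ball).inter isOpen_ball
    have im : τ '' (τ.source ∩ τ ⁻¹' ball 0 4 ∩ ball 0 4) ⊆ ball 0 4 :=
      image_subset_iff.2 fun z hz => hz.1.2
    have b45 : ball (0 : Cm p) 4 ⊆ ball 0 5 := ball_subset_ball (by norm_num)
    obtain ⟨a1, a2⟩ := h4 p τ _ (hb _ _ (C.cd i) (C.cd j)) hU fun z hz => hz.1.1
    obtain ⟨h, hh⟩ := h3 p _ (φ i) _ (P i) _ hU (apx_mono (hA i) inter_subset_right)
      (a1 (φ j) (P j) (apx_mono (hA j) im)) fun ψ hψ a b => by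
        obtain ⟨a3, a4⟩ := a2 ψ hψ a b
        have t2 := tendsto_finsetSum Finset.univ fun a' _ => tendsto_finsetSum Finset.univ
          fun b' _ => hW j _ (ct_mono (a3 a' b') im) a' b'
        rw [h5 n p V Y w μ f (C.e i) (C.e j) (c j) _ ψ hw.toIsHermitian hf (C.cd i) (C.cd j) (hT j)
          hU (fun z hz => hz.1.1) (fun z hz => b45 hz.2) (fun z hz => b45 hz.1.2) hψ a b] at t2
        have t := (hW i ψ (ct_mono hψ inter_subset_right) a b).sub t2
        rw [sub_self] at t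
        exact t.congr fun m => by rw [a4 (φ j m) fun z hz => (hA j).sm m _ hz.1.2]
    refine ⟨h, fun y hi hj => ?_⟩
    have e : τ (C.e i y) = C.e j y := congrArg (C.e j) ((C.e i).left_inv hi.1)
    rw [← e]
    exact hh _ ⟨⟨⟨(C.e i).map_source hi.1, show (C.e i).symm (C.e i y) ∈ (C.e j).source from
      ((C.e i).left_inv hi.1).symm ▸ hj.1⟩, show τ (C.e i y) ∈ ball 0 4 from e ▸ hj.2⟩, hi.2⟩
  choose h hh using ex
  have fl : ∀ i j, ∀ y ∈ Bl (C.e i) 4, y ∈ Bl (C.e j) 4 → FlatAt p (fun y => h i j (C.e i y)) y :=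
    fun i j y hi hj => ((C.cd i).flat_iff hi.1).2 ((hh i j y hi hj).1.congr
      (((C.e i).eventually_right_inverse' hi.1).mono fun z hz => congrArg (h i j) hz))
  refine ⟨⟨C, c, c0, fun i z => P i z * Real.exp (-(c i * nsq z)), hL, fun i => ?_,
    fun i j y => h i j (C.e i y), fl, fun i j y hi hj => ?_, fun i j l y hi hj hl => ?_⟩⟩
  · obtain ⟨z, a, b⟩ := (((hA i).pos 0 (mem_ball_self (by norm_num))).and_eventually
      (ball_mem_nhds 0 (by norm_num : (0 : ℝ) < 4))).exists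
    exact ⟨z, b, mul_pos a (Real.exp_pos _)⟩
  · simp only [mul_assoc, ← Real.exp_add, neg_add_cancel, Real.exp_zero, mul_one]
    exact (hh i j y hi hj).2
  · have fr : ∃ᶠ x in 𝓝 y, 0 < P l (C.e l x) := (tends_symm hl.1).frequently
      ((((hA l).pos _ hl.2).and_eventually ((C.e l).eventually_right_inverse' hl.1)).mono
        fun z hz => by rw [hz.2]; exact hz.1)
    refine tendsto_nhds_unique_of_frequently_eq
      ((flat_cont (fl i j y hi hj)).add (flat_cont (fl j l y hj hl))) (flat_cont (fl i l y hi hl))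
      ((fr.and_eventually (((isOpen_bl _ 4).eventually_mem hi).and
        (((isOpen_bl _ 4).eventually_mem hj).and ((isOpen_bl _ 4).eventually_mem hl)))).mono
        fun x ⟨a, b1, b2, b3⟩ => Real.exp_injective (mul_left_cancel₀ a.ne' ?_))
    rw [← (hh i l x b1 b3).2, (hh i j x b1 b2).2, (hh j l x b2 b3).2, Pi.add_apply,
      Real.exp_add]
    ring

end Vale.Agent.P281Z.Ky
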