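import Vale.Agent.P281Z.Ky.Defs

/-!
# P281Z, block KY: mollification of a direct image
-/

set_option linter.unusedSectionVars false

open scoped Manifold ContDiff Topology ComplexOrder ENNReal Matrix
open MeasureTheory Filter Set Metric
open Vale.Agent.P272.K (Cm dz dzb)
open Vale.Agent.P284Y.Lib (ker ker_sm ker_nonneg ker_zero ker_one ker_cpt ker_int)

noncomputable section

namespace Vale.Agent.P281Z.Ky

namespace MollH

variable {p : ℕ} {Ω : Type} [MeasurableSpace Ω] {μ : Measure Ω} [IsFiniteMeasure μ]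
  {y : Ω → Cm p} {s : Ω → ℂ} {C : ℝ}

/-- the average of the translates of `k` -/
def G (μ : Measure Ω) (y : Ω → Cm p) (s : Ω → ℂ) (k : Cm p → ℂ) (z : Cm p) : ℂ :=
  ∫ x, k (y x - z) * s x ∂μ

theorem meas {F : Type} [NormedAddCommGroup F] {k : Cm p → F} (hk : Continuous k)
    (hy : AEMeasurable y μ) (z : Cm p) : AEStronglyMeasurable (fun x => k (y x - z)) μ :=
  hk.comp_aestronglyMeasurable (hy.sub_const z).aestronglyMeasurable

theorem intg {k : Cm p → ℂ} (hk : Continuous k) (hc : HasCompactSupport k) (hy : AEMeasurable y μ)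
    (hs : AEStronglyMeasurable s μ) (hC : ∀ᵐ x ∂μ, ‖s x‖ ≤ C) (z : Cm p) :
    Integrable (fun x => k (y x - z) * s x) μ := by
  obtain ⟨B, hB⟩ := hk.bounded_above_of_compact_support hc
  refine (integrable_const (B * C)).mono' ((meas hk hy z).mul hs) (hC.mono fun x hx => ?_)
  rw [norm_mul]
  exact mul_le_mul (hB _) hx (norm_nonneg _) ((norm_nonneg _).trans (hB 0))

theorem hasF {k : Cm p → ℂ} (hk : ContDiff ℝ ∞ k) (hc : HasCompactSupport k)
    (hy : AEMeasurable y μ) (hs : AEStronglyMeasurable s μ) (hC : ∀ᵐ x ∂μ, ‖s x‖ ≤ C) (z : Cm p) :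
    DifferentiableAt ℝ (G μ y s k) z ∧
      ∀ v, fderiv ℝ (G μ y s k) z v = -G μ y s (fun w => fderiv ℝ k w v) z := by
  have hk' : Continuous (fderiv ℝ k) := hk.continuous_fderiv (by simp)
  obtain ⟨B, hB⟩ := hk'.bounded_above_of_compact_support (hc.fderiv ℝ)
  have hb : ∀ᵐ x ∂μ, ∀ z : Cm p, ‖-(s x • fderiv ℝ k (y x - z))‖ ≤ C * B := hC.mono fun x hx z => by
    rw [norm_neg, norm_smul]
    exact mul_le_mul hx (hB _) (norm_nonneg _) ((norm_nonneg _).trans hx)
  have hm : AEStronglyMeasurable (fun x => -(s x • fderiv ℝ k (y x - z))) μ :=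
    (hs.smul (meas hk' hy z)).neg
  have h : HasFDerivAt (G μ y s k) (∫ x, -(s x • fderiv ℝ k (y x - z)) ∂μ) z := by
    refine hasFDerivAt_integral_of_dominated_of_fderiv_le (F := fun z x => k (y x - z) * s x)
      (F' := fun z x => -(s x • fderiv ℝ k (y x - z))) (bound := fun _ => C * B) univ_mem
      (Eventually.of_forall fun z => (meas hk.continuous hy z).mul hs)
      (intg hk.continuous hc hy hs hC z) hm (hb.mono fun x hx z _ => hx z) (integrable_const _)
      (Eventually.of_forall fun x z _ => ?_)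
    have h1 := (((hk.differentiable (by simp)) (y x - z)).hasFDerivAt.comp z
      ((hasFDerivAt_id z).const_sub (y x))).mul_const (s x)
    refine h1.congr_fderiv ?_
    ext v
    simp
  refine ⟨h.differentiableAt, fun v => ?_⟩
  rw [h.fderiv, ContinuousLinearMap.integral_apply
    ((integrable_const (C * B)).mono' hm (hb.mono fun x hx => hx z)), G, ← integral_neg]
  refine integral_congr_ae (Eventually.of_forall fun x => ?_)
  simp [mul_comm]

theorem sm_app {k : Cm p → ℂ} (hk : ContDiff ℝ ∞ k) (v : Cm p) :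
    ContDiff ℝ ∞ fun w => fderiv ℝ k w v :=
  (hk.fderiv_right (m := ∞) (by simp)).clm_apply contDiff_const

theorem smooth (hy : AEMeasurable y μ) (hs : AEStronglyMeasurable s μ) (hC : ∀ᵐ x ∂μ, ‖s x‖ ≤ C)
    (n : ℕ) : ∀ k : Cm p → ℂ, ContDiff ℝ ∞ k → HasCompactSupport k → ContDiff ℝ n (G μ y s k) := by
  induction n with
  | zero =>
    exact fun k hk hc => contDiff_zero.2
      (Differentiable.continuous (𝕜 := ℝ) fun z => (hasF hk hc hy hs hC z).1)
  | succ n ih =>
    intro k hk hc
    rw [Nat.cast_succ, contDiff_succ_iff_fderiv_apply]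
    refine ⟨fun z => (hasF hk hc hy hs hC z).1, by simp, fun v => ?_⟩
    rw [funext fun z => (hasF hk hc hy hs hC z).2 v]
    exact (ih _ (sm_app hk v) (hc.fderiv_apply ℝ v)).neg

theorem comb {k : Cm p → ℂ} (hk : ContDiff ℝ ∞ k) (hc : HasCompactSupport k)
    (hy : AEMeasurable y μ) (hs : AEStronglyMeasurable s μ) (hC : ∀ᵐ x ∂μ, ‖s x‖ ≤ C) (z : Cm p)
    (c : ℂ) (v v' : Cm p) :
    (fderiv ℝ (G μ y s k) z v + c * fderiv ℝ (G μ y s k) z v') / 2 =
      -∫ x, (fderiv ℝ (fun w => k (w - z)) (y x) v +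
        c * fderiv ℝ (fun w => k (w - z)) (y x) v') / 2 * s x ∂μ := by
  have hi := fun v => intg (sm_app hk v).continuous (hc.fderiv_apply ℝ v) hy hs hC z
  rw [(hasF hk hc hy hs hC z).2, (hasF hk hc hy hs hC z).2, G, G, mul_neg, ← neg_add,
    ← integral_const_mul, ← integral_add (hi v) ((hi v').const_mul c), neg_div, ← integral_div]
  congr 1
  refine integral_congr_ae (Eventually.of_forall fun x => ?_)
  simp only [fderiv_comp_sub]
  ring

theorem intg₂ {φ k : Cm p → ℂ} (hφ : Integrable φ) (hk : Continuous k) (hc : HasCompactSupport k)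
    (hy : AEMeasurable y μ) (hs : AEStronglyMeasurable s μ) (hC : ∀ᵐ x ∂μ, ‖s x‖ ≤ C) :
    Integrable (Function.uncurry fun z x => φ z * (k (y x - z) * s x)) (volume.prod μ) := by
  obtain ⟨B, hB⟩ := hk.bounded_above_of_compact_support hc
  have hm : AEStronglyMeasurable (fun q : Cm p × Ω => k (y q.2 - q.1) * s q.2) (volume.prod μ) :=
    (hk.comp_aestronglyMeasurable (hy.aestronglyMeasurable.comp_snd.sub
      measurable_fst.aestronglyMeasurable)).mul hs.comp_snd
  refine (hφ.norm.mul_prod (integrable_const (B * C))).mono'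
    (hφ.aestronglyMeasurable.comp_fst.mul hm) ?_
  filter_upwards [Measure.quasiMeasurePreserving_snd.ae hC] with q hq
  change ‖φ q.1 * (k (y q.2 - q.1) * s q.2)‖ ≤ ‖φ q.1‖ * (B * C)
  rw [norm_mul, norm_mul]
  exact mul_le_mul_of_nonneg_left
    (mul_le_mul (hB _) hq (norm_nonneg _) ((norm_nonneg _).trans (hB 0))) (norm_nonneg _)

theorem inn (φ k : Cm p → ℂ) (a : Cm p) (t : ℂ) :
    ∫ z, φ z * (k (a - z) * t) = (∫ z, φ z * k (a - z)) * t := by
  simp only [← mul_assoc]
  exact integral_mul_const _ _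

theorem fub {φ k : Cm p → ℂ} (hφ : Integrable φ) (hk : Continuous k) (hc : HasCompactSupport k)
    (hy : AEMeasurable y μ) (hs : AEStronglyMeasurable s μ) (hC : ∀ᵐ x ∂μ, ‖s x‖ ≤ C) :
    ∫ z, φ z * G μ y s k z = ∫ x, (∫ z, φ z * k (y x - z)) * s x ∂μ := by
  simp only [G, ← integral_const_mul, ← inn]
  exact integral_integral_swap (intg₂ hφ hk hc hy hs hC)

/-- the kernel with complex values -/
def K (r : ℝ) (w : Cm p) : ℂ := (ker volume r w : ℝ)

theorem K_sm (r : ℝ) : ContDiff ℝ ∞ (K (p := p) r) := Complex.ofRealCLM.contDiff.comp (ker_sm r)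

theorem K_cpt {r : ℝ} (hr : 0 < r) : HasCompactSupport (K (p := p) r) :=
  (ker_cpt hr).comp_left (g := fun t : ℝ => (t : ℂ)) Complex.ofReal_zero

theorem K_int {r : ℝ} (hr : 0 < r) : Integrable (K (p := p) r) := (ker_int hr).ofReal

theorem est {ψ : Cm p → ℂ} (hψ : Continuous ψ) {r ε : ℝ} (hr : 0 < r) (a : Cm p) (t : ℂ)
    (h : ∀ w, ‖w‖ ≤ r → ‖ψ (a - w) - t‖ ≤ ε) : ‖(∫ z, ψ z * K r (a - z)) - t‖ ≤ ε := by
  have h1 : ∫ z, ψ z * K r (a - z) = ∫ w, ψ (a - w) * K r w := by
    rw [← integral_sub_left_eq_self (fun z => ψ z * K r (a - z)) volume a]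
    simp only [sub_sub_cancel]
  have h2 : ∫ w : Cm p, t * K r w = t := by
    rw [integral_const_mul]
    simp only [K]
    rw [integral_complex_ofReal, ker_one hr, Complex.ofReal_one, mul_one]
  have h3 : Integrable fun w => ψ (a - w) * K r w :=
    ((hψ.comp (continuous_const.sub continuous_id)).mul (K_sm r).continuous).integrable_of_hasCompactSupport
      (K_cpt hr).mul_left
  have h4 : ∫ w : Cm p, ε * ker volume r w = ε := by rw [integral_const_mul, ker_one hr, mul_one]
  rw [h1, ← h4]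
  conv_lhs => rw [← h2, ← integral_sub h3 ((K_int hr).const_mul t)]
  refine norm_integral_le_of_norm_le ((ker_int hr).const_mul ε) (Eventually.of_forall fun w => ?_)
  rw [← sub_mul, norm_mul, K, Complex.norm_real, Real.norm_of_nonneg (ker_nonneg hr w)]
  rcases lt_or_ge r ‖w‖ with hw | hw
  · rw [ker_zero hr hw, mul_zero, mul_zero]
  · exact mul_le_mul_of_nonneg_right (h w hw) (ker_nonneg hr w)

theorem lim {ψ : Cm p → ℂ} (hψ : Continuous ψ) (a : Cm p) :
    Tendsto (fun r => ∫ z, ψ z * K r (a - z)) (𝓝[>] 0) (𝓝 (ψ a)) := by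
  refine Metric.tendsto_nhds.2 fun ε hε => ?_
  obtain ⟨δ, hδ, h⟩ := Metric.continuousAt_iff.1 (hψ.continuousAt (x := a)) (ε / 2) (half_pos hε)
  filter_upwards [Ioo_mem_nhdsGT hδ] with r hr
  rw [dist_eq_norm]
  refine (est hψ hr.1 a _ fun w hw => ?_).trans_lt (half_lt_self hε)
  rw [← dist_eq_norm]
  exact (h (by simpa using hw.trans_lt hr.2)).le

end MollH

open MollH in
theorem stMoll : StMoll := by
  intro p Ω _ μ _ y s C hy hs hC
  refine ⟨fun r hr => ⟨contDiff_infty.2 fun n => smooth hy hs hC n _ (K_sm r) (K_cpt hr),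
    fun z k => ⟨?_, comb (K_sm r) (K_cpt hr) hy hs hC z _ _ _⟩⟩, fun r hr r' hr' z => ?_,
    fun ψ hψ => ?_⟩
  · have := comb (K_sm r) (K_cpt hr) hy hs hC z (-Complex.I) (Pi.single k 1)
      (Pi.single k Complex.I)
    simp only [neg_mul, ← sub_eq_add_neg] at this
    exact this
  · have h : ∀ r > (0 : ℝ), ∀ r' > (0 : ℝ), ∫ w, (ker volume r' w : ℂ) * mo μ y s r (z + w) =
        ∫ x, (∫ w, K r' w * K r (y x - z - w)) * s x ∂μ := fun r hr r' hr' => by
      rw [← fub (K_int hr') (K_sm r).continuous (K_cpt hr) (hy.sub_const z) hs hC]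
      simp only [G, mo, K, sub_sub]
    rw [h r hr r' hr', h r' hr' r hr]
    refine integral_congr_ae (Eventually.of_forall fun x => ?_)
    simp only
    rw [← integral_sub_left_eq_self (fun w => K r' w * K r (y x - z - w)) volume (y x - z)]
    simp only [sub_sub_cancel, mul_comm]
  · have hi : Integrable ψ := hψ.1.integrable_of_hasCompactSupport hψ.2.1
    obtain ⟨B, hB⟩ := hψ.1.bounded_above_of_compact_support hψ.2.1
    refine (tendsto_integral_filter_of_dominated_convergence (fun _ => B * C) ?_ ?_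
      (integrable_const _) (Eventually.of_forall fun x => (lim hψ.1 (y x)).mul_const (s x))).congr' ?_
    · filter_upwards [self_mem_nhdsWithin] with r hr
      simp only [← inn]
      exact (intg₂ hi (K_sm r).continuous (K_cpt hr) hy hs hC).integral_prod_right.aestronglyMeasurable
    · filter_upwards [self_mem_nhdsWithin] with r hr
      refine hC.mono fun x hx => ?_
      have := est hψ.1 hr (y x) 0 (ε := B) fun w _ => by rw [sub_zero]; exact hB _
      rw [sub_zero] at this
      rw [norm_mul]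
      exact mul_le_mul this hx (norm_nonneg _) ((norm_nonneg _).trans (hB 0))
    · filter_upwards [self_mem_nhdsWithin] with r hr
      exact (fub hi (K_sm r).continuous (K_cpt hr) hy hs hC).symm

end Vale.Agent.P281Z.Ky
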