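import Vale.Agent.P281Z.Ky.Basic
import Vale.Agent.P284Y.O.Pot
import Vale.Agent.P272.K.C2.Wirt
import Mathlib.Analysis.Matrix.Hermitian

/-!
# P281Z, block KY: potentials of a closed positive current
-/

open scoped ContDiff Topology ComplexOrder Matrix
open MeasureTheory Filter Set Metric
open Vale.Agent.P272.K Vale.Agent.P272.K.C2
open Vale.Agent.P277Z.Pos (nsq)
open Vale.Agent.P284Z (Psh LPsh)
open Vale.Agent.P284Y.Lib

noncomputable section

namespace Vale.Agent.P281Z.Ky

namespace PotH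

variable {p : ℕ} {r : ℝ} {F G : Cm p → ℂ} {z : Cm p}

theorem fd_co (l : Fin p) (z v : Cm p) : fderiv ℝ (fun y : Cm p => y l) z v = v l :=
  congrArg (fun A => A v) (ContinuousLinearMap.proj (R := ℝ) (φ := fun _ : Fin p => ℂ) l).fderiv

theorem dz_co (j l : Fin p) (z : Cm p) : dz j (fun y => y l) z = if l = j then 1 else 0 := by
  rw [dz, fd_co, fd_co]
  by_cases h : l = j <;> simp [h]

theorem dzb_co (j l : Fin p) (z : Cm p) : dzb j (fun y => y l) z = 0 := by
  rw [dzb, fd_co, fd_co]
  by_cases h : l = j <;> simp [h]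

theorem nsq_eq (v : Cm p) : (nsq v : ℂ) = ∑ l, v l * (starRingEnd ℂ) (v l) := by
  simp [nsq, Complex.mul_conj']

theorem nsq_sm : ContDiff ℝ ∞ (nsq : Cm p → ℝ) :=
  ContDiff.sum fun l _ => (contDiff_apply ℝ ℂ l).norm_sq ℝ

theorem cHess_nsq (z : Cm p) : cHess nsq z = 1 := by
  ext j k
  have d : ∀ (l : Fin p) (y : Cm p), DifferentiableAt ℝ (fun y : Cm p => y l) y := fun l y =>
    differentiableAt_apply l y
  have e : (dzb k fun y : Cm p => (nsq y : ℂ)) = fun y => y k := funext fun y => by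
    simp only [nsq_eq]
    rw [C2.dzb_sum k _ fun l _ => (d l y).fun_mul (differentiableAt_conj (d l y))]
    simp only [C2.dzb_mul k (d _ y) (differentiableAt_conj (d _ y)), C2.dzb_conj k (d _ y), dz_co,
      dzb_co]
    simp [apply_ite]
  rw [C2.cHess_apply, e, dz_co, Matrix.one_apply]
  exact if_congr eq_comm rfl rfl

/-- the convolution of complex functions -/
def cc (r : ℝ) (F : Cm p → ℂ) (z : Cm p) : ℂ := ∫ t, (ker volume r t : ℂ) * F (z + t)

theorem ker_c (r : ℝ) : ContDiff ℝ ∞ fun t : Cm p => (ker volume r t : ℂ) :=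
  Complex.ofRealCLM.contDiff.comp (ker_sm r)

theorem cc_int (hr : 0 < r) (hF : Continuous F) (z : Cm p) :
    Integrable fun t => (ker volume r t : ℂ) * F (z + t) :=
  ((ker_c r).continuous.mul (by fun_prop)).integrable_of_hasCompactSupport
    (HasCompactSupport.mul_right ((ker_cpt hr).comp_left Complex.ofReal_zero))

theorem cc_eq (hr : 0 < r) (F : Cm p → ℂ) (z : Cm p) :
    cc r F z = ∫ t in closedBall 0 r, (ker volume r t : ℂ) * F (z + t) :=
  (setIntegral_eq_integral_of_forall_compl_eq_zero fun t ht => by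
    rw [ker_zero hr (by simpa using ht), Complex.ofReal_zero, zero_mul]).symm

theorem fd_cc (hr : 0 < r) (hF : ContDiff ℝ ∞ F) (z v : Cm p) :
    fderiv ℝ (cc r F) z v = cc r (fun y => fderiv ℝ F y v) z := by
  have : IsFiniteMeasure (volume.restrict (closedBall (0 : Cm p) r)) :=
    isFiniteMeasure_restrict.2 measure_closedBall_lt_top.ne
  have hν : volume.restrict (closedBall (0 : Cm p) r) (closedBall 0 r)ᶜ = 0 := by
    rw [Measure.restrict_apply measurableSet_closedBall.compl, compl_inter_self, measure_empty]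
  have hf : ContDiff ℝ ∞ (Function.uncurry fun t y : Cm p => (ker volume r t : ℂ) * F (y + t)) :=
    ((ker_c r).comp contDiff_fst).mul (hF.comp (contDiff_snd.add contDiff_fst))
  have hK := isCompact_closedBall (0 : Cm p) r
  have h : Continuous fun t => fderiv ℝ (fun y : Cm p => (ker volume r t : ℂ) * F (y + t)) z :=
    (contDiff_fderiv_snd hf).continuous.comp (continuous_id.prodMk continuous_const)
  rw [funext (cc_eq hr F), (hasFDerivAt_integral_param _ hK hν hf z).fderiv,
    ContinuousLinearMap.integral_apply (integrable_param _ hK hν h), cc_eq hr]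
  refine integral_congr_ae (.of_forall fun t => ?_)
  have := ((hF.differentiable (by simp) (z + t)).hasFDerivAt.comp z
    ((hasFDerivAt_id z).add_const t)).const_mul (ker volume r t : ℂ)
  exact congrArg (fun A => A v) this.fderiv

theorem DD_cc (hr : 0 < r) (hF : ContDiff ℝ ∞ F) (a b : ℂ) (v w : Cm p) :
    DD a b v w (cc r F) = cc r (DD a b v w F) := funext fun z => by
  have h : ∀ v, Continuous fun y => fderiv ℝ F y v := fun v =>
    (hF.continuous_fderiv (by simp)).clm_apply continuous_const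
  rw [DD, fd_cc hr hF, fd_cc hr hF, cc, cc, ← integral_const_mul, ← integral_const_mul,
    ← integral_add ((cc_int hr (h v) z).const_mul a) ((cc_int hr (h w) z).const_mul b)]
  exact integral_congr_ae (.of_forall fun t => by simp only [DD]; ring)

theorem cHess_cv (hr : 0 < r) {u : Cm p → ℝ} (hu : ContDiff ℝ ∞ u) (z : Cm p) (j k : Fin p) :
    cHess (cv volume r u) z j k = cc r (fun y => cHess u y j k) z := by
  have h : ContDiff ℝ ∞ fun y => (u y : ℂ) := Complex.ofRealCLM.contDiff.comp hu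
  have e : (fun y => ((cv volume r u y : ℝ) : ℂ)) = cc r fun y => (u y : ℂ) := funext fun y => by
    simp only [cv, cc, ← integral_complex_ofReal, Complex.ofReal_mul]
  simp only [C2.cHess_apply, e, dz_eq_DD, dzb_eq_DD']
  rw [DD_cc hr h, DD_cc hr (contDiff_iff_contDiffAt.2 fun y =>
    DD_contDiffAt _ _ _ _ h.contDiffAt le_rfl)]

theorem tst (hr : 0 < r) (hr' : r ≤ 1 / 10) (hz : z ∈ ball (0 : Cm p) (49 / 10)) :
    Tst (ball 0 5) fun t => (ker volume r (t - z) : ℂ) := by
  have h : ∀ t ∉ closedBall z r, (ker volume r (t - z) : ℂ) = 0 := fun t ht => by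
    rw [ker_zero hr (by simpa [dist_eq_norm] using ht), Complex.ofReal_zero]
  exact ⟨(ker_c r).comp (contDiff_id.sub contDiff_const), .intro (isCompact_closedBall z r) h,
    (closure_minimal (Function.support_subset_iff'.2 h) isClosed_closedBall).trans
      (closedBall_subset_ball' (by linarith [mem_ball.1 hz]))⟩

variable {Ω : Type} [MeasurableSpace Ω] {T : Cur p Ω} {c : ℝ}

/-- the mollified current -/
def wm (T : Cur p Ω) (r : ℝ) (z : Cm p) : Matrix (Fin p) (Fin p) ℂ :=
  T.ap fun t => (ker volume r (t - z) : ℂ)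

theorem wm_herm (h : T.Ok (ball 0 5) c) (r : ℝ) (z : Cm p) : (wm T r z).IsHermitian := by
  ext j k
  simp only [wm, Cur.ap, Matrix.conjTranspose_apply, Matrix.of_apply, RCLike.star_def,
    ← integral_conj]
  exact integral_congr_ae (h.psd.mono fun x hx => by
    simp only [map_mul, Complex.conj_ofReal]
    exact congrArg _ (hx.1.apply j k))

theorem wm_psd (h : T.Ok (ball 0 5) c) (hr : 0 < r) (hr' : r ≤ 1 / 10)
    (hz : z ∈ ball (0 : Cm p) (49 / 10)) : (wm T r z - (c : ℂ) • 1).PosSemidef := by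
  have hH : (wm T r z - (c : ℂ) • 1).IsHermitian :=
    (wm_herm h r z).sub (IsSelfAdjoint.smul (Complex.conj_ofReal c) Matrix.isHermitian_one)
  refine .of_dotProduct_mulVec_nonneg hH fun v => Complex.nonneg_iff.2
    ⟨?_, (hH.im_star_dotProduct_mulVec_self v).symm⟩
  obtain ⟨a1, a2⟩ := tst hr hr' hz
  have := h.low (fun t => ker volume r (t - z)) ⟨a1.continuous, a2⟩ (fun t => ker_nonneg hr _) v
  rw [integral_sub_right_eq_self, ker_one hr, mul_one] at this
  have e : star v ⬝ᵥ v = (nsq v : ℂ) := by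
    simp only [nsq_eq, dotProduct, Pi.star_apply, RCLike.star_def, mul_comm]
  rw [Matrix.sub_mulVec, Matrix.smul_mulVec, Matrix.one_mulVec, dotProduct_sub, dotProduct_smul, e,
    smul_eq_mul, ← Complex.ofReal_mul, Complex.sub_re, Complex.ofReal_re]
  exact sub_nonneg.2 this

end PotH

open PotH in
theorem stPot_of (h1 : StMoll) (h2 : StMono) : StPot := by
  intro p Ω _ T c hc h
  have := h.fin
  obtain ⟨C, hC⟩ := h.bd
  have M := fun j k => h1 p Ω T.μ T.y (fun x => T.S x j k) C h.my (h.mS j k)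
    (hC.mono fun x hx => hx j k)
  let r : ℕ → ℝ := fun m => 1 / ((m : ℝ) + 1) / 10
  have r0 : ∀ m, 0 < r m := fun m => by positivity
  have r1 : ∀ m, r m ≤ 1 / 10 := fun m => div_le_div_of_nonneg_right
    (div_le_one_of_le₀ (by linarith [Nat.cast_nonneg (α := ℝ) m]) (by positivity)) (by norm_num)
  have r2 : Tendsto r atTop (𝓝 0) := by
    simpa only [zero_div] using (tendsto_one_div_add_atTop_nhds_zero_nat (𝕜 := ℝ)).div_const 10
  have ex : ∀ m, ∃ ρ : Cm p → ℝ, ContDiff ℝ ∞ ρ ∧
      ∀ z ∈ ball (0 : Cm p) (48 / 10), cHess ρ z = wm T (r m) z := fun m =>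
    P284Y.O.exists_pot 0 (R := 49 / 10) (by norm_num) (by norm_num) _
      (fun z _ i j => ((M i j).1 _ (r0 m)).1.contDiffAt) (fun z _ => wm_herm h _ z)
      fun z hz i j k => (((M i j).1 _ (r0 m)).2 z k).1.trans ((congrArg Neg.neg
        (h.closed _ (tst (r0 m) (r1 m) hz) i j k)).trans (((M k j).1 _ (r0 m)).2 z i).1.symm)
  choose ψ s1 s2 using ex
  have e : ∀ m l, ∀ z ∈ ball (0 : Cm p) (47 / 10), ∀ j k, cHess (cv volume (r l) (ψ m)) z j k =
      ∫ t, (ker volume (r l) t : ℂ) * mo T.μ T.y (fun x => T.S x j k) (r m) (z + t) := by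
    intro m l z hz j k
    rw [cHess_cv (r0 l) (s1 m)]
    refine integral_congr_ae (.of_forall fun t => (lt_or_ge (r l) ‖t‖).elim (fun a => ?_) fun a => ?_)
    · simp only [ker_zero (r0 l) a, Complex.ofReal_zero, zero_mul]
    · simp only
      rw [s2 m (z + t) (mem_ball_zero_iff.2 ((norm_add_le _ _).trans_lt (by
        linarith [mem_ball_zero_iff.1 hz, r1 l])))]
      rfl
  obtain ⟨s, φ, P, hs, hA, hφ⟩ := h2 p r ψ (fun m => ⟨r0 m, r1 m⟩) r2 s1 (fun m z hz => by
    have := (wm_psd h (r0 m) (r1 m) (ball_subset_ball (by norm_num) hz)).add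
      (Matrix.PosSemidef.one.smul (Complex.zero_le_real.2 hc))
    rwa [sub_add_cancel, ← s2 m z hz] at this) fun m l z hz => Matrix.ext fun j k => by
      rw [e m l z hz, e l m z hz, (M j k).2.1 _ (r0 m) _ (r0 l)]
  have w : ∀ m, ∀ z ∈ ball (0 : Cm p) 4, cHess (φ m) z = wm T (r (s m)) z := fun m z hz =>
    (hφ m z hz).trans (s2 _ z (ball_subset_ball (by norm_num) hz))
  refine ⟨φ, P, hA, ?_, fun g hg j k => ?_⟩
  · have an : ∀ z ∈ ball (0 : Cm p) 4, Antitone fun m => Real.exp (φ m z - c * nsq z) :=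
      fun z hz => antitone_nat_of_succ_le fun m =>
        Real.exp_le_exp.2 (sub_le_sub_right (hA.anti m z hz) _)
    have li : ∀ z ∈ ball (0 : Cm p) 4, Tendsto (fun m => Real.exp (φ m z - c * nsq z)) atTop
        (𝓝 (P z * Real.exp (-(c * nsq z)))) := fun z hz => by
      simpa only [sub_eq_add_neg, Real.exp_add] using (hA.lim z hz).mul_const _
    have sm : ∀ m, ∀ z ∈ ball (0 : Cm p) 4, ContDiffAt ℝ 2 (fun z => φ m z - c * nsq z) z :=
      fun m z hz => two ((hA.sm m z hz).sub (contDiffAt_const.mul nsq_sm.contDiffAt))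
    refine P284Z.lpsh_of_dec (f := fun t z => Real.exp (φ ⌊t⌋₊ z - c * nsq z)) (fun t =>
      (P284Z.psh_of_cHess fun z hz => ⟨sm _ z hz, ?_⟩).lpsh_exp (.of_cont fun z hz =>
        (sm _ z hz).continuousAt.continuousWithinAt)) (fun t z hz => (an z hz).le_of_tendsto
        (li z hz) _) (fun t _ z hz => an z hz (by simp))
      fun z hz => (li z hz).comp tendsto_nat_floor_atTop
    rw [C2.cHess_sub (two (hA.sm _ z hz)) (two (contDiffAt_const.mul nsq_sm.contDiffAt)),
      C2.cHess_const_mul c (two nsq_sm.contDiffAt), cHess_nsq, w _ z hz]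
    exact wm_psd h (r0 _) (r1 _) (ball_subset_ball (by norm_num) hz)
  · refine (((M j k).2.2 g ⟨hg.1, hg.2.1, subset_univ _⟩).comp
      (tendsto_nhdsWithin_iff.2 ⟨r2.comp hs.tendsto_atTop, .of_forall fun m => r0 _⟩)).congr
      fun m => integral_congr_ae (.of_forall fun z => ?_)
    by_cases hz : z ∈ ball (0 : Cm p) 4
    · simp only [w m z hz]
      rfl
    · simp only [image_eq_zero_of_notMem_tsupport fun a => hz (hg.2.2 a), zero_mul]

end Vale.Agent.P281Z.Ky
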