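import Vale.Agent.P281Z.Ky.Basic
import Vale.Agent.P281Z.Rs.Kahr
import Vale.Agent.P277Z.Ps.Psd
import Vale.Agent.P277Z.Ps.Met

/-!
# P281Z, block KY: relative positivity, and the Kähler metric on the modification
-/

set_option linter.unusedSectionVars false

open scoped Manifold ContDiff Topology ComplexOrder
open Set Filter
open Vale.Agent.P272.K
open Vale.Agent.P284Z (Psh LB)
open Vale.Agent.P277Z (Hol)
open Vale.Agent.P277Z.Slc (LEq isClosed_of_leq)
open Vale.Agent.P277Z.Slc.Dv (dense_compl)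
open Vale.Agent.P277Z.Pos (SPshAt FlatAt PosAt nsq rb kah)
open Vale.Agent.P277Z.Ps (flat_add flat_smul flat_sum flatAt_log)
open Vale.Agent.P277Z.Hl.PosbH (sp_cont)
open Vale.Agent.P277Z.Pos.RbAux (nsq_sm posDef_of_levi levi_nsq' nsq_pos)

noncomputable section

namespace Vale.Agent.P281Z.Ky

variable {n : ℕ} {X : Type} [TopologicalSpace X] [ChartedSpace (Cm n) X]
  [IsManifold 𝓘(ℂ, Cm n) ω X] {a b : X → ℝ} {x : X}

theorem flat_congr (h : FlatAt n a x) (h' : b =ᶠ[𝓝 x] a) : FlatAt n b x := fun e he =>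
  Fl.congr (h e he) (ev_sy he.2 h')

theorem sp_near (h : SPshAt n a x) : ∀ᶠ y in 𝓝 x, SPshAt n a y := by
  obtain ⟨e, he, δ, hδ, N, hN, h⟩ := h
  filter_upwards [(e.continuousAt he.2).eventually (eventually_mem_nhds_iff.2 hN),
    e.open_source.mem_nhds he.2] with y h1 h2 using ⟨e, ⟨he.1, h2⟩, δ, hδ, N, h1, h⟩

theorem sp_add (h : SPshAt n a x) {e' : Chart n X} (he' : At e' x) {N : Set (Cm n)}
    (hN : N ∈ 𝓝 (e' x)) (h1 : ContinuousOn (fun z => b (e'.symm z)) N)
    (h2 : Psh (fun z => b (e'.symm z)) N) : SPshAt n (fun y => a y + b y) x := by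
  obtain ⟨e, he, δ, hδ, S, hS, k1, k2⟩ := h
  obtain ⟨N₀, n1, n2, n3⟩ := mem_nhds_iff.1 hN
  have hτ := (INT.transition_contDiffAt he he').analyticAt
  have h3 : ∀ᶠ z in 𝓝 (e x), e' (e.symm z) ∈ N₀ :=
    ev_sy he.2 ((e'.continuousAt he'.2).eventually (n2.mem_nhds n3))
  obtain ⟨O, o1, o2, o3⟩ := eventually_nhds_iff.1 ((hτ.eventually_analyticAt.and h3).and
    ((ev_sy he.2 (e'.eventually_left_inverse he'.2)).and hS))
  have hd : DifferentiableOn ℂ (fun z => e' (e.symm z)) O := fun z hz =>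
    (o1 z hz).1.1.differentiableAt.differentiableWithinAt
  have hm : MapsTo (fun z => e' (e.symm z)) O N₀ := fun z hz => (o1 z hz).1.2
  have c1 : ContinuousOn (fun z => b (e.symm z)) O :=
    ((h1.mono n1).comp hd.continuousOn hm).congr fun z hz => congrArg b (o1 z hz).2.1.symm
  have c2 : Psh (fun z => b (e.symm z)) O :=
    ((h2.mono n1).comp (.of_cont (h1.mono n1)) n2 o2 hd hm).congr fun z hz =>
      congrArg b (o1 z hz).2.1.symm
  have c3 := k1.mono fun z hz => (o1 z hz).2.2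
  exact ⟨e, he, δ, hδ, O, o2.mem_nhds o3, c3.add c1, ((k2.mono fun z hz => (o1 z hz).2.2).add c2
    (.of_cont (c3.sub (nsq_sm.continuous.continuousOn.const_mul δ))) (.of_cont c1)).congr
      fun z _ => add_sub_right_comm _ _ _⟩

theorem pd_nsq {ε : ℝ} (hε : 0 < ε) (z : Cm n) : Pd (fun z => ε * nsq z) z :=
  ⟨contDiffAt_const.mul nsq_sm.contDiffAt,
    posDef_of_levi (contDiffAt_const.mul (two nsq_sm.contDiffAt)) fun w hw => by
      rw [P284Y.Lib.levi_const_mul (two nsq_sm.contDiffAt), levi_nsq']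
      exact mul_pos hε (mul_pos four_pos (nsq_pos hw))⟩

theorem pos_nsq {e : Chart n X} (he : Cd e) (hx : x ∈ e.source) {ε : ℝ} (hε : 0 < ε) :
    PosAt n (fun y => ε * nsq (e y)) x :=
  (he.pos_iff hx).2 ((pd_nsq hε _).congr (by
    filter_upwards [e.open_target.mem_nhds (e.map_source hx)] with z hz
    rw [e.right_inv hz]))

theorem stRel : StRel := by
  intro n p V Y π r G c v hπ _ hP
  choose ζ d g h a1 a2 a3 a4 using hP
  choose O hz hO hy using fun y => eventually_nhds_iff.1 ((sp_near (a3 y)).and ((a4 y).and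
    ((eventually_all.2 fun l => (a1 y l).near).and
      (hπ.continuous.continuousAt.eventually (eventually_all.2 fun i => (a2 y i).near)))))
  have hG : ∀ l x, ∃ ζ, LEq n (G l) x ζ := fun l x => ⟨_, a1 x l⟩
  choose t ht using fun l => Rs.Kahr.quo (hG l) fun y => ζ y l
  have ht' := fun l a b z (ha : z ∈ O a) (hb : z ∈ O b) =>
    ht l a b z ((hz a z ha).2.2.1 l) ((hz b z hb).2.2.1 l)
  let u : V.X → V.X → ℝ := fun a x => h a x - ∑ j, ‖g a j (π x)‖ ^ 2
  have hu : ∀ a, ∀ z ∈ O a, ContinuousAt (u a) z := fun a z hz' =>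
    (sp_cont (hz a z hz').1).sub (tendsto_finsetSum _ fun j _ =>
      (((hz a z hz').2.2.2 j).continuousAt'.comp hπ.continuous.continuousAt).norm.pow 2)
  have f2 : ∀ a b z, z ∈ O a → z ∈ O b →
      FlatAt n (fun x => ∑ l, -(c l : ℝ) * Real.log (‖t l a b x‖ ^ 2)) z := fun a b z ha hb =>
    flat_sum _ fun l _ => flat_smul _ (flatAt_log (ht' l a b z ha hb).1 (ht' l a b z ha hb).2.1)
  have g3 : ∀ a b z, z ∈ O a → z ∈ O b → (∀ l, z ∉ G l) → u a z - u b z =
      ∑ l, -(c l : ℝ) * Real.log (‖t l a b z‖ ^ 2) := fun a b z ha hb hE => by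
    have h2 : ∀ l, Real.log ‖ζ a l z‖ = Real.log ‖t l a b z‖ + Real.log ‖ζ b l z‖ := fun l => by
      rw [(ht' l a b z ha hb).2.2.1, norm_mul, Real.log_mul (norm_ne_zero_iff.2
        (ht' l a b z ha hb).2.1) (norm_ne_zero_iff.2 (mt ((hz b z hb).2.2.1 l).mem.1 (hE l)))]
    simp only [u]
    rw [(hz a z ha).2.1 hE, (hz b z hb).2.1 hE]
    simp only [h2, Real.log_pow, mul_add, neg_mul, Finset.sum_add_distrib, Finset.sum_neg_distrib,
      mul_left_comm _ ((2 : ℕ) : ℝ), ← Finset.mul_sum]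
    push_cast
    ring
  have hD : Dense (⋂ l, (G l)ᶜ) := dense_iInter_of_isOpen
    (fun l => (isClosed_of_leq (hG l)).isOpen_compl) fun l => dense_compl (hG l)
  refine ⟨V.X, O, u, hO, fun x => ⟨x, hy x⟩, fun a z ha => ⟨_, g a, (hz a z ha).2.2.2, ?_⟩,
    fun a b z ha hb => flat_congr (f2 a b z ha hb) ?_⟩
  · simpa only [u, sub_add_cancel] using (hz a z ha).1
  · filter_upwards [(hO a).mem_nhds ha, (hO b).mem_nhds hb] with w h1 h2
    refine tendsto_nhds_unique_of_frequently_eq ((hu a w h1).sub (hu b w h2))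
      (flat_cont (f2 a b w h1 h2)) (((mem_closure_iff_frequently.1 (hD w)).and_eventually
        (((hO a).inter (hO b)).mem_nhds ⟨h1, h2⟩)).mono fun w hw => ?_)
    exact g3 a b w hw.2.1 hw.2.2 (mem_iInter.1 hw.1)

theorem kup_loc {p : ℕ} {Y : Type} [TopologicalSpace Y] [ChartedSpace (Cm p) Y]
    [IsManifold 𝓘(ℂ, Cm p) ω Y] {π : X → Y} (hπ : HolM n p π) (ha : RPos n p π a x)
    (hb : RPsh n p π b x) :
    ∃ k₀ : ℕ, ∀ᶠ z in 𝓝 x, ∀ k : ℕ, k₀ ≤ k → SPshAt n (fun y => k * b y + a y) z := by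
  obtain ⟨m, g, a1, a2⟩ := ha
  obtain ⟨e', e, he', he, ε, hε, N, hN, b1, b2⟩ := hb
  obtain ⟨k₀, hk⟩ := Rs.Kahr.loc hπ a2 (ψ := fun y => ε * nsq (e y)) (mem_of_superset
    (e.open_source.mem_nhds he.2) fun y hy => pos_nsq (cd_atlas he.1) hy hε) a1 one_pos
  have h1 : ∀ᶠ z in 𝓝 (e' x), ContinuousAt (fun z => e (π (e'.symm z))) z :=
    (Rs.Kahr.an_chart hπ he' he).eventually_analyticAt.mono fun z hz => hz.continuousAt
  refine ⟨k₀, ?_⟩
  filter_upwards [hk, (e'.continuousAt he'.2).eventually (h1.and hN).eventually_nhds,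
    e'.open_source.mem_nhds he'.2] with z c1 c2 c3 k hk
  have := sp_add (b := fun y => k * (b y - ε * nsq (e (π y)))) (c1 k hk) ⟨he'.1, c3⟩ c2
    (continuousOn_const.mul ((b1.mono fun t ht => ht.2).sub fun t ht => (continuousAt_const.mul
      (nsq_sm.continuous.continuousAt.comp ht.1)).continuousWithinAt))
    ((b2.mono fun t ht => ht.2).const_mul k.cast_nonneg)
  refine (congrArg (fun u => SPshAt n u z) (funext fun y => ?_)).mp this
  ring

theorem stKup : StKup := by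
  rintro n p V Y π hπ ⟨ι, U, u, h1, h2, h3, h4⟩ ⟨ι', U', u', k1, k2, k3, k4⟩
  choose i hi using h2
  choose j hj using k2
  choose k₀ hk using fun x => kup_loc hπ (h3 _ x (hi x)) (k3 _ x (hj x))
  choose O hz hO hy using fun x => eventually_nhds_iff.1 ((hk x).and
    (((h1 _).eventually_mem (hi x)).and ((k1 _).eventually_mem (hj x))))
  obtain ⟨T, hT⟩ := isCompact_univ.elim_finite_subcover O hO fun y _ => mem_iUnion.2 ⟨y, hy y⟩
  set k := T.sup k₀
  have hcov : univ ⊆ ⋃ a : T, O a := fun y h => by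
    obtain ⟨a, h1, h2⟩ := mem_iUnion₂.1 (hT h)
    exact mem_iUnion.2 ⟨⟨a, h1⟩, h2⟩
  let w : T → V.X → ℝ := fun a y => k * u' (j a) y + u (i a) y
  have g5 : ∀ (a b : T), ∀ z ∈ O a, z ∈ O b → FlatAt n (fun x => w a x - w b x) z :=
    fun a b z ha hb => Rs.Kahr.flat_comb k (k4 _ _ z (hz a z ha).2.2 (hz b z hb).2.2)
      (h4 _ _ z (hz a z ha).2.1 (hz b z hb).2.1) (.of_forall fun y => by simp only [w]; ring)
  obtain ⟨γ, O', -, o2, o3⟩ := rb n V.X T (fun a => O a) w univ isCompact_univ (fun a => hO a)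
    hcov (fun a z h => (hz a z h).1 k (Finset.le_sup a.2)) g5
  obtain ⟨χ, hχ, -⟩ := kah n V.X T (fun a => O a) (fun a x => w a x + γ x) (fun a => hO a)
    (fun x => mem_iUnion.1 (hcov (mem_univ x))) (fun a z ha => o3 a z (o2 (mem_univ z)) ha)
    fun a b z ha hb => by simpa only [add_sub_add_right_eq_sub] using g5 a b z ha hb
  exact ⟨χ, hχ⟩

end Vale.Agent.P281Z.Ky
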