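import Vale.Agent.P281Z.Ky.Basic
import Vale.Agent.P277Z.Hir.MSk

/-!
# P281Z, block KY: principalization with relative positivity
-/

set_option linter.unusedSectionVars false

open scoped Manifold ContDiff Topology
open Set Filter
open Vale.Agent.P272.K (Cm Chart At)
open Vale.Agent.P277Z (Hol)
open Vale.Agent.P277Z.Hir (Cpb)
open Vale.Agent.P277Z.Slc (LEq dd)
open Vale.Agent.P277Z.Pos (nsq)

noncomputable section

namespace Vale.Agent.P281Z.Ky

namespace Resp

variable {p : ℕ} {X : Type} [TopologicalSpace X] [ChartedSpace (Cm p) X]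
  [IsManifold 𝓘(ℂ, Cm p) ω X]

theorem mem_Z (I : Idl p X) {γ : I.Γ} {x : X} (hx : x ∈ I.U γ) :
    x ∈ I.Z ↔ ∀ i, I.g γ i x = 0 := by
  refine ⟨fun h => h γ hx, fun h γ' hx' i => ?_⟩
  obtain ⟨C, -, H⟩ := I.cpb γ γ' x hx hx'
  have h1 := H.self_of_nhds.2
  simp only [h, norm_zero, Finset.sum_const_zero, mul_zero] at h1
  exact norm_le_zero_iff.1 ((Finset.single_le_sum (f := fun i => ‖I.g γ' i x‖)
    (fun _ _ => norm_nonneg _) (Finset.mem_univ i)).trans h1)

theorem an_Z (I : Idl p X) : An p I.Z := fun x => by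
  obtain ⟨γ, h⟩ := I.cover x
  exact ⟨_, I.g γ, fun i => I.hol γ i x h,
    mem_of_superset ((I.isOpen γ).mem_nhds h) fun y hy => mem_Z I hy⟩

theorem leq_crd {S : Set X} {y : X} {e : Chart p X} (he : At e y) {o : Option (Fin p)}
    (h : ∀ x ∈ e.source, x ∈ S ↔ ∃ i, o = some i ∧ e x i = 0) :
    LEq p S y fun x => o.elim 1 fun i => e x i := by
  refine LEq.of_chart ?_ ?_ he ?_
  · filter_upwards [e.open_source.mem_nhds he.2] with z hz
    rw [h z hz]
    cases o <;> simp
  · cases o with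
    | none => exact fun _ _ => analyticAt_const
    | some i => exact hol_chart he i
  · cases o with
    | none => exact fun h => absurd h one_ne_zero
    | some i => exact fun _ => ((ind_chart he).2 e he).ne_zero i

/-- the base of the resolution -/
@[reducible] def base (Y : Mf p) (I : Idl p Y.X) : P277Z.Hir.Base where
  X := Y.X
  Hol := Hol p
  comp := fun x ι _ g G f h1 h2 h3 => Hol.congr (a := fun y => G (g y)) (fun e he =>
    AnalyticAt.fun_comp (f := fun z => g (e.symm z)) (by rwa [e.left_inv he.2])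
      (analyticAt_pi_iff.2 fun l => h1 l e he)) (h3.mono fun _ => Eq.symm)
  cont := fun _ _ h => h.continuousAt'
  ev := fun _ _ h => h.near
  Bad := I.Z
  closed := (an_Z I).closed
  Γ := I.Γ
  XO := I.U
  isOpen := I.isOpen
  cover := I.cover
  m := I.k
  f := I.g
  hol := I.hol
  zero := fun _ _ hx => mem_Z I hx
  cpb := I.cpb

theorem reg (Y : Mf p) (I : Idl p Y.X) (x : Y.X) : (base Y I).Reg p x := by
  set e := chartAt (Cm p) x
  refine ⟨e.source, e.target, Fin.elim0, e, mem_chart_source _ _, e.open_source, e.open_target,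
    fun i => i.elim0, ?_, e.isOpenEmbedding_restrict.isEmbedding, fun y hy f => ?_⟩
  · exact e.image_source_eq_target.trans (by simp)
  · have he : At e y := ⟨chart_mem_atlas _ _, hy⟩
    refine ⟨fun h => ⟨fun z => f (e.symm z), h e he, ?_⟩, fun ⟨g, h1, h2⟩ =>
      ((cd_atlas he.1).hol_comp hy h1).congr h2.symm⟩
    exact (e.eventually_left_inverse hy).mono fun w hw => congrArg f hw.symm

theorem zero (Y : Mf 0) (I : Idl 0 Y.X) (hI : Dense I.Zᶜ) :
    LPr 0 (fun x => x) I ∧ Rel 0 0 (fun x : Y.X => x) Fin.elim0 Fin.elim0 fun _ => 0 := by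
  refine ⟨fun x γ hx => ⟨fun _ => 1, fun _ _ => analyticAt_const, ?_⟩, fun y => ⟨Fin.elim0, 0,
    Fin.elim0, fun _ => 0, fun l => l.elim0, fun l => l.elim0, ⟨_, at_chartAt y, 1, one_pos, univ,
      univ_mem, continuousOn_const, ?_⟩, by simp⟩⟩
  · have h1 : ∀ᶠ y in 𝓝 x, y = x := mem_of_superset (chart_source_mem_nhds (Cm 0) x) fun y hy =>
      (chartAt (Cm 0) x).injOn hy (mem_chart_source _ x) (Subsingleton.elim _ _)
    obtain ⟨y, h2, rfl⟩ := ((mem_closure_iff_frequently.1 (hI x)).and_eventually h1).exists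
    obtain ⟨i, hi⟩ := not_forall.1 (mt (mem_Z I hx).2 h2)
    have h3 : 0 < ∑ i, ‖I.g γ i y‖ := Finset.sum_pos' (fun _ _ => norm_nonneg _)
      ⟨i, Finset.mem_univ _, norm_pos_iff.2 hi⟩
    refine ⟨_, add_pos h3 (inv_pos.2 h3), h1.mono fun z hz => ?_⟩
    dsimp only
    rw [hz, norm_one, mul_one, add_mul, inv_mul_cancel₀ h3.ne']
    exact ⟨le_add_of_nonneg_right (by positivity), le_add_of_nonneg_left (by positivity)⟩
  · simpa [nsq] using P284Z.psh_const (0 : ℝ) (univ : Set (Cm 0))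

end Resp

open Resp in
theorem stResp_of (hH : P277Z.Hir.StMain) : StResp := by
  intro p Y I hI
  rcases Nat.eq_zero_or_pos p with rfl | hp
  · exact ⟨Y, fun x => x, 0, Fin.elim0, Fin.elim0, fun _ => 0, ⟨⟨an_Z I, hI⟩, holM_id,
      fun _ => trivial, hI, fun y _ _ => ⟨y, rfl, fun _ h => h⟩, fun x _ => imm_id x⟩,
      (zero Y I hI).1, fun l => l.elim0, (zero Y I hI).2⟩
  obtain ⟨o⟩ := hH (base Y I) p univ hp ⟨fun x => let ⟨V, Ω, h, φ, k⟩ := reg Y I x
    ⟨p, 0, V, Ω, h, φ, k⟩, fun x _ => reg Y I x, hI⟩ isCompact_univ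
  let := o.top
  let := o.t2
  let := o.cs
  let := o.mf
  have : CompactSpace o.Y := ⟨o.proper univ o.sub isCompact_univ⟩
  have hh : ∀ y g, Hol p g (o.π y) → Hol p (fun z => g (o.π z)) y := fun y g h =>
    Hol.of_chart (at_chartAt y) (o.hol y g h)
  have hπ : HolM p p (Y := Y.X) o.π := fun y => HolA.of_hol o.cont.continuousAt (at_chartAt _)
    fun a => hh y _ (hol_chart (at_chartAt _) a)
  refine ⟨⟨o.Y⟩, o.π, o.r, o.G, o.c, o.v, ⟨⟨an_Z I, hI⟩, hπ, fun _ => trivial, o.dense,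
    fun z _ hz => ?_, fun y hy => ?_⟩, fun y γ hy => ?_, o.c0, fun y => ?_⟩
  · obtain ⟨y, rfl⟩ := o.surj z (o.sub trivial) hz
    exact ⟨y, rfl, fun y' h => o.one y y' hz h⟩
  · obtain ⟨σ, h1, h2, h3, h4⟩ := o.sec y hy
    have h5 : HolA p p (X := Y.X) σ (o.π y) := .of_hol h1 (h2.symm ▸ at_chartAt y) h4
    refine Imm.of_comp h5 (hπ y) ((imm_id y).cng ?_)
    have h6 : ∀ᶠ z in 𝓝 y, o.π z ∉ I.Z :=
      o.cont.continuousAt.eventually ((an_Z I).closed.isOpen_compl.mem_nhds hy)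
    filter_upwards [h6, o.cont.continuousAt.eventually h3] with z k1 k2
    exact (o.one z _ k1 k2).symm
  · obtain ⟨e, -, h⟩ := o.prin y γ hy
    exact ⟨_, fun e' he' => Finset.analyticAt_fun_prod _ fun i _ =>
      (hol_chart (at_chartAt y) i e' he').pow _, h⟩
  · obtain ⟨m, g, ε, U, h, k1, k2, k3, k4, k5, k6, k7⟩ := o.pos y
    have he := at_chartAt (p := p) y
    have hU := ((chartAt (Cm p) y).eventually_right_inverse' he.2).and (k3.mem_nhds k4)
    refine ⟨fun l x => (o.lab y l).elim 1 fun i => chartAt (Cm p) y x i, m, g,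
      fun x => h (chartAt (Cm p) y x), fun l => leq_crd he (o.snc y l), k1, ⟨_, he, ε, k2, _, hU,
        (k5.mono fun z hz => hz.2).congr fun z hz => congrArg h hz.1,
        (k6.mono fun z hz => hz.2).congr fun z hz => congrArg (fun t => h t - ε * nsq z) hz.1⟩,
      k7.mono fun z hz h0 => (hz h0).trans ?_⟩
    refine congrArg (fun t => o.v z + ∑ i, ‖g i (o.π z)‖ ^ 2 - 2 * t)
      (Finset.sum_congr rfl fun l _ => ?_)
    dsimp only
    cases o.lab y l <;> simp

end Vale.Agent.P281Z.Ky
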