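import Vale.Agent.P281Z.Ky.Defs

/-!
# P281Z, block KY: two facts on adjugate matrices
-/

open scoped ComplexOrder Matrix
open Set Matrix Polynomial
open Vale.Agent.P272.K (Cm)
open Vale.Agent.P277Z.Pos (nsq)

noncomputable section

namespace Vale.Agent.P281Z.Ky

namespace Mt

theorem ev_cp {n : ℕ} (M : Matrix (Fin n) (Fin n) ℂ) (t : ℂ) :
    (-M).charpoly.eval t = (t • (1 : Matrix (Fin n) (Fin n) ℂ) + M).det := by
  rw [Matrix.eval_charpoly, sub_neg_eq_add, Matrix.scalar_apply, Matrix.smul_one_eq_diagonal]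

theorem sylv {n p : ℕ} (X : Matrix (Fin n) (Fin p) ℂ) (B : Matrix (Fin p) (Fin n) ℂ) (t : ℂ) :
    t ^ p * (t • 1 + X * B).det = t ^ n * (t • 1 + B * X).det := by
  have h := congrArg (eval t) (charpoly_mul_comm' (-X) B)
  rw [Matrix.neg_mul, Matrix.mul_neg] at h
  simpa only [eval_mul, eval_pow, eval_X, ev_cp, Fintype.card_fin] using h

theorem dense_det {p : ℕ} (M : Matrix (Fin p) (Fin p) ℂ) :
    Dense {t : ℂ | (t • (1 : Matrix (Fin p) (Fin p) ℂ) + M).det = 0}ᶜ := by
  refine Set.Countable.dense_compl ℂ (Set.Finite.countable ?_)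
  simp only [← ev_cp]
  exact Polynomial.finite_setOfPred_isRoot (-M).charpoly_monic.ne_zero

end Mt

open Mt in
theorem stMat : StMat := by
  intro n p w A B α t hw
  set G := B * w⁻¹ * Aᵀ with hG
  refine congrFun (Continuous.ext_on (dense_det (G * α))
    (f := fun t : ℂ => t ^ p • (B * (t • w + Aᵀ * α * B).adjugate * Aᵀ))
    (g := fun t : ℂ => (t ^ n * w.det) • ((t • 1 + G * α).adjugate * G)) ?_ ?_ fun t ht => ?_) t
  · exact (continuous_pow p).smul ((continuous_const.matrix_mul
      ((continuous_id.smul continuous_const).add continuous_const).matrix_adjugate).matrix_mul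
        continuous_const)
  · exact ((continuous_pow n).mul continuous_const).smul
      (((continuous_id.smul continuous_const).add continuous_const).matrix_adjugate.matrix_mul
        continuous_const)
  · set M := t • w + Aᵀ * α * B with hM
    set N := t • (1 : Matrix (Fin p) (Fin p) ℂ) + G * α with hN
    have h1 : w⁻¹ * M = t • 1 + w⁻¹ * Aᵀ * α * B := by
      rw [hM, Matrix.mul_add, Matrix.mul_smul, nonsing_inv_mul _ hw]
      simp only [Matrix.mul_assoc]
    have h2 : N * B = B * (w⁻¹ * M) := by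
      rw [h1, hN, hG, Matrix.add_mul, Matrix.mul_add, Matrix.smul_mul, Matrix.mul_smul,
        Matrix.one_mul, Matrix.mul_one]
      simp only [Matrix.mul_assoc]
    have h3 : N * (B * M.adjugate * Aᵀ) = M.det • G := by
      rw [← Matrix.mul_assoc, ← Matrix.mul_assoc, h2, Matrix.mul_assoc B, Matrix.mul_assoc w⁻¹,
        mul_adjugate, Matrix.mul_smul, Matrix.mul_one, Matrix.mul_smul, Matrix.smul_mul]
    have h4 : N.det • (B * M.adjugate * Aᵀ) = M.det • (N.adjugate * G) := by
      rw [← Matrix.mul_smul N.adjugate, ← h3, ← Matrix.mul_assoc N.adjugate, adjugate_mul,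
        Matrix.smul_mul, Matrix.one_mul]
    have h5 : t ^ p * M.det = t ^ n * w.det * N.det := by
      have h6 : M.det = w.det * (w⁻¹ * M).det := by
        rw [← det_mul, ← Matrix.mul_assoc, mul_nonsing_inv _ hw, Matrix.one_mul]
      have h7 := sylv (w⁻¹ * Aᵀ * α) B t
      rw [← h1, show B * (w⁻¹ * Aᵀ * α) = G * α by simp only [hG, Matrix.mul_assoc]] at h7
      rw [h6]
      linear_combination w.det * h7
    refine smul_right_injective _ (ht : N.det ≠ 0) ?_
    simp only
    rw [smul_comm, h4, smul_smul, smul_smul, h5, mul_comm]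

theorem stAdj : StAdj := by
  intro p G hG
  set U : Matrix (Fin p) (Fin p) ℂ := hG.1.eigenvectorUnitary.1 with hU
  set d := hG.1.eigenvalues
  have hd : ∀ i, 0 ≤ d i := hG.eigenvalues_nonneg
  have u1 : star U * U = 1 := Unitary.coe_star_mul_self _
  have u2 : U * star U = 1 := Unitary.coe_mul_star_self _
  have h1 : G = U * diagonal (fun i => (d i : ℂ)) * star U := hG.1.spectral_theorem
  set e : Fin p → ℝ := fun i => ∏ j ∈ Finset.univ.erase i, d j with he
  have he0 : ∀ i, 0 ≤ e i := fun i => Finset.prod_nonneg fun j _ => hd j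
  have a1 : U.adjugate = U.det • star U := by
    rw [← Matrix.mul_one U.adjugate, ← u2, ← Matrix.mul_assoc, adjugate_mul, Matrix.smul_mul,
      Matrix.one_mul]
  have a2 : (star U).adjugate = (star U).det • U := by
    rw [← Matrix.mul_one (star U).adjugate, ← u1, ← Matrix.mul_assoc, adjugate_mul,
      Matrix.smul_mul, Matrix.one_mul]
  have a3 : (star U).det * U.det = 1 := by rw [← det_mul, u1, det_one]
  have h2 : G.adjugate = U * diagonal (fun i => (e i : ℂ)) * star U := by
    conv_lhs => rw [h1]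
    rw [adjugate_mul_distrib, adjugate_mul_distrib, adjugate_diagonal, a1, a2, Matrix.mul_smul,
      Matrix.smul_mul, Matrix.mul_smul, smul_smul, a3, one_smul, Matrix.mul_assoc]
    simp only [he, Complex.ofReal_prod]
  have q : ∀ (c : Fin p → ℝ) (v : Cm p), star v ⬝ᵥ ((U * diagonal (fun i => (c i : ℂ)) * star U) *ᵥ v) =
      ((∑ i, c i * ‖(star U *ᵥ v) i‖ ^ 2 : ℝ) : ℂ) := fun c v => by
    rw [← mulVec_mulVec, ← mulVec_mulVec, dotProduct_mulVec,
      show star v ᵥ* U = star (star U *ᵥ v) by rw [star_mulVec, star_eq_conjTranspose,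
        conjTranspose_conjTranspose], dotProduct]
    push_cast
    refine Finset.sum_congr rfl fun i _ => ?_
    rw [mulVec_diagonal, Pi.star_apply, Complex.star_def, mul_left_comm, Complex.conj_mul']
  refine ⟨h2 ▸ (PosSemidef.diagonal fun i => Complex.zero_le_real.2 (he0 i)).mul_mul_conjTranspose_same
    U, fun v => ?_⟩
  have n1 : nsq v = ∑ i, ‖(star U *ᵥ v) i‖ ^ 2 := by
    have h := q (fun _ => 1) v
    rw [show diagonal (fun _ : Fin p => ((1 : ℝ) : ℂ)) = 1 by simp, Matrix.mul_one, u2, one_mulVec,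
      dotProduct] at h
    simp only [Pi.star_apply, Complex.star_def, Complex.conj_mul', one_mul] at h
    unfold nsq
    exact_mod_cast h
  rw [h2, q, Complex.ofReal_re, n1, hG.1.det_eq_prod_eigenvalues, hG.1.trace_eq_sum_eigenvalues,
    Finset.mul_sum, Finset.mul_sum]
  refine Finset.sum_le_sum fun i _ => ?_
  rw [← mul_assoc]
  refine mul_le_mul_of_nonneg_right ?_ (sq_nonneg _)
  have e1 : (∏ i, (RCLike.ofReal (d i) : ℂ)).re = d i * e i := by
    rw [he, Finset.mul_prod_erase _ _ (Finset.mem_univ i)]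
    exact_mod_cast Complex.ofReal_re (∏ i, d i)
  have e2 : (∑ i, (RCLike.ofReal (d i) : ℂ)).re = ∑ i, d i := by
    exact_mod_cast Complex.ofReal_re (∑ i, d i)
  rw [e1, e2]
  exact mul_le_mul_of_nonneg_right (Finset.single_le_sum (fun j _ => hd j) (Finset.mem_univ i))
    (he0 i)

end Vale.Agent.P281Z.Ky
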