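import Vale.Agent.P281Z.Ky.Defs
import Vale.Agent.P272.K.INT.Local

/-!
# P281Z, block KY: the theorem of Stokes in a chart
-/

open scoped Matrix Topology ContDiff
open Set MeasureTheory Filter
open Vale.Agent.P272.K (Cm dz)
open Vale.Agent.P272.K.INT

noncomputable section

namespace Vale.Agent.P281Z.Ky

theorem det_upd {n : ℕ} (g : Matrix (Fin n) (Fin n) ℂ) (r : Fin n) (a : Fin n → ℂ) :
    (g.updateRow r a).det = ∑ l, g.adjugate l r * a l := by
  have : (g.updateRow r a).det = (g.transpose.updateCol r a).det := by
    rw [← Matrix.det_transpose, Matrix.updateCol_transpose]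
  rw [this, ← Matrix.cramer_apply, Matrix.cramer_eq_adjugate_mulVec, Matrix.mulVec, dotProduct]
  refine Finset.sum_congr rfl fun l _ => ?_
  rw [← Matrix.adjugate_transpose, Matrix.transpose_apply]

theorem stStl : StStl := by
  intro n U M u b hU hM hcl ⟨hu, hc, hs⟩ hb
  set F : Fin n → Cm n → ℂ := fun r z => ((M z).updateRow r fun l => u z * b z l).det with hF
  have hF0 : ∀ r z, z ∉ tsupport u → F r z = 0 := fun r z hz =>
    Matrix.det_eq_zero_of_row_eq_zero r fun l => by
      rw [Matrix.updateRow_self, image_eq_zero_of_notMem_tsupport hz, zero_mul]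
  have hFt : ∀ r z, z ∉ tsupport u → F r =ᶠ[𝓝 z] fun _ => 0 := fun r z hz => by
    filter_upwards [(isClosed_tsupport u).isOpen_compl.mem_nhds hz] with y hy using hF0 r y hy
  have hFc : ∀ r, ContDiff ℝ 1 (F r) := fun r => contDiff_iff_contDiffAt.2 fun z => by
    by_cases hz : z ∈ tsupport u
    · refine (contDiffAt_det (k := ∞) fun i j => ?_).of_le (by exact_mod_cast le_top)
      by_cases h : i = r
      · subst h
        simp only [Matrix.updateRow_self]
        exact hu.contDiffAt.mul (hb z (hs hz) j).1
      · simp only [Matrix.updateRow_ne h]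
        exact hM z (hs hz) i j
    · exact contDiffAt_const.congr_of_eventuallyEq (hFt r z hz)
  have key : ∀ z ∈ U, ∑ r, ∑ l, (M z).adjugate l r * (dz r u z * b z l) = ∑ r, dz r (F r) z := by
    intro z hz
    have d1 : DifferentiableAt ℝ u z := hu.contDiffAt.differentiableAt (by simp)
    have d2 : ∀ l, DifferentiableAt ℝ (fun y => b y l) z := fun l =>
      (hb z hz l).1.differentiableAt (by simp)
    rw [piola (M := M) (a := fun y l => u y * b y l) (z := z)
      (fun i j => (hM z hz i j).differentiableAt (by simp)) (fun l => d1.mul (d2 l)) (hcl z hz)]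
    refine Finset.sum_congr rfl fun r _ => ?_
    rw [det_upd]
    exact Finset.sum_congr rfl fun l _ => by
      rw [dz_mul d1 (d2 l), (hb z hz l).2 r, mul_zero, add_zero]
  have hz0 : ∀ r z, z ∉ tsupport u → dz r (F r) z = 0 := fun r z hz => by
    rw [dz_congr (hFt r z hz)]
    simp
  have hint : ∀ r, Integrable fun z => dz r (F r) z := fun r => by
    have h1 : Continuous (dz r (F r)) := by
      rw [dz_fun_eq]
      have := (hFc r).continuous_fderiv (by norm_num)
      exact continuous_const.mul ((this.clm_apply continuous_const).sub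
        (continuous_const.mul (this.clm_apply continuous_const)))
    exact h1.integrable_of_hasCompactSupport (HasCompactSupport.intro hc (hz0 r))
  rw [setIntegral_congr_fun hU.measurableSet key, setIntegral_eq_integral_of_forall_compl_eq_zero
    fun z hz => Finset.sum_eq_zero fun r _ => hz0 r z fun h => hz (hs h),
    integral_finsetSum _ fun r _ => hint r]
  exact Finset.sum_eq_zero fun r _ =>
    integral_dz_eq_zero (hFc r) (HasCompactSupport.intro hc (hF0 r)) r

end Vale.Agent.P281Z.Ky
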