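import Vale.Agent.P281Z.Ky.Vol
import Vale.Agent.P281Z.Ky.Mat
import Vale.Agent.P281Z.Ky.Stl

/-!
# P281Z, block KY: the theorem of Stokes on the manifold
-/

set_option linter.unusedSectionVars false

open scoped Manifold ContDiff Topology ComplexOrder Matrix ENNReal
open Filter Set MeasureTheory Matrix
open Vale.Agent.P272.K
open Vale.Agent.P301.H599 (Fm)
open Vale.Agent.P277Z (Hol)
open Vale.Agent.P277Z.Van (IsVol)

noncomputable section

namespace Vale.Agent.P281Z.Ky.Stg

variable {n p : ℕ} {X : Type} [TopologicalSpace X] [ChartedSpace (Cm n) X]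
  [IsManifold 𝓘(ℂ, Cm n) ω X] (w : Fm n X) (y : X → Cm p) (α : Matrix (Fin p) (Fin p) ℂ) (t : ℂ)
  (k : Fin p)

def A (e : Chart n X) : Cm n → Matrix (Fin p) (Fin n) ℂ := jc fun z => y (e.symm z)

def M (e : Chart n X) (z : Cm n) : Matrix (Fin n) (Fin n) ℂ :=
  t • w e z + (A y e z)ᵀ * α * (A y e z).map star

def N (e : Chart n X) (v : X → ℂ) (z : Cm n) : ℂ :=
  (((A y e z).map star * (M w y α t e z).adjugate) *ᵥ fun r => dz r (fun z => v (e.symm z)) z) k

def D (v : X → ℂ) (x : X) : ℂ :=
  N w y α t k (chartAt (Cm n) x) v (chartAt (Cm n) x x) /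
    (w (chartAt (Cm n) x) (chartAt (Cm n) x x)).det

variable (n) in
def Sm (v : X → ℂ) (x : X) : Prop :=
  ∀ e : Chart n X, At e x → ContDiffAt ℝ ∞ (fun z => v (e.symm z)) (e x)

variable {w y α t k} {e e' : Chart n X} {x : X} {v : X → ℂ}

theorem N_eq (z : Cm n) : N w y α t k e v z = ∑ r, ∑ l, (M w y α t e z).adjugate l r *
    (dz r (fun z => v (e.symm z)) z * star (A y e z k l)) := by
  simp only [N, mulVec, dotProduct, mul_apply, map_apply, Finset.sum_mul]
  exact Finset.sum_congr rfl fun r _ => Finset.sum_congr rfl fun l _ => by ring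

theorem N_chart (hw : IsHermitian w) (hy : ∀ a, Hol n (fun x => y x a) x) (hv : Sm n v x)
    (he : At e x) (he' : At e' x) :
    N w y α t k e v (e x) / (w e (e x)).det = N w y α t k e' v (e' x) / (w e' (e' x)).det := by
  have hJ := jacM_isUnit he he'
  have h3 : w e (e x) = (jacM e e' x)ᵀ * w e' (e' x) * (jacM e e' x).map star :=
    hw.change e e' x he he'
  have h4 : A y e (e x) = A y e' (e' x) * jacM e e' x := jc_chart (an_of_hol hy he') he he'
  have h5 : (fun r => dz r (fun z => v (e.symm z)) (e x)) =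
      (jacM e e' x)ᵀ *ᵥ fun r => dz r (fun z => v (e'.symm z)) (e' x) := by
    funext r
    have h := QN.dz_comp_F (i := r) (F := fun z => e' (e.symm z)) (f := fun z => v (e'.symm z))
      (z := e x) (by rw [e.left_inv he.2]; exact (hv e' he').differentiableAt (by simp))
      ((INT.transition_contDiffAt he he').differentiableAt (by simp))
    rw [e.left_inv he.2] at h
    rw [dz_congr (ev_tr v he.2 he'.2), h]
    exact Finset.sum_congr rfl fun a _ => mul_comm _ _
  have h6 : M w y α t e (e x) =
      (jacM e e' x)ᵀ * M w y α t e' (e' x) * (jacM e e' x).map star := by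
    simp only [M, h3, h4, map_star_mul, transpose_mul, Matrix.mul_add, Matrix.add_mul,
      Matrix.mul_smul, Matrix.smul_mul, Matrix.mul_assoc]
  have h7 : (A y e (e x)).map star * (M w y α t e (e x)).adjugate * (jacM e e' x)ᵀ =
      (star (jacM e e' x).det * (jacM e e' x).det) •
        ((A y e' (e' x)).map star * (M w y α t e' (e' x)).adjugate) := by
    rw [h6, h4, map_star_mul, adjugate_mul_distrib, adjugate_mul_distrib]
    simp only [Matrix.mul_assoc]
    rw [adjugate_mul, ← Matrix.mul_assoc ((jacM e e' x).map star), mul_adjugate, det_map_star,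
      det_transpose]
    simp only [Matrix.mul_smul, Matrix.smul_mul, Matrix.mul_one, Matrix.one_mul, smul_smul]
    rw [mul_comm]
  unfold N
  rw [h5, mulVec_mulVec, h7, smul_mulVec, h3, det_mul, det_mul, det_transpose, det_map_star,
    Pi.smul_apply, smul_eq_mul]
  have := hJ.ne_zero
  have := hJ.star.ne_zero
  have := (hw.posDef e' x he').det_pos.ne'
  field_simp

theorem D_eq (hw : IsHermitian w) (hy : ∀ a, Hol n (fun x => y x a) x) (hv : Sm n v x)
    (he : At e x) : D w y α t k v x = N w y α t k e v (e x) / (w e (e x)).det :=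
  N_chart hw hy hv (at_chartAt x) he

theorem D_zero (h : ∀ᶠ x' in 𝓝 x, v x' = 0) : D w y α t k v x = 0 := by
  have h1 : ∀ r, dz r (fun z => v ((chartAt (Cm n) x).symm z)) (chartAt (Cm n) x x) = 0 :=
    fun r => by
      rw [dz_congr (g := fun _ => 0) (ev_sy (at_chartAt x).2 h)]
      simp
  simp [D, N_eq, h1]

theorem D_off (h : x ∉ tsupport v) : D w y α t k v x = 0 :=
  D_zero (notMem_tsupport_iff_eventuallyEq.1 h)

theorem D_sum {ι : Type} [Fintype ι] {v : ι → X → ℂ} (hv : ∀ i, Sm n (v i) x) :
    D w y α t k (fun x => ∑ i, v i x) x = ∑ i, D w y α t k (v i) x := by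
  have h1 : (fun r => dz r (fun z => ∑ i, v i ((chartAt (Cm n) x).symm z)) (chartAt (Cm n) x x)) =
      ∑ i, fun r => dz r (fun z => v i ((chartAt (Cm n) x).symm z)) (chartAt (Cm n) x x) := by
    funext r
    rw [Finset.sum_apply]
    exact INT.dz_sum _ fun i _ => (hv i _ (at_chartAt x)).differentiableAt (by simp)
  simp only [D, N]
  rw [h1, mulVec_sum, Finset.sum_apply, Finset.sum_div]

theorem A_an (hy : ∀ a, Hol n (fun x => y x a) x) (he : At e x) (a : Fin p) (j : Fin n) :
    AnalyticAt ℂ (fun z => A y e z a j) (e x) := jc_an (an_of_hol hy he) a j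

theorem A_sm (hy : ∀ a, Hol n (fun x => y x a) x) (he : At e x) (a : Fin p) (j : Fin n) :
    ContDiffAt ℝ ∞ (fun z => A y e z a j) (e x) :=
  ((A_an hy he a j).restrictScalars (𝕜 := ℝ)).contDiffAt

theorem B_sm (hy : ∀ a, Hol n (fun x => y x a) x) (he : At e x) (a : Fin p) (j : Fin n) :
    ContDiffAt ℝ ∞ (fun z => star (A y e z a j)) (e x) :=
  Complex.conjCLE.contDiff.contDiffAt.comp _ (A_sm hy he a j)

theorem B_dz (hy : ∀ a, Hol n (fun x => y x a) x) (he : At e x) (a : Fin p) (j r : Fin n) :
    dz r (fun z => star (A y e z a j)) (e x) = 0 := by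
  have := INT.dz_conj (i := r) (F := fun z => A y e z a j) (z := e x)
  rw [INT.dzb_of_holo (A_an hy he a j).differentiableAt, map_zero] at this
  exact this

theorem M_apply (z : Cm n) (i j : Fin n) : M w y α t e z i j =
    t * w e z i j + ∑ b, ∑ a, α a b * (A y e z a i * star (A y e z b j)) := by
  simp only [M, Matrix.add_apply, Matrix.smul_apply, mul_apply, transpose_apply, map_apply,
    smul_eq_mul, Finset.sum_mul]
  congr 1
  exact Finset.sum_congr rfl fun r _ => Finset.sum_congr rfl fun l _ => by ring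

theorem M_sm (hw : IsHermitian w) (hy : ∀ a, Hol n (fun x => y x a) x) (he : At e x)
    (i j : Fin n) : ContDiffAt ℝ ∞ (fun z => M w y α t e z i j) (e x) := by
  simp only [M_apply]
  exact (contDiffAt_const.mul (hw.smooth e x he i j)).add (ContDiffAt.sum fun b _ =>
    ContDiffAt.sum fun a _ => contDiffAt_const.mul ((A_sm hy he a i).mul (B_sm hy he b j)))

theorem M_dz (hw : IsHermitian w) (hy : ∀ a, Hol n (fun x => y x a) x) (he : At e x)
    (i j l : Fin n) : dz i (fun z => M w y α t e z j l) (e x) =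
      t * dz i (fun z => w e z j l) (e x) + ∑ b, ∑ a, α a b *
        (dz i (dz j fun z => y (e.symm z) a) (e x) * star (A y e (e x) b l)) := by
  have d1 := fun a j => (A_sm hy he a j).differentiableAt (by simp)
  have d2 := fun a j => (B_sm hy he a j).differentiableAt (by simp)
  have d3 := (hw.smooth e x he j l).differentiableAt (by simp)
  have d4 := fun a b => ((d1 a j).fun_mul (d2 b l)).const_mul (α a b)
  simp only [M_apply]
  rw [INT.dz_add (d3.const_mul t) (DifferentiableAt.fun_sum fun b _ =>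
      DifferentiableAt.fun_sum fun a _ => d4 a b), INT.dz_const_mul t d3,
    INT.dz_sum _ fun b _ => DifferentiableAt.fun_sum fun a _ => d4 a b]
  congr 1
  refine Finset.sum_congr rfl fun b _ => ?_
  rw [INT.dz_sum _ fun a _ => d4 a b]
  refine Finset.sum_congr rfl fun a _ => ?_
  rw [INT.dz_const_mul _ ((d1 a j).fun_mul (d2 b l)), INT.dz_mul (d1 a j) (d2 b l), B_dz hy he,
    mul_zero, add_zero]
  rfl

theorem M_closed (hw : IsKahler w) (hy : ∀ a, Hol n (fun x => y x a) x) (he : At e x)
    (i j l : Fin n) :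
    dz i (fun z => M w y α t e z j l) (e x) = dz j (fun z => M w y α t e z i l) (e x) := by
  rw [M_dz hw.toIsHermitian hy he, M_dz hw.toIsHermitian hy he, hw.closed e x he j l i]
  congr 1
  refine Finset.sum_congr rfl fun b _ => Finset.sum_congr rfl fun a _ => ?_
  rw [INT.dz_dz_comm ((hy a e he).restrictScalars (𝕜 := ℝ)).contDiffAt]

theorem D_cont (hw : IsHermitian w) (hy : ∀ᶠ x' in 𝓝 x, ∀ a, Hol n (fun x => y x a) x')
    (hv : ∀ x, Sm n v x) : ContinuousAt (D w y α t k v) x := by
  have he := at_chartAt (p := n) x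
  set e := chartAt (Cm n) x
  have h0 := hy.self_of_nhds
  have h1 : ContinuousAt (M w y α t e) (e x) := continuousAt_pi.2 fun i =>
    continuousAt_pi.2 fun j => (M_sm hw h0 he i j).continuousAt
  have h2 : ContinuousAt (fun z => N w y α t k e v z / (w e z).det) (e x) := by
    refine ContinuousAt.div (f := N w y α t k e v) ?_ (continuous_id.matrix_det.continuousAt.comp (w_cont hw he))
      (hw.posDef e x he).det_pos.ne'
    rw [funext (N_eq (w := w) (y := y) (α := α) (t := t) (k := k) (e := e) (v := v))]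
    refine tendsto_finsetSum _ fun r _ => tendsto_finsetSum _ fun l _ => ?_
    exact (continuousAt_pi.1 (continuousAt_pi.1
      (continuous_id.matrix_adjugate.continuousAt.comp h1) l) r).mul
      ((INT.smooth_dz (hv x e he)).continuousAt.mul (B_sm h0 he k l).continuousAt)
  refine (h2.comp (e.continuousAt he.2)).congr ?_
  filter_upwards [hy, e.open_source.mem_nhds he.2] with x' k1 k2
  exact (D_eq hw k1 (hv x') ⟨he.1, k2⟩).symm

theorem D_cont' {O : Set X} (hw : IsHermitian w) (hO : IsOpen O)
    (hy : ∀ x ∈ O, ∀ a, Hol n (fun x => y x a) x) (hv : ∀ x, Sm n v x) (hs : tsupport v ⊆ O) :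
    Continuous (D w y α t k v) := continuous_iff_continuousAt.2 fun x => by
  by_cases hx : x ∈ tsupport v
  · exact D_cont hw (mem_of_superset (hO.mem_nhds (hs hx)) hy) hv
  · refine (continuousAt_const (y := (0 : ℂ))).congr ?_
    filter_upwards [(isClosed_tsupport v).isOpen_compl.mem_nhds hx] with x' h
    exact (D_off h).symm

theorem D_int [T2Space X] [CompactSpace X] [MeasurableSpace X] [BorelSpace X] {μ : Measure X}
    {O : Set X} (hw : IsKahler w) (hμ : IsVol w μ) (hO : IsOpen O)
    (hy : ∀ x ∈ O, ∀ a, Hol n (fun x => y x a) x) (hv : ∀ x, Sm n v x) (hs : tsupport v ⊆ O)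
    (he : e ∈ atlas (Cm n) X) (hs' : tsupport v ⊆ e.source) : ∫ x, D w y α t k v x ∂μ = 0 := by
  have := ChartedSpace.secondCountable_of_sigmaCompact (Cm n) X
  have hU : IsOpen (e.target ∩ e.symm ⁻¹' O) := e.continuousOn_symm.isOpen_inter_preimage
    e.open_target hO
  obtain ⟨c1, c2⟩ := ind_supp (isClosed_tsupport v).isCompact hs'
  have hat : ∀ z ∈ e.target, At e (e.symm z) := fun z hz => ⟨he, e.map_target hz⟩
  have hev : ∀ z ∈ e.target, (e.target.indicator fun z => v (e.symm z)) =ᶠ[𝓝 z]
      fun z => v (e.symm z) := fun z hz => by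
    filter_upwards [e.open_target.mem_nhds hz] with z' h using indicator_of_mem h _
  have ht : Tst (e.target ∩ e.symm ⁻¹' O) (e.target.indicator fun z => v (e.symm z)) := by
    refine ⟨contDiff_iff_contDiffAt.2 fun z => ?_, c1.of_isClosed_subset (isClosed_tsupport _) c2,
      c2.trans ?_⟩
    · by_cases hz : z ∈ e.target
      · have := hv _ e (hat z hz)
        rw [e.right_inv hz] at this
        exact this.congr_of_eventuallyEq (hev z hz)
      · refine contDiffAt_const.congr_of_eventuallyEq (notMem_tsupport_iff_eventuallyEq.1 ?_)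
        intro h
        obtain ⟨x, h1, rfl⟩ := c2 h
        exact hz (e.map_source (hs' h1))
    · rintro _ ⟨x, h1, rfl⟩
      exact ⟨e.map_source (hs' h1), by rw [mem_preimage, e.left_inv (hs' h1)]; exact hs h1⟩
  have key := stStl n _ (M w y α t e) _ (fun z l => star (A y e z k l)) hU
    (fun z hz i j => by
      simpa only [e.right_inv hz.1] using M_sm hw.toIsHermitian (hy _ hz.2) (hat z hz.1) i j)
    (fun z hz i j l => by
      simpa only [e.right_inv hz.1] using M_closed hw (hy _ hz.2) (hat z hz.1) i j l) ht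
    fun z hz l => ⟨by simpa only [e.right_inv hz.1] using B_sm (hy _ hz.2) (hat z hz.1) k l,
      fun r => by simpa only [e.right_inv hz.1] using B_dz (hy _ hz.2) (hat z hz.1) k l r⟩
  rw [← setIntegral_eq_integral_of_forall_compl_eq_zero (s := e.source)
      fun x hx => D_off fun h => hx (hs' h),
    vol_int hw.toIsHermitian hμ he (D_cont' hw.toIsHermitian hO hy hv hs).aestronglyMeasurable,
    setIntegral_eq_of_subset_of_forall_sdiff_eq_zero e.open_target.measurableSet
      (s := e.target ∩ e.symm ⁻¹' O) inter_subset_left fun z hz => by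
        rw [D_off fun h => hz.2 ⟨hz.1, hs h⟩, mul_zero], ← key]
  refine setIntegral_congr_fun hU.measurableSet fun z hz => ?_
  have h1 := (hw.posDef e _ (hat z hz.1)).det_pos.ne'
  have h2 := D_eq (α := α) (t := t) (k := k) hw.toIsHermitian (hy _ hz.2) (hv _) (hat z hz.1)
  rw [e.right_inv hz.1] at h1 h2
  simp only [h2, mul_div_cancel₀ _ h1, N_eq, dz_congr (hev z hz.1)]

theorem D_comp (hw : IsHermitian w) (hy : ∀ a, Hol n (fun x => y x a) x) {ψ : Cm p → ℂ}
    (hψ : ContDiff ℝ ∞ ψ) (hv : v =ᶠ[𝓝 x] fun x => ψ (y x)) :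
    t ^ p * D w y α t k v x =
      t ^ n * ∑ m, dz m ψ (y x) * ((t • 1 + gm w y x * α).adjugate * gm w y x) k m := by
  have he := at_chartAt (p := n) x
  unfold D gm gmc N
  set e := chartAt (Cm n) x
  have h0 := (hw.posDef e x he).det_pos.ne'
  have h1 : (fun r => dz r (fun z => v (e.symm z)) (e x)) =
      (A y e (e x))ᵀ *ᵥ fun m => dz m ψ (y x) := by
    funext r
    have h := QN.dz_comp_F (i := r) (F := fun z => y (e.symm z)) (f := ψ) (z := e x)
      (hψ.differentiable (by simp) _) (an_of_hol hy he).differentiableAt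
    rw [e.left_inv he.2] at h
    rw [dz_congr (g := fun z => ψ (y (e.symm z))) (ev_sy he.2 hv), h]
    exact Finset.sum_congr rfl fun a _ => mul_comm _ _
  have h2 := congrArg (fun B => (B *ᵥ fun m => dz m ψ (y x)) k)
    (stMat n p (w e (e x)) (A y e (e x)) ((A y e (e x)).map star) α t (Ne.isUnit h0))
  simp only [smul_mulVec, Pi.smul_apply, smul_eq_mul] at h2
  rw [h1, mulVec_mulVec, ← mul_div_assoc, div_eq_iff h0]
  refine h2.trans ?_
  rw [mul_assoc, mul_assoc, mul_comm (det _)]
  congr 2
  exact dotProduct_comm _ _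

end Stg

open Stg in
theorem stStg : StStg := by
  intro n p V _ _ w μ O y ψ α t hw hμ hO hy hψ hK ht k
  have hw' := hw.toIsHermitian
  have := vol_fin hw' hμ
  obtain ⟨P⟩ := INT.exists_part n V.X
  set u : V.X → ℂ := O.indicator fun x => ψ (y x)
  have hs : tsupport u ⊆ O := (closure_minimal (fun x hx => by
    rw [support_indicator] at hx
    exact ⟨hx.1, subset_tsupport ψ hx.2⟩) hK.isClosed).trans fun x hx => hx.1
  have hev : ∀ x ∈ O, u =ᶠ[𝓝 x] fun x => ψ (y x) := fun x hx => by
    filter_upwards [hO.mem_nhds hx] with x' h using indicator_of_mem h _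
  have hu : ∀ x, Sm n u x := fun x e he => by
    by_cases hx : x ∈ tsupport u
    · exact (hψ.contDiffAt.comp _ (an_sm (an_of_hol (hy x (hs hx)) he))).congr_of_eventuallyEq
        (ev_sy he.2 (hev x (hs hx)))
    · exact contDiffAt_const.congr_of_eventuallyEq
        (ev_sy he.2 (notMem_tsupport_iff_eventuallyEq.1 hx))
  have hv : ∀ i x, Sm n (fun x => (P.ρ i x : ℂ) * u x) x := fun i x e he =>
    (INT.ofReal_contDiffAt (P.smooth i e x he)).mul (hu x e he)
  have hs1 : ∀ i, tsupport (fun x => (P.ρ i x : ℂ) * u x) ⊆ O := fun i =>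
    (tsupport_mul_subset_right (f := fun x => (P.ρ i x : ℂ))).trans hs
  have hs2 : ∀ i, tsupport (fun x => (P.ρ i x : ℂ) * u x) ⊆ (P.e i).source := fun i =>
    (tsupport_mul_subset_left.trans (tsupport_comp_subset Complex.ofReal_zero _)).trans (P.supp i)
  have h1 : ∀ x, D w y α t k u x = ∑ i, D w y α t k (fun x => (P.ρ i x : ℂ) * u x) x := fun x => by
    rw [← D_sum fun i => hv i x]
    simp only [← Finset.sum_mul, ← Complex.ofReal_sum, P.sum, Complex.ofReal_one, one_mul]
  have h2 : ∫ x, D w y α t k u x ∂μ = 0 := by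
    simp only [h1]
    rw [integral_finsetSum _ fun i _ => (D_cont' hw' hO hy (hv i)
      (hs1 i)).integrable_of_hasCompactSupport (HasCompactSupport.of_compactSpace _)]
    exact Finset.sum_eq_zero fun i _ => D_int hw hμ hO hy (hv i) (hs1 i) (P.mem i) (hs2 i)
  rw [← setIntegral_eq_integral_of_forall_compl_eq_zero (s := O)
    fun x hx => D_off fun h => hx (hs h)] at h2
  refine mul_left_cancel₀ (pow_ne_zero n ht) ?_
  rw [← integral_const_mul, ← setIntegral_congr_fun hO.measurableSet fun x hx =>
    D_comp hw' (hy x hx) hψ (hev x hx), integral_const_mul, h2, mul_zero, mul_zero]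

end Vale.Agent.P281Z.Ky
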