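import Vale.Agent.P281Z.Ky.Basic
import Vale.Agent.P267.H338.Riem

/-!
# P281Z, block KY: division by a holomorphic function, least upper bounds
-/

open scoped ContDiff Topology
open Filter Set Metric
open Vale.Agent.P272.K (Cm cHess cHess_log_norm_sq)
open Vale.Agent.P284Z (Psh LPsh LB lpsh_of_sup lpsh_norm)

noncomputable section

namespace Vale.Agent.P281Z.Ky

namespace Sp

variable {p : ℕ} {U : Set (Cm p)} {s g : Cm p → ℂ}

theorem le_of_dense (hd : U ⊆ closure {z ∈ U | s z ≠ 0}) {f f' : Cm p → ℝ}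
    (hf : ContinuousOn f U) (hf' : ContinuousOn f' U) (h : ∀ z ∈ U, s z ≠ 0 → f z ≤ f' z) :
    ∀ z ∈ U, f z ≤ f' z := fun z hz =>
  ContinuousWithinAt.closure_le (hd hz) ((hf z hz).mono fun _ h => h.1)
    ((hf' z hz).mono fun _ h => h.1) fun y hy => h y hy.1 hy.2

/-- a locally bounded quotient of holomorphic functions is holomorphic -/
theorem div (hU : IsOpen U) (hs : AnalyticOnNhd ℂ s U) (hg : AnalyticOnNhd ℂ g U)
    (hd : U ⊆ closure {z ∈ U | s z ≠ 0}) {B : Cm p → ℝ} (hB : ContinuousOn B U)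
    (hb : ∀ z ∈ U, s z ≠ 0 → ‖g z‖ ^ 2 ≤ ‖s z‖ ^ 2 * B z) :
    ∃ q : Cm p → ℂ, AnalyticOnNhd ℂ q U ∧ ∀ z ∈ U, s z ≠ 0 → g z = q z * s z := by
  have key : ∀ z ∈ U, ∃ W, IsOpen W ∧ z ∈ W ∧ W ⊆ U ∧ ∃ Q : Cm p → ℂ, AnalyticOnNhd ℂ Q W ∧
      ∀ x ∈ W, s x ≠ 0 → Q x = g x / s x := by
    intro z hz
    have hV : IsOpen (U ∩ B ⁻¹' Iio (B z + 1)) := hB.isOpen_inter_preimage hU isOpen_Iio
    obtain ⟨W, h1, h2, h3, Q, h4, h5⟩ := P267.H338.riemann_extension (g := s)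
      (u := fun x => g x / s x) (C := √(B z + 1)) hV ⟨hz, lt_add_one (B z)⟩
      (hs.differentiableOn.mono inter_subset_left)
      ((mem_closure_iff_frequently.1 (hd hz)).mono fun _ h => h.2)
      (fun x hx =>
        ((hg x hx.1.1).fun_div (hs x hx.1.1) hx.2).differentiableAt.differentiableWithinAt)
      fun x hx h0 => Real.le_sqrt_of_sq_le (by
        have := norm_pos_iff.2 h0
        rw [norm_div, div_pow, div_le_iff₀ (by positivity), mul_comm]
        exact (hb x hx.1 h0).trans (mul_le_mul_of_nonneg_left (le_of_lt hx.2) (by positivity)))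
    exact ⟨W, h1, h2, fun _ h => (h3 h).1, Q, P268.analyticOnNhd_of_differentiableOn h1 h4, h5⟩
  have k2 : ∀ z ∈ U, ∃ W ∈ 𝓝 z, ∃ Q : Cm p → ℂ, AnalyticAt ℂ Q z ∧
      (s z ≠ 0 → Q z = g z / s z) ∧
      ∀ x ∈ W, limUnder (𝓝[{z ∈ U | s z ≠ 0}] x) (fun x => g x / s x) = Q x := by
    intro z hz
    obtain ⟨W, h1, h2, h3, Q, h4, h5⟩ := key z hz
    refine ⟨W, h1.mem_nhds h2, Q, h4 z h2, h5 z h2, fun x hx => ?_⟩
    have := mem_closure_iff_nhdsWithin_neBot.1 (hd (h3 hx))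
    refine Tendsto.limUnder_eq (((h4 x hx).continuousAt.mono_left nhdsWithin_le_nhds).congr' ?_)
    filter_upwards [self_mem_nhdsWithin, mem_nhdsWithin_of_mem_nhds (h1.mem_nhds hx)] with y a b
    exact h5 y b a.2
  refine ⟨fun x => limUnder (𝓝[{z ∈ U | s z ≠ 0}] x) fun x => g x / s x, fun z hz => ?_,
    fun z hz h0 => ?_⟩
  · obtain ⟨W, h1, Q, h2, -, h3⟩ := k2 z hz
    exact h2.congr (mem_of_superset h1 fun x hx => (h3 x hx).symm)
  · obtain ⟨W, h1, Q, -, h2, h3⟩ := k2 z hz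
    simp only [h3 z (mem_of_mem_nhds h1), h2 h0, div_mul_cancel₀ _ h0]

/-- a bounded family is equicontinuous -/
theorem equi (hU : IsOpen U) {v : Cm p → ℝ} (hv : ContinuousOn v U) {C ε : ℝ} (hε : 0 < ε)
    {z : Cm p} (hz : z ∈ U) : ∀ᶠ w in 𝓝 z, ∀ q : Cm p → ℂ, AnalyticOnNhd ℂ q U →
      (∀ y ∈ U, ‖q y‖ ^ 2 * Real.exp (v y) ≤ C) →
      |‖q w‖ ^ 2 * Real.exp (v w) - ‖q z‖ ^ 2 * Real.exp (v z)| ≤ ε := by
  have hc : ContinuousAt v z := hv.continuousAt (hU.mem_nhds hz)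
  obtain ⟨r, hr, h⟩ := nhds_basis_ball.mem_iff.1
    (inter_mem (hU.mem_nhds hz) (hc (closedBall_mem_nhds (v z) one_pos)))
  set M := √(C * Real.exp (1 - v z))
  have hM : 0 ≤ M := Real.sqrt_nonneg _
  have hK : IsCompact (closedBall (0 : ℂ) M ×ˢ closedBall (v z) 1) :=
    (isCompact_closedBall _ _).prod (isCompact_closedBall _ _)
  obtain ⟨δ, hδ, k⟩ := Metric.uniformContinuousOn_iff.1 (hK.uniformContinuousOn_of_continuous
    (f := fun x : ℂ × ℝ => ‖x.1‖ ^ 2 * Real.exp x.2) (by fun_prop)) ε hε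
  have h1 : ∀ᶠ w in 𝓝 z, (M + M) / r * dist w z < δ :=
    (ContinuousAt.eventually_lt (f := fun w => (M + M) / r * dist w z) (g := fun _ => δ)
      (by fun_prop) continuousAt_const (by simpa using hδ))
  filter_upwards [ball_mem_nhds z hr, h1, hc (ball_mem_nhds (v z) hδ)] with w a b c q hq hb
  have h2 : ∀ y ∈ ball z r, ‖q y‖ ≤ M := fun y hy => Real.le_sqrt_of_sq_le (by
    have h3 : v z - 1 ≤ v y := by
      have := abs_le.1 (Real.dist_eq _ _ ▸ mem_closedBall.1 (h hy).2)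
      linarith [this.1]
    rw [← neg_sub, Real.exp_neg, ← div_eq_mul_inv, le_div_iff₀ (Real.exp_pos _)]
    exact (mul_le_mul_of_nonneg_left (Real.exp_monotone h3) (by positivity)).trans
      (hb y (h hy).1))
  have h3 : dist (q w) (q z) ≤ (M + M) / r * dist w z :=
    Complex.dist_le_div_mul_dist_of_mapsTo_ball (hq.differentiableOn.mono fun y hy => (h hy).1)
      (fun y hy => mem_closedBall_iff_norm.2 ((norm_sub_le _ _).trans
        (add_le_add (h2 y hy) (h2 z (mem_ball_self hr))))) a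
  exact (k (q w, v w) ⟨mem_closedBall_zero_iff.2 (h2 w a), (h a).2⟩ (q z, v z)
    ⟨mem_closedBall_zero_iff.2 (h2 z (mem_ball_self hr)), mem_closedBall_self zero_le_one⟩
    (max_lt (h3.trans_lt b) c)).le

end Sp

open Sp

/-- **UNIT** -/
theorem stUnit : StUnit := by
  intro p U s s' D hU hs hs' hd hD h z hz
  have hE : ContinuousOn (fun z => Real.exp (D z)) U := hD.rexp
  obtain ⟨q, h1, h2⟩ := div hU hs hs' hd hE fun z hz h0 => (h z hz h0).le
  have hq : ContinuousOn (fun z => ‖q z‖ ^ 2) U := h1.continuousOn.norm.pow 2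
  have h3 : ∀ z ∈ U, s z ≠ 0 → ‖q z‖ ^ 2 = Real.exp (D z) := fun z hz h0 => by
    have := h z hz h0
    rw [h2 z hz h0, norm_mul, mul_pow, mul_comm] at this
    exact mul_left_cancel₀ (pow_ne_zero 2 (norm_ne_zero_iff.2 h0)) this
  have h4 : ∀ z ∈ U, ‖q z‖ ^ 2 = Real.exp (D z) := fun z hz =>
    le_antisymm (le_of_dense hd hq hE (fun z hz h0 => (h3 z hz h0).le) z hz)
      (le_of_dense hd hE hq (fun z hz h0 => (h3 z hz h0).ge) z hz)
  have h5 : ‖q z‖ ^ 2 ≠ 0 := h4 z hz ▸ (Real.exp_pos _).ne'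
  refine Fl.congr (u := fun y => Real.log (‖q y‖ ^ 2))
    ⟨((((h1 z hz).restrictScalars (𝕜 := ℝ)).contDiffAt).norm_sq ℝ).log h5,
      cHess_log_norm_sq (h1 z hz).contDiffAt fun e => h5 (by simp [e])⟩ ?_
  filter_upwards [hU.mem_nhds hz] with y hy
  rw [h4 y hy, Real.log_exp]

/-- **SUP** -/
theorem stSup : StSup := by
  intro p U s A _ v F R C hU hs hd hv hF hR hC hb
  have hdiv : ∀ (a : A) (g : F a), ∃ q : Cm p → ℂ, AnalyticOnNhd ℂ q U ∧
      ∀ z ∈ U, s z ≠ 0 → g.1 z = q z * s z := fun a g =>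
    div hU hs (hF a g g.2) hd (B := fun z => C / Real.exp (v a z))
      (continuousOn_const.div (hv a).1.rexp fun _ _ => (Real.exp_pos _).ne') fun z hz _ => by
        rw [← mul_div_assoc, le_div_iff₀ (Real.exp_pos _), mul_comm _ C]
        exact ((hR z hz).1 ⟨a, g, g.2, rfl⟩).trans (hb z hz).1
  choose q hq hq' using hdiv
  set T : (Σ a, F a) → Cm p → ℝ := fun i z => ‖q i.1 i.2 z‖ ^ 2 * Real.exp (v i.1 z) with hT
  have t1 : ∀ i, ∀ z ∈ U, s z ≠ 0 → ‖i.2.1 z‖ ^ 2 * Real.exp (v i.1 z) = ‖s z‖ ^ 2 * T i z :=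
    fun i z hz h0 => by rw [hq' i.1 i.2 z hz h0, norm_mul, hT]; ring
  have t2 : ∀ i, ∀ z ∈ U, T i z ≤ C := fun i =>
    le_of_dense hd (((hq i.1 i.2).continuousOn.norm.pow 2).mul (hv i.1).1.rexp) continuousOn_const
      fun z hz h0 => by
        have := norm_pos_iff.2 h0
        refine le_of_mul_le_mul_left ?_ (by positivity : 0 < ‖s z‖ ^ 2)
        rw [← t1 i z hz h0, mul_comm _ C]
        exact ((hR z hz).1 ⟨i.1, i.2, i.2.2, rfl⟩).trans (hb z hz).1
  have t3 : ∀ z ∈ U, Nonempty (Σ a, F a) := fun z hz => by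
    obtain ⟨_, a, g, hg, -⟩ := (hR z hz).nonempty
    exact ⟨⟨a, g, hg⟩⟩
  have t4 : ∀ i, ∀ z ∈ U, T i z ≤ ⨆ i, T i z := fun i z hz =>
    le_ciSup (f := fun i => T i z) ⟨C, forall_mem_range.2 fun i => t2 i z hz⟩ i
  have hc : ContinuousOn (fun z => ⨆ i, T i z) U := fun z hz => by
    have := t3 z hz
    refine ContinuousAt.continuousWithinAt (Metric.continuousAt_iff'.2 fun ε hε => ?_)
    filter_upwards [hU.mem_nhds hz,
      eventually_all.2 fun a => equi hU (hv a).1 (C := C) (half_pos hε) hz] with w hw h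
    have h1 : ∀ i, |T i w - T i z| ≤ ε / 2 := fun i => h i.1 _ (hq i.1 i.2) (t2 i)
    have h2 : ⨆ i, T i w ≤ (⨆ i, T i z) + ε / 2 :=
      ciSup_le fun i => by linarith [(abs_le.1 (h1 i)).2, t4 i z hz]
    have h3 : ⨆ i, T i z ≤ (⨆ i, T i w) + ε / 2 :=
      ciSup_le fun i => by linarith [(abs_le.1 (h1 i)).1, t4 i w hw]
    rw [Real.dist_eq, abs_lt]
    constructor <;> linarith
  have t5 : ∀ z ∈ U, R z = ‖s z‖ ^ 2 * ⨆ i, T i z := fun z hz => by
    have := t3 z hz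
    by_cases h0 : s z = 0
    · have h := hb z hz
      simp only [h0, norm_zero, ne_eq, OfNat.ofNat_ne_zero, not_false_eq_true, zero_pow, mul_zero,
        zero_mul] at h ⊢
      exact le_antisymm h.1 (nonneg_of_mul_nonneg_right h.2 hC)
    have h1 : 0 < ‖s z‖ ^ 2 := pow_pos (norm_pos_iff.2 h0) 2
    refine le_antisymm ((hR z hz).2 ?_) ((le_div_iff₀' h1).1 (ciSup_le fun i => ?_))
    · rintro _ ⟨a, g, hg, rfl⟩
      exact (t1 ⟨a, g, hg⟩ z hz h0).trans_le (mul_le_mul_of_nonneg_left (t4 _ z hz) h1.le)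
    · rw [le_div_iff₀' h1, ← t1 i z hz h0]
      exact (hR z hz).1 ⟨i.1, i.2, i.2.2, rfl⟩
  have t6 : ∀ z ∈ U, 0 < ⨆ i, T i z := fun z hz => by
    have h := le_of_dense hd continuousOn_const (continuousOn_const.mul hc) (f := fun _ => 1)
      (f' := fun z => C * ⨆ i, T i z) (fun z hz h0 => by
        refine le_of_mul_le_mul_left ?_ (pow_pos (norm_pos_iff.2 h0) 2)
        rw [mul_one, mul_left_comm, ← t5 z hz]
        exact (hb z hz).2) z hz
    exact (mul_pos_iff_of_pos_left hC).1 (one_pos.trans_le h)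
  have hl : ContinuousOn (fun z => Real.log (⨆ i, T i z)) U := hc.log fun z hz => (t6 z hz).ne'
  refine ⟨_, hl, LPsh.psh_log (lpsh_of_sup hc.upperSemicontinuousOn (fun z hz => (t6 z hz).le)
    fun z hz t ht _ => ?_) t6 (.of_cont hl), fun z hz => by rw [Real.exp_log (t6 z hz), t5 z hz]⟩
  have := t3 z hz
  obtain ⟨i, hi⟩ := exists_lt_of_lt_ciSup ht
  exact ⟨T i, ((lpsh_norm hU (hq i.1 i.2).differentiableOn).pow 2).mul_exp (hv i.1).2
    (.of_cont (hv i.1).1), t4 i, hi⟩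

end Vale.Agent.P281Z.Ky
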