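import Vale.Agent.P281Z.Ky.Fib
import Vale.Agent.P272.K.C2.Wirt

/-!
# P281Z, block KY: two potentials of the same current
-/

open scoped ContDiff Topology ComplexOrder
open Filter Set MeasureTheory Metric
open Vale.Agent.P272.K (Cm dz dzb cHess)
open Vale.Agent.P272.K.INT
open Vale.Agent.P284Z
open Vale.Agent.P284Y.Lib

noncomputable section

namespace Vale.Agent.P281Z.Ky

variable {p : ℕ} {U : Set (Cm p)} {φ φ' : ℕ → Cm p → ℝ} {P P' : Cm p → ℝ}

theorem Apx.anti' (h : Apx U φ P) {z : Cm p} (hz : z ∈ U) : Antitone fun m => φ m z :=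
  antitone_nat_of_succ_le fun m => h.anti m z hz

theorem Apx.le (h : Apx U φ P) (m : ℕ) {z : Cm p} (hz : z ∈ U) : P z ≤ Real.exp (φ m z) :=
  le_of_tendsto (h.lim z hz) ((eventually_ge_atTop m).mono fun _ k =>
    Real.exp_le_exp.2 (h.anti' hz k))

theorem Apx.cont (h : Apx U φ P) (m : ℕ) : ContinuousOn (φ m) U :=
  fun z hz => (h.sm m z hz).continuousAt.continuousWithinAt

theorem Apx.lpsh (h : Apx U φ P) : LPsh P U :=
  have hf : ∀ m, LPsh (fun z => Real.exp (φ m z)) U := fun m =>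
    (psh_of_cHess fun z hz => ⟨two (h.sm m z hz), h.psd m z hz⟩).lpsh_exp (.of_cont (h.cont m))
  lpsh_of_lim (fun z hz t k => ((h.lim z hz).eventually (gt_mem_nhds k)).exists.elim fun m hm =>
      (((hf m).usc z hz t hm).and eventually_mem_nhdsWithin).mono fun _ hy =>
        (h.le m hy.2).trans_lt hy.1) (Eventually.of_forall hf)
    (fun _ a b => (usc_bdd (hf 0).usc b a).elim fun M hM => ⟨M, Eventually.of_forall
      fun m z hz => (Real.exp_le_exp.2 (h.anti' (a hz) m.zero_le)).trans (hM.2 z hz)⟩) h.lim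

namespace Uq

/-- first order operators with constant coefficients -/
def Op (D : (Cm p → ℂ) → Cm p → ℂ) : Prop :=
  ∃ (v w : Cm p) (c : ℂ), ∀ F, D F = fun z => (fderiv ℝ F z v + c * fderiv ℝ F z w) / 2

theorem op_dz (j : Fin p) : Op (dz j) :=
  ⟨Pi.single j 1, Pi.single j Complex.I, -Complex.I, fun F => funext fun z => by rw [dz]; ring⟩

theorem op_dzb (j : Fin p) : Op (dzb j) :=
  ⟨Pi.single j 1, Pi.single j Complex.I, Complex.I, fun _ => rfl⟩

variable {D : (Cm p → ℂ) → Cm p → ℂ} {ψ F K : Cm p → ℂ} {z : Cm p} {r s : ℝ} {u : Cm p → ℝ}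

theorem int (h : Tst U ψ) : Integrable ψ := h.1.continuous.integrable_of_hasCompactSupport h.2.1

theorem tst_mul (h : Tst U ψ) (hF : ∀ z ∈ U, ContDiffAt ℝ ∞ F z) : Tst U fun t => ψ t * F t := by
  refine ⟨contDiff_iff_contDiffAt.2 fun t => ?_, h.2.1.mul_right,
    tsupport_mul_subset_left.trans h.2.2⟩
  by_cases ht : t ∈ tsupport ψ
  · exact h.1.contDiffAt.mul (hF t (h.2.2 ht))
  · exact (contDiffAt_const (c := 0)).congr_of_eventuallyEq
      ((notMem_tsupport_iff_eventuallyEq.1 ht).mono fun y hy => by simp [hy])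

theorem tst_fd (h : Tst U ψ) (v : Cm p) : Tst U fun t => fderiv ℝ ψ t v :=
  ⟨(h.1.fderiv_right (m := ∞) (by norm_num)).clm_apply contDiff_const, h.2.1.fderiv_apply ℝ v,
    (tsupport_fderiv_apply_subset ℝ v).trans h.2.2⟩

namespace Op
variable (hD : Op D)
include hD

theorem sm (hF : ContDiffAt ℝ ∞ F z) : ContDiffAt ℝ ∞ (D F) z := by
  obtain ⟨v, w, c, e⟩ := hD
  have k := hF.fderiv_right (m := ∞) (by norm_num)
  rw [e]
  exact ((k.clm_apply contDiffAt_const).add
    (contDiffAt_const.mul (k.clm_apply contDiffAt_const))).div_const _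

theorem zero (h : z ∉ tsupport ψ) : D ψ z = 0 := by
  obtain ⟨v, w, c, e⟩ := hD
  simp [e, fderiv_of_notMem_tsupport ℝ h]

theorem supp : tsupport (D ψ) ⊆ tsupport ψ :=
  closure_minimal (fun _ h => not_not.1 fun k => h (hD.zero k)) (isClosed_tsupport _)

theorem tst (h : Tst U ψ) : Tst U (D ψ) :=
  ⟨contDiff_iff_contDiffAt.2 fun _ => hD.sm h.1.contDiffAt,
    h.2.1.of_isClosed_subset (isClosed_tsupport _) hD.supp, hD.supp.trans h.2.2⟩

theorem int0 (h : Tst U ψ) : ∫ t, D ψ t = 0 := by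
  obtain ⟨v, w, c, e⟩ := hD
  have k := integral_fderiv_eq_zero (h.1.of_le (by norm_num)) h.2.1
  rw [e, integral_div, integral_add (int (tst_fd h v)) ((int (tst_fd h w)).const_mul c),
    integral_const_mul, k, k]
  simp

theorem ibp (h : Tst U ψ) (hF : ∀ z ∈ U, ContDiffAt ℝ ∞ F z) :
    ∫ t, D ψ t * F t = -∫ t, ψ t * D F t := by
  rw [eq_neg_iff_add_eq_zero, ← integral_add (int (tst_mul (hD.tst h) hF))
    (int (tst_mul h fun z hz => hD.sm (hF z hz))), ← hD.int0 (tst_mul h hF)]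
  refine integral_congr_ae (Eventually.of_forall fun t => ?_)
  beta_reduce
  by_cases ht : t ∈ tsupport ψ
  · obtain ⟨v, w, c, e⟩ := hD
    simp only [e, fderiv_fun_mul (h.1.contDiffAt.differentiableAt (by simp))
      ((hF t (h.2.2 ht)).differentiableAt (by simp)), add_apply, smul_apply, smul_eq_mul]
    ring
  · rw [hD.zero ht, hD.zero fun k => ht (tsupport_mul_subset_left k),
      image_eq_zero_of_notMem_tsupport ht]
    simp

theorem refl (hK : ContDiff ℝ ∞ K) (c : ℂ) :
    D (fun t => c * K (z - t)) = fun t => -c * D K (z - t) := by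
  obtain ⟨v, w, c', e⟩ := hD
  funext t
  have k := ((((hK.differentiable (by simp)) (z - t)).hasFDerivAt.comp t
    ((hasFDerivAt_id t).const_sub z)).const_mul c).fderiv
  simp only [Function.comp_def] at k
  simp only [e, k]
  simp
  ring

theorem conv {f : Cm p → ℂ} (hK : Tst univ K) (hf : Integrable f) :
    D (fun z => ∫ t, f t * K (z - t)) = fun z => ∫ t, f t * D K (z - t) := by
  obtain ⟨v, w, c, e⟩ := hD
  funext z
  have k : ∀ v, fderiv ℝ (fun z => ∫ t, f t * K (z - t)) z v = ∫ t, f t * fderiv ℝ K (z - t) v :=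
    fun v => by
      have k1 := (hK.2.1.hasFDerivAt_convolution_right (ContinuousLinearMap.mul ℝ ℂ)
        hf.locallyIntegrable (hK.1.of_le (by norm_num)) z).fderiv
      exact (congrArg (fun L : Cm p →L[ℝ] ℂ => L v) k1).trans (convolution_precompR_apply _
        hf.locallyIntegrable (hK.2.1.fderiv ℝ) (hK.1.continuous_fderiv (by simp)) z v)
  have i : ∀ v, Integrable fun t => f t * fderiv ℝ K (z - t) v := fun v =>
    (tst_fd hK v).2.1.convolutionExists_right (ContinuousLinearMap.mul ℝ ℂ) hf.locallyIntegrable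
      (tst_fd hK v).1.continuous z
  simp only [e, k]
  rw [← integral_const_mul, ← integral_add (i v) ((i w).const_mul c), ← integral_div]
  exact integral_congr_ae (Eventually.of_forall fun t => by ring)

end Op

theorem ker_neg (r : ℝ) (z t : Cm p) : ker volume r (t - z) = ker volume r (z - t) := by
  rw [← ker_rot r (-1) (by simp), neg_smul, one_smul, neg_sub]

theorem hess₀ (hr : 0 < r) (hu : Integrable u) (z : Cm p) (j k : Fin p) :
    cHess (cv volume r u) z j k =
      ∫ t, dz j (dzb k fun t => (ker volume r (t - z) : ℂ)) t * u t := by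
  have hK : Tst univ fun w : Cm p => (ker volume r w : ℂ) := by
    simpa using tst_ker hr (z := (0 : Cm p)) (subset_univ _)
  have e1 : (fun y => (cv volume r u y : ℂ)) = fun y => ∫ t, u t * (ker volume r (y - t) : ℂ) := by
    funext y
    rw [← integral_add_left_eq_self _ y, cv, ← integral_complex_ofReal]
    refine integral_congr_ae (Eventually.of_forall fun w => ?_)
    simp only [← ker_neg r y, add_sub_cancel_left, Complex.ofReal_mul, mul_comm]
  have e2 : (fun t => (ker volume r (t - z) : ℂ)) = fun t => 1 * (ker volume r (z - t) : ℂ) :=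
    funext fun t => by rw [one_mul, ker_neg]
  have hu' : Integrable fun t => (u t : ℂ) := hu.ofReal
  rw [P272.K.C2.cHess_apply, e1, (op_dzb k).conv hK hu',
    (op_dz j).conv ((op_dzb k).tst hK) hu', e2, (op_dzb k).refl hK.1,
    (op_dz j).refl ((op_dzb k).tst hK).1]
  exact integral_congr_ae (Eventually.of_forall fun t => by ring)

theorem hess (hr : 0 < r) (hU : IsOpen U) (hu : Lc volume u U) (hB : closedBall z r ⊆ U)
    (j k : Fin p) : cHess (cv volume r u) z j k =
      ∫ t, dz j (dzb k fun t => (ker volume r (t - z) : ℂ)) t * u t := by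
  obtain ⟨R, h1, h2⟩ := exists_big hU hr.le hB
  have e : cv volume r u =ᶠ[𝓝 z] cv volume r ((closedBall z R).indicator u) := by
    filter_upwards [closedBall_mem_nhds z (sub_pos.2 h1)] with y hy
    exact cv_congr hr fun x hx => (indicator_of_mem (closedBall_subset_closedBall'
      (by linarith [mem_closedBall.1 hy]) hx) _).symm
  rw [P272.K.C2.cHess_congr e,
    hess₀ hr ((integrable_indicator_iff measurableSet_closedBall).2 (hu.ball h2))]
  refine integral_congr_ae (Eventually.of_forall fun t => ?_)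
  beta_reduce
  by_cases ht : t ∈ closedBall z R
  · rw [indicator_of_mem ht]
  · rw [(op_dz j).zero fun c => ht (closedBall_subset_closedBall h1.le
      (ker_supp hr z ((op_dzb k).supp c))), zero_mul, zero_mul]

theorem ibp2 (h : Tst U ψ) (hu : ∀ z ∈ U, ContDiffAt ℝ ∞ u z) (j k : Fin p) :
    ∫ t, dz j (dzb k ψ) t * u t = ∫ t, ψ t * cHess u t j k := by
  have hF : ∀ z ∈ U, ContDiffAt ℝ ∞ (fun t => (u t : ℂ)) z := fun z hz =>
    Complex.ofRealCLM.contDiff.contDiffAt.comp z (hu z hz)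
  have e : dz j (dzb k ψ) = dzb k (dz j ψ) :=
    funext fun _ => dz_dzb_comm (h.1.contDiffAt.of_le (by norm_cast))
  rw [e, (op_dzb k).ibp ((op_dz j).tst h) hF, (op_dz j).ibp h fun z hz => (op_dzb k).sm (hF z hz),
    neg_neg]
  rfl

theorem int_lc (h : Ct U ψ) (hu : Lc volume u U) : Integrable fun t => ψ t * u t :=
  (integrableOn_iff_integrable_of_support_subset
    ((Function.support_mul_subset_left _ _).trans (subset_tsupport _))).1
    (IntegrableOn.continuousOn_mul h.1.continuousOn (hu _ h.2.1 h.2.2).ofReal h.2.1)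

theorem weak {B : Set (Cm p)} (h : Apx U φ P) (hB : B ⊆ U) (hψ : Ct B ψ)
    (hi : Lc volume (fun y => Real.log (P y)) B) (h0 : ∀ᵐ y, y ∈ B → 0 < P y) :
    Tendsto (fun m => ∫ t, ψ t * φ m t) atTop (𝓝 (∫ t, ψ t * Real.log (P t))) := by
  have hc : ∀ m, Lc volume (φ m) B := fun m => lc_cont ((h.cont m).mono hB)
  refine tendsto_integral_of_dominated_convergence
    (fun t => ‖ψ t * φ 0 t‖ + ‖ψ t * Real.log (P t)‖)
    (fun m => (int_lc hψ (hc m)).aestronglyMeasurable)
    ((int_lc hψ (hc 0)).norm.add (int_lc hψ hi).norm) (fun m => h0.mono fun t ht => ?_)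
    (h0.mono fun t ht => ?_)
  all_goals
    by_cases c : ψ t = 0
    · simp [c]
    have k := hψ.2.2 (subset_tsupport _ c)
  · simp only [norm_mul, Complex.norm_real, Real.norm_eq_abs, ← mul_add]
    refine mul_le_mul_of_nonneg_left (abs_le.2 ⟨?_, ?_⟩) (norm_nonneg _)
    · linarith [(Real.log_le_iff_le_exp (ht k)).2 (h.le m (hB k)), neg_abs_le (Real.log (P t)),
        abs_nonneg (φ 0 t)]
    · linarith [h.anti' (hB k) m.zero_le, le_abs_self (φ 0 t), abs_nonneg (Real.log (P t))]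
  · have k1 := (h.lim t (hB k)).log (ht k).ne'
    simp only [Real.log_exp] at k1
    exact k1.ofReal.const_mul _

theorem cv_comm (hr : 0 < r) (hs : 0 < s) (hu : IntegrableOn u (closedBall z (r + s))) :
    cv volume r (cv volume s u) z = cv volume s (cv volume r u) z := by
  obtain ⟨v, hv, e⟩ : ∃ v : Cm p → ℝ, Integrable v ∧ ∀ y ∈ closedBall z (r + s), u y = v y :=
    ⟨_, (integrable_indicator_iff measurableSet_closedBall).2 hu,
      fun y hy => (indicator_of_mem hy _).symm⟩
  have k : ∀ a b : ℝ, 0 < a → 0 < b → a + b = r + s →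
      cv volume a (cv volume b u) z = cv volume a (cv volume b v) z := fun a b ha hb hab =>
    cv_congr ha fun y hy => cv_congr hb fun x hx => e x (closedBall_subset_closedBall'
      (by linarith [mem_closedBall.1 hy]) hx)
  obtain ⟨C, -, hC⟩ := ker_bdd (volume : Measure (Cm p))
  have i1 := (measurePreserving_prod_add volume volume).integrable_comp_of_integrable
    ((ker_int (μ := (volume : Measure (Cm p))) hr).mul_prod (hv.comp_add_left z))
  have i2 := i1.bdd_mul (f := fun q : Cm p × Cm p => ker volume s q.2)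
    ((ker_sm s).continuous.comp continuous_snd).aestronglyMeasurable
    (Eventually.of_forall fun q => (Real.norm_of_nonneg (ker_nonneg hs _)).trans_le (hC s hs _))
  have i3 := integral_integral_swap
    (f := fun a b : Cm p => ker volume s b * (ker volume r a * v (z + (a + b)))) i2
  rw [k r s hr hs rfl, k s r hs hr (add_comm _ _)]
  simp only [cv, ← integral_const_mul, add_assoc]
  simp only [mul_left_comm (ker volume r _), i3]
  simp only [add_comm]

theorem half {ρ c : ℝ} (hρ : 0 < ρ) (hU : IsOpen U) (h : LPsh P U) (h' : LPsh P' U)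
    (hB : closedBall z ρ ⊆ U) (hi : Lc volume (fun y => Real.log (P y)) U)
    (hi' : Lc volume (fun y => Real.log (P' y)) U) (h0 : ∀ᵐ y, y ∈ U → 0 < P y)
    (h0' : ∀ᵐ y, y ∈ U → 0 < P' y) (hc : ∀ r ∈ Ioc 0 ρ,
      cv volume r (fun y => Real.log (P y)) z = cv volume r (fun y => Real.log (P' y)) z + c) :
    P z ≤ P' z * Real.exp c := by
  have hz := hB (mem_closedBall_self hρ.le)
  rw [← div_le_iff₀ (Real.exp_pos c)]
  refine le_of_forall_gt fun t ht => ?_
  obtain ⟨t', t1, t2⟩ := exists_between ht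
  have k := h'.usc z hz t' t1
  rw [hU.nhdsWithin_eq hz] at k
  obtain ⟨δ, hδ, k⟩ := nhds_basis_closedBall.eventually_iff.1 k
  have hr : 0 < min δ ρ := lt_min hδ hρ
  have s1 : closedBall z (min δ ρ) ⊆ U := (closedBall_subset_closedBall (min_le_right _ _)).trans hB
  have k1 := le_exp_cv hr hU h s1 (hi.ball s1) (h0.mono fun _ a b => a (s1 b))
  have k2 := cv_log_le hr (hi'.ball s1) (h0'.mono fun _ a b => a (s1 b)) fun y hy =>
    (k (closedBall_subset_closedBall (min_le_left _ _) hy)).le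
  rw [hc _ ⟨hr, min_le_right _ _⟩, Real.exp_add, ← div_le_iff₀ (Real.exp_pos c)] at k1
  exact (k1.trans ((Real.exp_le_exp.2 k2).trans_eq
    (Real.exp_log ((h'.1 z hz).trans_lt t1)))).trans_lt t2

theorem good (h : Apx U φ P) {ρ : ℝ} (hρ : 0 < ρ) (hB : ball z ρ ⊆ U) :
    LPsh P (ball z ρ) ∧ Lc volume (fun y => Real.log (P y)) (ball z ρ) ∧
      ∀ᵐ y, y ∈ ball z ρ → 0 < P y := by
  obtain ⟨w, w1, w2⟩ := ((h.pos z (hB (mem_ball_self hρ))).and_eventually
    (ball_mem_nhds z hρ)).exists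
  have k := h.lpsh.mono hB
  exact ⟨k, lc_log k isOpen_ball (convex_ball z ρ).isPreconnected ⟨w, w2, w1⟩,
    k.ae_pos isOpen_ball (convex_ball z ρ).isPreconnected w2 w1⟩

end Uq

open Uq in
/-- **UNIQ** -/
theorem stUniq : StUniq := by
  intro p U φ φ' P P' hU h h' hT
  let H : ℝ → Cm p → ℝ := fun r => cv volume r fun y => Real.log (P y) - Real.log (P' y)
  refine ⟨fun z => limUnder (𝓝[>] 0) fun r => H r z, fun z₀ hz₀ => ?_⟩
  obtain ⟨ε, hε, hB⟩ := Metric.isOpen_iff.1 hU z₀ hz₀
  obtain ⟨ρ, rfl⟩ : ∃ ρ, ε = 3 * ρ := ⟨ε / 3, by ring⟩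
  have hρ : 0 < ρ := by linarith
  obtain ⟨a1, a2, a3⟩ := good h hε hB
  obtain ⟨b1, b2, b3⟩ := good h' hε hB
  have sub : ∀ {z : Cm p} {a r R : ℝ}, z ∈ ball z₀ a → r + a ≤ R → closedBall z r ⊆ ball z₀ R :=
    fun hz e => closedBall_subset_ball' (by linarith [mem_ball.1 hz])
  have fl : ∀ r ∈ Ioc 0 ρ, ∀ z ∈ ball z₀ (2 * ρ), Fl (H r) z := fun r hr z hz => by
    have s1 : closedBall z r ⊆ ball z₀ (3 * ρ) := sub hz (by linarith [hr.2])
    refine ⟨cv_smooth hr.1 isOpen_ball (a2.sub b2) s1, Matrix.ext fun j k => ?_⟩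
    have t1 := tst_ker hr.1 s1
    have t2 := ((op_dz j).tst ((op_dzb k).tst t1)).ct
    have k1 := (weak h hB t2 a2 a3).sub (weak h' hB t2 b2 b3)
    rw [← integral_sub (int_lc t2 a2) (int_lc t2 b2)] at k1
    simp only [ibp2 t1 fun z hz => h.sm _ z (hB hz), ibp2 t1 fun z hz => h'.sm _ z (hB hz)] at k1
    rw [hess hr.1 isOpen_ball (a2.sub b2) s1, Matrix.zero_apply,
      ← tendsto_nhds_unique k1 (hT _ (t1.ct.mono hB) j k)]
    simp only [Complex.ofReal_sub, mul_sub]
  have self : ∀ r ∈ Ioc 0 ρ, ∀ s ∈ Ioc 0 ρ, ∀ z ∈ ball z₀ ρ, cv volume s (H r) z = H r z :=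
    fun r hr s hs z hz => cv_eq_self hs.1 isOpen_ball
      (fun y hy => (fl r hr y hy).1.continuousAt.continuousWithinAt)
      (psh_of_cHess fun y hy => ⟨two (fl r hr y hy).1, (fl r hr y hy).2 ▸ .zero⟩)
      (psh_of_cHess fun y hy => ⟨(two (fl r hr y hy).1).neg, by
        rw [P272.K.C2.cHess_neg (two (fl r hr y hy).1), (fl r hr y hy).2, neg_zero]
        exact .zero⟩) (sub hz (by linarith [hs.2]))
  have hρ' : ρ ∈ Ioc 0 ρ := ⟨hρ, le_rfl⟩
  have eq : ∀ r ∈ Ioc 0 ρ, ∀ z ∈ ball z₀ ρ, H r z = H ρ z := fun r hr z hz => by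
    rw [← self r hr ρ hρ' z hz, ← self ρ hρ' r hr z hz]
    exact cv_comm hρ hr.1 ((a2.sub b2).ball (sub hz (by linarith [hr.2])))
  have lim : ∀ z ∈ ball z₀ ρ, limUnder (𝓝[>] 0) (fun r => H r z) = H ρ z := fun z hz =>
    (tendsto_const_nhds.congr' (Eventually.mono (Ioc_mem_nhdsGT hρ)
      fun r hr => (eq r hr z hz).symm)).limUnder_eq
  have h0 := mem_ball_self (x := z₀) hρ
  have s0 : closedBall z₀ ρ ⊆ ball z₀ (3 * ρ) := sub h0 (by linarith)
  have key : ∀ r ∈ Ioc 0 ρ, cv volume r (fun y => Real.log (P y)) z₀ -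
      cv volume r (fun y => Real.log (P' y)) z₀ = H ρ z₀ := fun r hr => by
    have s1 := (closedBall_subset_closedBall hr.2).trans s0
    rw [← eq r hr z₀ h0, ← cv_sub hr.1 (a2.ball s1) (b2.ball s1)]
  refine ⟨(fl ρ hρ' z₀ (mem_ball_self (by linarith))).congr
    (Eventually.mono (ball_mem_nhds z₀ hρ) lim), ?_⟩
  beta_reduce
  rw [lim z₀ h0]
  refine le_antisymm
    (half hρ isOpen_ball a1 b1 s0 a2 b2 a3 b3 fun r hr => by linarith [key r hr]) ?_
  have k := half (c := -H ρ z₀) hρ isOpen_ball b1 a1 s0 b2 a2 b3 a3 fun r hr => by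
    linarith [key r hr]
  rwa [Real.exp_neg, ← div_eq_mul_inv, le_div_iff₀ (Real.exp_pos _)] at k

end Vale.Agent.P281Z.Ky
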