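import Vale.Agent.P281Z.Ky.Basic
import Vale.Agent.P272.K.N.Det
import Vale.Agent.P272.K.C2.Wirt

/-!
# P281Z, block KY: the potentials are continuous on the principalization
-/

set_option linter.unusedSectionVars false

open scoped Manifold ContDiff Topology ComplexOrder Matrix
open Filter Set Metric
open Vale.Agent.P272.K
open Vale.Agent.P277Z (Hol)
open Vale.Agent.P277Z.Pos (nsq PosAt FlatAt)
open Vale.Agent.P284Z (Psh LB psh_of_cHess)

noncomputable section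

namespace Vale.Agent.P281Z.Ky

namespace Up

variable {p : ℕ}

theorem nsq_sm : ContDiff ℝ ∞ (nsq : Cm p → ℝ) :=
  ContDiff.sum fun l _ => (contDiff_apply ℝ ℂ l).norm_sq ℝ

theorem pd_open {u : Cm p → ℝ} {c : Cm p} (h : Pd u c) : ∀ᶠ q : ℝ × Cm p in 𝓝 (0, c),
    ContDiffAt ℝ 2 (fun z => u z - q.1 * nsq z) q.2 ∧
      (cHess (fun z => u z - q.1 * nsq z) q.2).PosSemidef := by
  obtain ⟨ε, hε, k⟩ := N.posDef_of_near h.2
  have h2 : ∀ i j, ∀ᶠ q : ℝ × Cm p in 𝓝 (0, c),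
      ‖(cHess u q.2 - (q.1 : ℂ) • cHess nsq q.2) i j - cHess u c i j‖ ≤ ε := fun i j => by
    have k1 := (C2.contDiffAt_cHess (m := 0) (two h.1) (by norm_num) i j).continuousAt.comp_of_eq
      (continuousAt_snd (p := ((0 : ℝ), c))) rfl
    have k2 := (C2.contDiffAt_cHess (m := 0) (two (nsq_sm.contDiffAt (x := c))) (by norm_num) i
      j).continuousAt.comp_of_eq (continuousAt_snd (p := ((0 : ℝ), c))) rfl
    have k3 := ((k1.sub ((Complex.continuous_ofReal.continuousAt.comp continuousAt_fst).mul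
      k2)).sub (continuousAt_const (y := cHess u c i j))).norm
    exact k3.eventually (Iic_mem_nhds (by simpa using hε))
  filter_upwards [eventually_all.2 fun i => eventually_all.2 (h2 i),
    continuousAt_snd.eventually ((two h.1).eventually (by simp))] with q k1 k2
  have k3 : ContDiffAt ℝ 2 (nsq : Cm p → ℝ) q.2 := two nsq_sm.contDiffAt
  have k4 : ContDiffAt ℝ 2 (fun z => q.1 * nsq z) q.2 := contDiffAt_const.mul k3
  refine ⟨k2.sub k4, (k _ (C2.cHess_isHermitian (k2.sub k4)) ?_).posSemidef⟩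
  rwa [C2.cHess_sub k2 k4, C2.cHess_const_mul _ k3]

theorem exists_eps {B : Type} [Finite B] {v : B → Cm p → ℝ} {c : Cm p} (h : ∀ b, Pd (v b) c) :
    ∃ ε > (0 : ℝ), ∃ N, IsOpen N ∧ c ∈ N ∧ ∀ b, ContinuousOn (fun z => v b z - ε * nsq z) N ∧
      Psh (fun z => v b z - ε * nsq z) N := by
  obtain ⟨ε, h1, h2⟩ := (((eventually_all.2 fun b => pd_open (h b)).curry_nhds.filter_mono
    (nhdsWithin_le_nhds (s := Ioi 0))).and self_mem_nhdsWithin).exists
  obtain ⟨N, k1, k2, k3⟩ := _root_.eventually_nhds_iff.1 h1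
  exact ⟨ε, h2, N, k2, k3, fun b => ⟨fun z hz => (k1 z hz b).1.continuousAt.continuousWithinAt,
    psh_of_cHess fun z hz => k1 z hz b⟩⟩

variable {X : Type} [TopologicalSpace X]

theorem open_tg (e : Chart p X) {W : Set X} (hW : IsOpen W) : IsOpen (e.target ∩ e.symm ⁻¹' W) :=
  e.continuousOn_symm.isOpen_inter_preimage e.open_target hW

theorem dense_tg (e : Chart p X) {W S : Set X} (hW : IsOpen W) (hS : Dense S) {s : X → ℂ}
    (h : ∀ x ∈ W, x ∈ S → s x ≠ 0) : e.target ∩ e.symm ⁻¹' W ⊆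
      closure {z ∈ e.target ∩ e.symm ⁻¹' W | s (e.symm z) ≠ 0} := fun z hz => by
  have h1 := mem_closure_iff_frequently.1 (hS (e.symm z))
  rw [← e.symm.map_nhds_eq hz.1, frequently_map] at h1
  exact mem_closure_iff_frequently.2 ((h1.and_eventually ((open_tg e hW).mem_nhds hz)).mono
    fun w k => ⟨k.2, h _ k.2.2 k.1⟩)

variable [ChartedSpace (Cm p) X]

theorem an_tg {e : Chart p X} (he : e ∈ atlas (Cm p) X) {z : Cm p} (hz : z ∈ e.target) {s : X → ℂ}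
    (h : Hol p s (e.symm z)) : AnalyticAt ℂ (fun z => s (e.symm z)) z := by
  have := h e ⟨he, e.map_target hz⟩
  rwa [e.right_inv hz] at this

theorem rpsh_cont {Y : Type} [TopologicalSpace Y] [ChartedSpace (Cm p) Y] {π : X → Y} {u : X → ℝ}
    {x : X} (h : RPsh p p π u x) : ContinuousAt u x := by
  obtain ⟨e, -, he, -, -, -, N, hN, h1, -⟩ := h
  refine ((h1.continuousAt hN).comp (e.continuousAt he.2)).congr ?_
  exact (e.eventually_left_inverse he.2).mono fun y hy => congrArg u hy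

theorem loc (hS : StSup) {V Y : Mf p} {π : V.X → Y.X} (A : AC p Y.X) (hπ : HolM p p π)
    (hd : Dense (π ⁻¹' A.I.Z)ᶜ) (hl : LPr p π A.I) (a : V.X) :
    ∃ (j : A.ι) (s : V.X → ℂ) (W : Set V.X) (u : V.X → ℝ), IsOpen W ∧ a ∈ W ∧ ∀ x ∈ W,
      π x ∈ A.O j ∧ Hol p s x ∧ (π x ∉ A.I.Z → s x ≠ 0) ∧ RPsh p p π u x ∧
        A.Ψ j (π x) = ‖s x‖ ^ 2 * Real.exp (u x) := by
  obtain ⟨j, hj⟩ := A.cover (π a)
  obtain ⟨γ, hγ⟩ := A.I.cover (π a)
  obtain ⟨s, s1, C₁, c1, s2⟩ := hl a γ hγ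
  obtain ⟨C₂, c2, s3⟩ := A.cpb j γ _ hj hγ
  obtain ⟨B, _, v, F, N, n1, n2, n3, n4⟩ := A.sup j _ hj
  have he' := at_chartAt (p := p) a
  have he := at_chartAt (p := p) (π a)
  set e' := chartAt (Cm p) a
  set e := chartAt (Cm p) (π a)
  obtain ⟨ε, hε, N₀, o1, o2, o3⟩ := exists_eps (v := fun b z => v b (e.symm z)) fun b => n2 b e he
  have t1 := hπ.cont.continuousAt (x := a)
  have t2 : ContinuousAt (fun x => e (π x)) a := (e.continuousAt he.2).comp t1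
  have t3 : ContinuousAt (fun x => Real.exp (ε * nsq (e (π x)))) a :=
    (continuousAt_const.mul (nsq_sm.continuous.continuousAt.comp t2)).rexp
  set C₃ := Real.exp (ε * nsq (e (π a))) + 1
  obtain ⟨W, w1, w2, w3⟩ := eventually_nhds_iff.1 ((((s1.near.and s2).and (t1.eventually s3)).and
    ((t1.eventually n1).and (t2.eventually (o1.mem_nhds o2)))).and
    (((t1.eventually ((A.isOpen j).mem_nhds hj)).and
      (t1.eventually ((A.I.isOpen γ).mem_nhds hγ))).and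
    (((e'.open_source.eventually_mem he'.2).and (t1.eventually (e.open_source.mem_nhds he.2))).and
      (t3.eventually (Iio_mem_nhds (lt_add_one _))))))
  have k1 : ∀ x ∈ W, x ∈ (π ⁻¹' A.I.Z)ᶜ → s x ≠ 0 := fun x hx hz h0 => hz fun γ' g i => by
    obtain ⟨C, c, k⟩ := A.I.cpb γ' γ _ g (w1 x hx).2.1.2
    have k2 : ∑ i, ‖A.I.g γ i (π x)‖ ≤ C₁ * ‖s x‖ := (w1 x hx).1.1.1.2.1
    rw [h0, norm_zero, mul_zero] at k2
    exact norm_le_zero_iff.1 ((Finset.single_le_sum (f := fun i => ‖A.I.g γ' i (π x)‖)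
      (fun _ _ => norm_nonneg _) (Finset.mem_univ i)).trans (k.self_of_nhds.1.trans
        (mul_nonpos_of_nonneg_of_nonpos c.le k2)))
  have k2 : ∀ z ∈ e'.target ∩ e'.symm ⁻¹' W, AnalyticAt ℂ (fun z => e (π (e'.symm z))) z :=
    fun z hz => by
      have := hπ.an ⟨he'.1, e'.map_target hz.1⟩ ⟨he.1, (w1 _ hz.2).2.2.1.2⟩
      rwa [e'.right_inv hz.1] at this
  have k3 : ContinuousOn (fun z => e (π (e'.symm z))) (e'.target ∩ e'.symm ⁻¹' W) :=
    fun z hz => (k2 z hz).continuousAt.continuousWithinAt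
  have c3 : 1 ≤ C₃ := le_add_of_nonneg_left (Real.exp_pos _).le
  obtain ⟨u, u1, u2, u3⟩ := hS p _ (fun z => s (e'.symm z)) B
    (fun b z => v b (e.symm (e (π (e'.symm z)))) - ε * nsq (e (π (e'.symm z))))
    (fun b => (fun g z => g (π (e'.symm z))) '' F b)
    (fun z => A.Ψ j (π (e'.symm z)) * (Real.exp (ε * nsq (e (π (e'.symm z)))))⁻¹)
    (C₁ ^ 2 * C₂ * C₃) (open_tg e' w2) (fun z hz => an_tg he'.1 hz.1 (w1 _ hz.2).1.1.1.1)
    (dense_tg e' w2 hd k1) (fun b => ⟨(o3 b).1.comp k3 fun z hz => (w1 _ hz.2).1.2.2,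
      (o3 b).2.comp (LB.of_cont (o3 b).1) o1 (open_tg e' w2)
        (fun z hz => (k2 z hz).differentiableAt.differentiableWithinAt)
        fun z hz => (w1 _ hz.2).1.2.2⟩)
    (by
      rintro b _ ⟨g, hg, rfl⟩ z hz
      exact an_tg (s := fun x => g (π x)) he'.1 hz.1 (hπ.hol (n3 b g hg _ (w1 _ hz.2).1.2.1)))
    (fun z hz => by
      have h1 := (n4 _ (w1 _ hz.2).1.2.1).mul_right
        (inv_nonneg.2 (Real.exp_pos (ε * nsq (e (π (e'.symm z))))).le)
      refine (congrArg (IsLUB · _) (Set.ext fun t => ⟨?_, ?_⟩)).mp h1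
      · rintro ⟨_, ⟨b, g, hg, rfl⟩, rfl⟩
        refine ⟨b, _, ⟨g, hg, rfl⟩, ?_⟩
        simp only [e.left_inv (w1 _ hz.2).2.2.1.2, Real.exp_sub, div_eq_mul_inv, mul_assoc]
      · rintro ⟨b, _, ⟨g, hg, rfl⟩, rfl⟩
        refine ⟨_, ⟨b, g, hg, rfl⟩, ?_⟩
        simp only [e.left_inv (w1 _ hz.2).2.2.1.2, Real.exp_sub, div_eq_mul_inv, mul_assoc])
    (by positivity) fun z hz => by
      obtain ⟨⟨⟨⟨-, a1, a2⟩, a3, a4⟩, -⟩, -, -, a5⟩ := w1 _ hz.2
      set S := ∑ i, ‖A.I.g γ i (π (e'.symm z))‖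
      set P := A.Ψ j (π (e'.symm z))
      set E := Real.exp (ε * nsq (e (π (e'.symm z))))
      have b1 : 1 ≤ E := Real.one_le_exp (mul_nonneg hε.le (Finset.sum_nonneg fun _ _ => sq_nonneg _))
      have b2 : 0 ≤ S := Finset.sum_nonneg fun _ _ => norm_nonneg _
      have b3 : 0 ≤ P := nonneg_of_mul_nonneg_right ((sq_nonneg S).trans a4) c2
      have b4 : S ^ 2 ≤ (C₁ * ‖s (e'.symm z)‖) ^ 2 := pow_le_pow_left₀ b2 a1 2
      have b5 : ‖s (e'.symm z)‖ ^ 2 ≤ (C₁ * S) ^ 2 := pow_le_pow_left₀ (norm_nonneg _) a2 2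
      constructor
      · calc P * E⁻¹ ≤ P * 1 := mul_le_mul_of_nonneg_left (inv_le_one_of_one_le₀ b1) b3
          _ ≤ C₂ * (C₁ * ‖s (e'.symm z)‖) ^ 2 * 1 := by gcongr; exact a3.trans (by gcongr)
          _ ≤ C₂ * (C₁ * ‖s (e'.symm z)‖) ^ 2 * C₃ := by gcongr
          _ = _ := by ring
      · calc _ ≤ C₁ ^ 2 * S ^ 2 := b5.trans_eq (mul_pow _ _ _)
          _ ≤ C₁ ^ 2 * (C₂ * P) := by gcongr
          _ = C₁ ^ 2 * C₂ * E * (P * E⁻¹) := by field_simp
          _ ≤ _ := by gcongr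
  refine ⟨j, s, W, fun x => u (e' x) + ε * nsq (e (π x)), w2, w3, fun x hx => ?_⟩
  obtain ⟨⟨⟨⟨a1, -⟩, -⟩, -⟩, ⟨a2, -⟩, ⟨a3, a4⟩, -⟩ := w1 x hx
  have hz : e' x ∈ e'.target ∩ e'.symm ⁻¹' W := ⟨e'.map_source a3, by
    rwa [mem_preimage, e'.left_inv a3]⟩
  refine ⟨a2, a1, k1 x hx, ⟨e', e, ⟨he'.1, a3⟩, ⟨he.1, a4⟩, ε, hε, _,
    (open_tg e' w2).mem_nhds hz, (u1.add ((continuousOn_const (c := ε)).mul
      (nsq_sm.continuous.comp_continuousOn k3))).congr fun z hz => ?_,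
    u2.congr fun z hz => ?_⟩, ?_⟩
  · simp only [e'.right_inv hz.1]
    rfl
  · simp only [e'.right_inv hz.1, add_sub_cancel_right]
  · have := u3 _ hz
    simp only [e'.left_inv a3] at this
    rw [Real.exp_add, ← mul_assoc, ← this, inv_mul_cancel_right₀ (Real.exp_pos _).ne']

end Up

open Up

/-- **UP** -/
theorem stUp (hS : StSup) (hU : StUnit) : StUp := by
  intro p V Y π A hπ hd hl
  choose j s W u h1 h2 h3 using loc hS A hπ hd hl
  refine ⟨V.X, W, u, h1, fun x => ⟨x, h2 x⟩, fun a x hx => (h3 a x hx).2.2.2.1,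
    fun a b x ha hb => ?_⟩
  have he := at_chartAt (p := p) x
  set e := chartAt (Cm p) x
  have hW := (h1 a).inter (h1 b)
  have k1 : ∀ y ∈ W a ∩ W b, FlatAt p (fun y => A.h (j a) (j b) (π y)) y := fun y hy =>
    flat_comp hπ (A.flat _ _ _ (h3 a y hy.1).1 (h3 b y hy.2).1)
  have k2 := hU p _ (fun z => s a (e.symm z)) (fun z => s b (e.symm z))
    (fun z => u a (e.symm z) - u b (e.symm z) - A.h (j a) (j b) (π (e.symm z))) (open_tg e hW)
    (fun z hz => an_tg he.1 hz.1 (h3 a _ hz.2.1).2.1)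
    (fun z hz => an_tg he.1 hz.1 (h3 b _ hz.2.2).2.1)
    (dense_tg e hW hd fun y hy => (h3 a y hy.1).2.2.1)
    (fun z hz => ((((rpsh_cont (h3 a _ hz.2.1).2.2.2.1).sub (rpsh_cont
      (h3 b _ hz.2.2).2.2.2.1)).sub (flat_cont (k1 _ hz.2))).comp
        (e.continuousAt_symm hz.1)).continuousWithinAt)
    (fun z hz _ => by
      have := A.chg _ _ _ (h3 a _ hz.2.1).1 (h3 b _ hz.2.2).1
      rw [(h3 a _ hz.2.1).2.2.2.2, (h3 b _ hz.2.2).2.2.2.2] at this
      rw [Real.exp_sub, Real.exp_sub, ← mul_div_assoc, ← mul_div_assoc, this]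
      field_simp)
    (e x) ⟨e.map_source he.2, by rw [mem_preimage, e.left_inv he.2]; exact ⟨ha, hb⟩⟩
  have k3 := k1 x ⟨ha, hb⟩ e he
  refine ((cd_atlas he.1).flat_iff he.2).2 (Fl.congr ⟨k2.1.add k3.1, ?_⟩
    (.of_forall fun z => (sub_add_cancel _ _).symm))
  rw [C2.cHess_add (two k2.1) (two k3.1), k2.2, k3.2, add_zero]

theorem stUp_of (_ : StCd) (hS : StSup) (hU : StUnit) : StUp := stUp hS hU

end Vale.Agent.P281Z.Ky
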