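import Vale.Agent.P281Z.Ky.Bd
import Vale.Agent.P281Z.Ky.Chg
import Vale.Agent.P281Z.Ky.Cmp
import Vale.Agent.P281Z.Ky.Cmt
import Vale.Agent.P281Z.Ky.Cmy
import Vale.Agent.P281Z.Ky.Cur
import Vale.Agent.P281Z.Ky.Ext
import Vale.Agent.P281Z.Ky.Extr
import Vale.Agent.P281Z.Ky.Fg
import Vale.Agent.P281Z.Ky.Fib
import Vale.Agent.P281Z.Ky.Gl
import Vale.Agent.P281Z.Ky.Idl
import Vale.Agent.P281Z.Ky.Kc
import Vale.Agent.P281Z.Ky.Moll
import Vale.Agent.P281Z.Ky.Mono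
import Vale.Agent.P281Z.Ky.Pot
import Vale.Agent.P281Z.Ky.Rel
import Vale.Agent.P281Z.Ky.Resp
import Vale.Agent.P281Z.Ky.Stg
import Vale.Agent.P281Z.Ky.Sup
import Vale.Agent.P281Z.Ky.Uniq
import Vale.Agent.P281Z.Ky.Up
import Vale.Agent.P277Z.Hir.All

/-!
# P281Z, block KY: the image of a compact Kähler manifold has a Kähler modification
-/

namespace Vale.Agent.P281Z.Ky

theorem stKC : StKC :=
  stKC_of stCd (stCur_of stCd stGm stStg stExtr (stFib_of stMoll) stAdj) (stPot_of stMoll stMono)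
    stUniq stChg (stCmt_of stCd stGm stChg)

theorem stGl : StGl :=
  stGl_of stBd (stCmy_of stCd stBd (stCmp_of stExt))
    (stIdl_of stCd stBd (stFg_of stBd) (stNz_of stExt))

/-- **KY** -/
theorem ky : KY :=
  ky_of stKC stGl (stResp_of P277Z.Hir.stMain) (stUp stSup stUnit) stRel stKup

end Vale.Agent.P281Z.Ky
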