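import Vale.Agent.P281Z.Ky.Basic

/-!
# P281Z, block KY: the Gram matrix of the differentials
-/

set_option linter.unusedSectionVars false

open scoped Manifold ContDiff Topology ComplexOrder Matrix
open Filter Set Matrix
open Vale.Agent.P272.K
open Vale.Agent.P301.H599 (Fm)
open Vale.Agent.P277Z (Hol)

noncomputable section

namespace Vale.Agent.P281Z.Ky

theorem map_star_mul {a b c : ℕ} (A : Matrix (Fin a) (Fin b) ℂ) (B : Matrix (Fin b) (Fin c) ℂ) :
    (A * B).map star = A.map star * B.map star := Matrix.map_mul (f := starRingEnd ℂ)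

theorem map_star_ct {a b : ℕ} (A : Matrix (Fin a) (Fin b) ℂ) : (A.map star)ᴴ = Aᵀ := by
  ext i j
  simp [conjTranspose_apply]

theorem det_map_star {a : ℕ} (A : Matrix (Fin a) (Fin a) ℂ) : (A.map star).det = star A.det :=
  ((starRingEnd ℂ).map_det A).symm

variable {n p : ℕ} {X : Type} [TopologicalSpace X] [ChartedSpace (Cm n) X]
  [IsManifold 𝓘(ℂ, Cm n) ω X] {w : Fm n X} {y : X → Cm p} {x : X} {e e' : Chart n X}

theorem an_of_hol (hy : ∀ a, Hol n (fun x => y x a) x) (he : At e x) :
    AnalyticAt ℂ (fun z => y (e.symm z)) (e x) := analyticAt_pi_iff.2 fun a => hy a e he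

theorem jc_chart (hy : AnalyticAt ℂ (fun z => y (e'.symm z)) (e' x)) (he : At e x) (he' : At e' x) :
    jc (fun z => y (e.symm z)) (e x) = jc (fun z => y (e'.symm z)) (e' x) * jacM e e' x := by
  have h := jc_comp (Φ := fun z => e' (e.symm z)) (σ := fun z => y (e'.symm z)) (z := e x)
    (by rwa [e.left_inv he.2]) (INT.transition_contDiffAt he he').analyticAt
  rw [e.left_inv he.2] at h
  exact (jc_congr (ev_tr y he.2 he'.2)).trans h

theorem gmc_chart (hw : IsHermitian w) (hy : ∀ a, Hol n (fun x => y x a) x) (he : At e x)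
    (he' : At e' x) : gmc w y e x = gmc w y e' x := by
  have hJ := jacM_isUnit he he'
  have h1 : IsUnit ((jacM e e' x).map star).det := by
    rw [det_map_star]
    exact hJ.star
  have h2 : IsUnit (jacM e e' x)ᵀ.det := by rwa [det_transpose]
  have h3 : w e (e x) = (jacM e e' x)ᵀ * w e' (e' x) * (jacM e e' x).map star :=
    hw.change e e' x he he'
  unfold gmc
  rw [jc_chart (an_of_hol hy he') he he', h3, map_star_mul, transpose_mul, Matrix.mul_inv_rev,
    Matrix.mul_inv_rev]
  simp only [Matrix.mul_assoc]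
  rw [mul_nonsing_inv_cancel_left _ _ h1, nonsing_inv_mul_cancel_left _ _ h2]

theorem gm_eq (hw : IsHermitian w) (hy : ∀ a, Hol n (fun x => y x a) x) (he : At e x) :
    gm w y x = gmc w y e x := gmc_chart hw hy (at_chartAt x) he

theorem gm_congr {y' : X → Cm p} (h : y =ᶠ[𝓝 x] y') : gm w y x = gm w y' x := by
  unfold gm gmc
  rw [jc_congr (Φ := fun z => y ((chartAt (Cm n) x).symm z))
    (Ψ := fun z => y' ((chartAt (Cm n) x).symm z)) (ev_sy (at_chartAt x).2 h)]

theorem w_cont (hw : IsHermitian w) (he : At e x) : ContinuousAt (w e) (e x) :=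
  continuousAt_pi.2 fun i => continuousAt_pi.2 fun j => (hw.smooth e x he i j).continuousAt

theorem gm_cont (hw : IsHermitian w) (hy : ∀ᶠ x' in 𝓝 x, ∀ a, Hol n (fun x => y x a) x') :
    ContinuousAt (gm w y) x := by
  have he := at_chartAt (p := n) x
  set e := chartAt (Cm n) x
  have h1 : ContinuousAt (jc fun z => y (e.symm z)) (e x) :=
    continuousAt_pi.2 fun i => continuousAt_pi.2 fun j =>
      (jc_an (an_of_hol hy.self_of_nhds he) i j).continuousAt
  have h2 : ContinuousAt (fun z => (w e z)⁻¹) (e x) :=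
    (continuousAt_matrix_inv _ (by
      rw [Ring.inverse_eq_inv']
      exact continuousAt_inv₀ (hw.posDef e x he).det_pos.ne')).comp (w_cont hw he)
  have h3 : Continuous fun u : Matrix (Fin p) (Fin n) ℂ × Matrix (Fin n) (Fin n) ℂ =>
      u.1.map star * u.2 * u.1ᵀ :=
    ((continuous_fst.matrix_map continuous_star).matrix_mul continuous_snd).matrix_mul
      continuous_fst.matrix_transpose
  refine ((h3.continuousAt.comp (h1.prodMk h2)).comp (e.continuousAt he.2)).congr ?_
  filter_upwards [hy, e.open_source.mem_nhds he.2] with x' k1 k2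
  exact (gm_eq hw k1 ⟨he.1, k2⟩).symm

theorem gm_psd (hw : IsHermitian w) : (gm w y x).PosSemidef := by
  have h := (hw.posDef _ x (at_chartAt x)).inv.posSemidef.mul_mul_conjTranspose_same
    ((jc (fun z => y ((chartAt (Cm n) x).symm z)) (chartAt (Cm n) x x)).map star)
  rwa [map_star_ct] at h

theorem gm_pd (hw : IsHermitian w) (hy : ∀ a, Hol n (fun x => y x a) x) (he : At e x)
    (hs : Function.Surjective (fderiv ℂ (fun z => y (e.symm z)) (e x))) : (gm w y x).PosDef := by
  rw [gm_eq hw hy he]
  set A := jc (fun z => y (e.symm z)) (e x) with hA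
  have h1 : Function.Surjective A.mulVec := fun v => by
    obtain ⟨u, hu⟩ := hs v
    refine ⟨u, funext fun a => ?_⟩
    rw [← hu, QN.jm_mulVec (an_of_hol hy he).differentiableAt]
    rfl
  have h2 : Function.Injective (A.map star).vecMul := by
    obtain ⟨B, hB⟩ : ∃ B : Matrix (Fin n) (Fin p) ℂ, A * B = 1 := by
      choose u hu using fun j => h1 (Pi.single j 1)
      refine ⟨(of u)ᵀ, ?_⟩
      ext i j
      rw [one_apply, ← Pi.single_apply, ← hu j]
      rfl
    intro u v h
    have := congrArg (fun t => t ᵥ* B.map star) h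
    simpa only [vecMul_vecMul, ← map_star_mul, hB, Matrix.map_one star (star_zero ℂ) (star_one ℂ),
      vecMul_one] using this
  have h := (hw.posDef e x he).inv.mul_mul_conjTranspose_same h2
  rwa [map_star_ct] at h

theorem gm_comp (hy : ∀ a, Hol n (fun x => y x a) x) {τ : Cm p → Cm p}
    (hτ : AnalyticAt ℂ τ (y x)) :
    gm w (fun x => τ (y x)) x = (jc τ (y x)).map star * gm w y x * (jc τ (y x))ᵀ := by
  have he := at_chartAt (p := n) x
  have h := jc_comp (Φ := fun z => y ((chartAt (Cm n) x).symm z)) (σ := τ)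
    (z := chartAt (Cm n) x x) (by rwa [(chartAt (Cm n) x).left_inv he.2]) (an_of_hol hy he)
  rw [(chartAt (Cm n) x).left_inv he.2] at h
  unfold gm gmc
  rw [h, map_star_mul, transpose_mul]
  simp only [Matrix.mul_assoc]

theorem stGm : StGm := fun _ _ _ _ _ _ hw hO hy =>
  ⟨fun j k _ hx => (continuousAt_pi.1 (continuousAt_pi.1
      (gm_cont hw (mem_of_superset (hO.mem_nhds hx) hy)) j) k).continuousWithinAt,
    fun x hx => ⟨fun _ => gm_eq hw (hy x hx), gm_psd hw, fun _ => gm_pd hw (hy x hx),
      fun _ => gm_comp (hy x hx)⟩⟩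

end Vale.Agent.P281Z.Ky
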