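import Vale.Agent.P281Z.Ky.Defs
import Vale.Agent.P284Z.N.L2
import Vale.Agent.P284Z.Z.Loc
import Vale.Agent.P284Z.F.Lp
import Vale.Agent.P284.H622.Gen

/-!
# P281Z, block KY: local bounds in Bergman spaces, convex combinations, non-vanishing
-/

open scoped Topology ENNReal
open MeasureTheory Filter Set Metric
open Vale.Agent.P272.K (Cm)
open Vale.Agent.P284Z (Psh LPsh)

noncomputable section

namespace Vale.Agent.P281Z.Ky

namespace BdH

variable {p : ℕ} {W : Cm p → ℝ}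

theorem bound (hW : LPsh W (ball 0 4)) {z : Cm p} (hz : z ∈ ball (0 : Cm p) 3) :
    ∃ C : ℝ, ∀ᶠ w in 𝓝 z, ∀ g ∈ Bg W, ‖g w‖ ≤ C := by
  have : (volume : Measure (Cm p)).IsAddHaarMeasure := Measure.pi.isAddHaarMeasure _
  obtain ⟨M, hM, h1⟩ := P284Z.usc_bdd (P284Z.Z.lpsh_usc hW) (isCompact_closedBall 0 3)
    (closedBall_subset_ball (by norm_num))
  obtain ⟨r, hr, h2⟩ := Metric.isOpen_iff.1 isOpen_ball z hz
  have hρ : 0 < r / 2 := half_pos hr
  refine ⟨√(M / (volume (ball (0 : Cm p) (r / 2))).toReal), ?_⟩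
  filter_upwards [ball_mem_nhds z hρ] with w hw g hg
  have h3 : ball w (r / 2) ⊆ ball 0 3 :=
    (ball_subset_ball' (by linarith [mem_ball.1 hw])).trans h2
  have h4 := P284Z.N.mean_ball volume (fun c hc => volume_preserving_pi fun _ : Fin p =>
    (rotation (⟨c, mem_sphere_zero_iff_norm.2 hc⟩ : Circle)).measurePreserving) (hg.1.mono h3)
  have e : ∀ x, ‖g x‖ₑ ^ 2 = ENNReal.ofReal (‖g x‖ ^ 2) := fun x => by
    rw [ENNReal.ofReal_pow (norm_nonneg _), ofReal_norm]
  have hM' : ENNReal.ofReal M ≠ 0 := (ENNReal.ofReal_pos.2 hM).ne'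
  have h5 : ‖g w‖ₑ ^ 2 * volume (ball (0 : Cm p) (r / 2)) ≤ ENNReal.ofReal M := by
    refine h4.trans (le_trans ?_ ((mul_le_mul_right hg.2 (ENNReal.ofReal M)).trans_eq (mul_one _)))
    rw [← lintegral_const_mul' _ _ ENNReal.ofReal_ne_top]
    refine (lintegral_mono_set h3).trans (setLIntegral_mono' measurableSet_ball fun x hx => ?_)
    rw [e, mul_left_comm]
    refine le_mul_of_one_le_right' ?_
    rw [← ENNReal.mul_inv_cancel hM' ENNReal.ofReal_ne_top]
    exact mul_le_mul_right (ENNReal.inv_le_inv.2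
      (ENNReal.ofReal_le_ofReal (h1 x (ball_subset_closedBall hx)))) _
  have h6 := ENNReal.toReal_mono ENNReal.ofReal_ne_top h5
  rw [e, ENNReal.toReal_mul, ENNReal.toReal_ofReal (by positivity),
    ENNReal.toReal_ofReal hM.le] at h6
  exact Real.le_sqrt_of_sq_le ((le_div_iff₀ (ENNReal.toReal_pos
    (measure_ball_pos volume _ hρ).ne' measure_ball_lt_top.ne)).2 h6)

theorem jensen {a : ℕ → ℝ} {t : ℕ → ℂ} {C : ℝ} (h0 : ∀ j, 0 ≤ a j) (hs : Summable a)
    (h1 : ∑' j, a j ≤ 1) (ht : ∀ j, ‖t j‖ ≤ C) : ENNReal.ofReal (‖∑' j, (a j : ℂ) * t j‖ ^ 2) ≤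
      ∑' j, ENNReal.ofReal (a j) * ENNReal.ofReal (‖t j‖ ^ 2) := by
  have s1 : Summable fun j => a j * ‖t j‖ := Summable.of_nonneg_of_le
    (fun j => mul_nonneg (h0 j) (norm_nonneg _))
    (fun j => mul_le_mul_of_nonneg_left (ht j) (h0 j)) (hs.mul_right C)
  have s2 : Summable fun j => a j * ‖t j‖ ^ 2 := Summable.of_nonneg_of_le
    (fun j => mul_nonneg (h0 j) (sq_nonneg _))
    (fun j => mul_le_mul_of_nonneg_left (pow_le_pow_left₀ (norm_nonneg _) (ht j) 2) (h0 j))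
    (hs.mul_right (C ^ 2))
  have h2 : ‖∑' j, (a j : ℂ) * t j‖ ≤ ∑' j, a j * ‖t j‖ :=
    tsum_of_norm_bounded s1.hasSum fun j => by
      rw [norm_mul, Complex.norm_real, Real.norm_of_nonneg (h0 j)]
  simp only [← ENNReal.ofReal_mul (h0 _)]
  rw [← ENNReal.ofReal_tsum_of_nonneg (fun j => mul_nonneg (h0 j) (sq_nonneg _)) s2]
  refine ENNReal.ofReal_le_ofReal ((pow_le_pow_left₀ (norm_nonneg _) h2 2).trans ?_)
  have h3 := s1.hasSum
  generalize ∑' j, a j * ‖t j‖ = s at h3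
  have h4 := hasSum_le (fun j => ?_) ((h3.mul_left (2 * s)).sub (hs.hasSum.mul_left (s ^ 2)))
    s2.hasSum
  · nlinarith [sq_nonneg s]
  · nlinarith [mul_nonneg (h0 j) (sq_nonneg (‖t j‖ - s))]

theorem conv (hW : LPsh W (ball 0 4)) {g : ℕ → Cm p → ℂ} {a : ℕ → ℝ} (hg : ∀ j, g j ∈ Bg W)
    (h0 : ∀ j, 0 ≤ a j) (hs : Summable a) (h1 : ∑' j, a j ≤ 1) :
    (fun z => ∑' j, (a j : ℂ) * g j z) ∈ Bg W := by
  refine ⟨fun z hz => ?_, ?_⟩
  · obtain ⟨C, hC⟩ := bound hW hz
    obtain ⟨U, hU, ho, hzU⟩ :=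
      _root_.eventually_nhds_iff.1 (hC.and (isOpen_ball.mem_nhds hz))
    refine ((P284.H622.differentiableOn_tsum ho (fun j => (((hg j).1.mono fun w hw =>
      (hU w hw).2).const_mul _)) (hs.mul_right C) fun j w hw => ?_).differentiableAt
      (ho.mem_nhds hzU)).differentiableWithinAt
    rw [norm_mul, Complex.norm_real, Real.norm_of_nonneg (h0 j)]
    exact mul_le_mul_of_nonneg_left ((hU w hw).1 _ (hg j)) (h0 j)
  · have hm : AEMeasurable W (volume.restrict (ball (0 : Cm p) 3)) :=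
      P284Z.usc_aemeasurable volume ((P284Z.Z.lpsh_usc hW).mono (ball_subset_ball (by norm_num)))
        measurableSet_ball
    have h2 : ∀ j, AEMeasurable (fun z => ENNReal.ofReal (‖g j z‖ ^ 2) * (ENNReal.ofReal (W z))⁻¹)
        (volume.restrict (ball (0 : Cm p) 3)) := fun j =>
      ((((hg j).1.continuousOn.norm.pow 2).aemeasurable measurableSet_ball).ennreal_ofReal).mul
        hm.ennreal_ofReal.inv
    calc _ ≤ ∫⁻ z in ball (0 : Cm p) 3, ∑' j, ENNReal.ofReal (a j) *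
          (ENNReal.ofReal (‖g j z‖ ^ 2) * (ENNReal.ofReal (W z))⁻¹) := by
          refine setLIntegral_mono' measurableSet_ball fun z hz => ?_
          obtain ⟨C, hC⟩ := bound hW hz
          simp only [← mul_assoc, ENNReal.tsum_mul_right]
          exact mul_le_mul_left (jensen h0 hs h1 fun j => hC.self_of_nhds _ (hg j)) _
      _ ≤ ∑' j, ENNReal.ofReal (a j) := by
          rw [lintegral_tsum fun j => (h2 j).const_mul _]
          refine ENNReal.tsum_le_tsum fun j => ?_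
          rw [lintegral_const_mul' _ _ ENNReal.ofReal_ne_top]
          exact (mul_le_mul_right (hg j).2 _).trans_eq (mul_one _)
      _ ≤ 1 := by
          rw [← ENNReal.ofReal_tsum_of_nonneg h0 hs]
          exact ENNReal.ofReal_le_one.2 h1

end BdH

/-- **BD** -/
theorem stBd : StBd := fun _ _ hW =>
  ⟨fun _ hz => BdH.bound hW hz, fun _ _ hg h0 hs h1 => BdH.conv hW hg h0 hs h1⟩

/-- **NZ** -/
theorem stNz_of (h : StExt) : StNz := by
  rintro p W hW ⟨z, hz, h0⟩
  have : (volume : Measure (Cm p)).IsAddHaarMeasure := Measure.pi.isAddHaarMeasure _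
  obtain ⟨x, hx, h1⟩ := P284Z.exists_of_ae (μ := volume) (ball_mem_nhds (0 : Cm p) two_pos)
    ((hW.ae_pos (μ := volume) isOpen_ball (convex_ball _ _).isPreconnected hz h0).mono
      fun y hy hy' => hy (ball_subset_ball (by norm_num) hy'))
  obtain ⟨U, hU, h2⟩ := P284Z.Z.li_of_pos (μ := volume) isOpen_ball hW
    (ball_subset_ball (by norm_num) hx) h1 one_pos
  obtain ⟨r, hr, h3⟩ := Metric.mem_nhds_iff.1 hU
  obtain ⟨C, hC, h4⟩ := h p (min r 1) (lt_min hr one_pos) (min_le_right _ _)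
  have h5 : ∫⁻ y in ball x (min r 1), (ENNReal.ofReal (W y))⁻¹ < ⊤ := by
    simp only [ENNReal.rpow_neg_one] at h2
    exact (lintegral_mono_set ((ball_subset_ball (min_le_left _ _)).trans h3)).trans_lt h2
  generalize hI : ∫⁻ y in ball x (min r 1), (ENNReal.ofReal (W y))⁻¹ = I at h5
  have h6 : 0 < I.toReal + 1 := by positivity
  obtain ⟨G, hG, h7⟩ := h4 W x (fun _ => (((I.toReal + 1)⁻¹ : ℝ) : ℂ)) hW
    (ball_subset_closedBall hx) (differentiableOn_const _) (by
      rw [lintegral_const_mul' _ _ ENNReal.ofReal_ne_top, hI, ← ENNReal.ofReal_toReal h5.ne,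
        ← ENNReal.ofReal_mul (sq_nonneg _), ENNReal.toReal_ofReal ENNReal.toReal_nonneg,
        Complex.norm_real, Real.norm_of_nonneg (inv_nonneg.2 h6.le), ENNReal.ofReal_le_one,
        inv_pow, inv_mul_le_iff₀ (by positivity)]
      nlinarith [ENNReal.toReal_nonneg (a := I)])
  refine ⟨G, hG, x, ball_subset_ball (by norm_num) hx, fun h8 => ?_⟩
  rw [h8, mul_zero, Complex.ofReal_eq_zero] at h7
  exact (inv_pos.2 h6).ne' h7

end Vale.Agent.P281Z.Ky
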