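import Vale.Agent.P281Z.Spec
import Vale.Agent.P277Z.Pos.MSpec
import Vale.Agent.P284Y.Lib.Conv

/-!
# P281Z, block KY: the image of a compact Kähler manifold has a Kähler modification

Definitions and statements. The direct image of a power of the Kähler form is a closed positive
current (`cur`); it has local potentials (`KC`); Bergman kernels give potentials with analytic
singularities (`AC`); they become continuous on a principalization.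
-/

open scoped Manifold ContDiff Topology ComplexOrder ENNReal Matrix
open MeasureTheory Filter Set Metric
open Vale.Agent.P272.K (Cm Chart At IsHermitian IsKahler dz dzb cHess)
open Vale.Agent.P301.H599 (Fm)
open Vale.Agent.P277Z (Hol)
open Vale.Agent.P277Z.Pos (nsq PosAt FlatAt SPshAt)
open Vale.Agent.P277Z.Van (IsVol)
open Vale.Agent.P277Z.Hir (Cpb)
open Vale.Agent.P277Z.Slc (LEq Snc)
open Vale.Agent.P284Z (Psh LPsh)
open Vale.Agent.P284Y.Lib (ker cv)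

noncomputable section

namespace Vale.Agent.P281Z.Ky

/-! ### definitions in `ℂ^p` -/

section flat
variable {p : ℕ}

/-- smooth test functions -/
def Tst (U : Set (Cm p)) (ψ : Cm p → ℂ) : Prop :=
  ContDiff ℝ ∞ ψ ∧ HasCompactSupport ψ ∧ tsupport ψ ⊆ U

/-- continuous test functions -/
def Ct (U : Set (Cm p)) (ψ : Cm p → ℂ) : Prop :=
  Continuous ψ ∧ HasCompactSupport ψ ∧ tsupport ψ ⊆ U

/-- smooth at `z`, with complex Hessian zero -/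
def Fl (h : Cm p → ℝ) (z : Cm p) : Prop := ContDiffAt ℝ ∞ h z ∧ cHess h z = 0

/-- the Jacobian matrix -/
def jc {n : ℕ} (τ : Cm n → Cm p) (z : Cm n) : Matrix (Fin p) (Fin n) ℂ :=
  Matrix.of fun a j => dz j (fun w => τ w a) z

/-- the mollification of the direct image of `s μ` by `y` -/
def mo {Ω : Type} [MeasurableSpace Ω] (μ : Measure Ω) (y : Ω → Cm p) (s : Ω → ℂ) (r : ℝ)
    (z : Cm p) : ℂ := ∫ x, (ker volume r (y x - z) : ℂ) * s x ∂μ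

/-- the direct image of `S μ` by `y` -/
structure Cur (p : ℕ) (Ω : Type) [MeasurableSpace Ω] where
  μ : Measure Ω
  y : Ω → Cm p
  S : Ω → Matrix (Fin p) (Fin p) ℂ

/-- the coefficients of the current, tested against `ψ` -/
def Cur.ap {Ω : Type} [MeasurableSpace Ω] (T : Cur p Ω) (ψ : Cm p → ℂ) :
    Matrix (Fin p) (Fin p) ℂ := Matrix.of fun j k => ∫ x, ψ (T.y x) * T.S x j k ∂T.μ

/-- the current is closed and at least `c` times the standard form on `U` -/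
structure Cur.Ok {Ω : Type} [MeasurableSpace Ω] (T : Cur p Ω) (U : Set (Cm p)) (c : ℝ) : Prop where
  fin : IsFiniteMeasure T.μ
  my : AEMeasurable T.y T.μ
  mS : ∀ j k, AEStronglyMeasurable (fun x => T.S x j k) T.μ
  bd : ∃ C : ℝ, ∀ᵐ x ∂T.μ, ∀ j k, ‖T.S x j k‖ ≤ C
  psd : ∀ᵐ x ∂T.μ, (T.S x).PosSemidef
  closed : ∀ ψ, Tst U ψ → ∀ i j k, T.ap (dz k ψ) i j = T.ap (dz i ψ) k j
  low : ∀ ψ : Cm p → ℝ, Ct U (fun z => ψ z) → (∀ z, 0 ≤ ψ z) → ∀ v : Cm p,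
    c * nsq v * ∫ z, ψ z ≤ (star v ⬝ᵥ (T.ap (fun z => ψ z) *ᵥ v)).re

/-- `log P` is the decreasing limit on `U` of the smooth plurisubharmonic functions `φ m` -/
structure Apx (U : Set (Cm p)) (φ : ℕ → Cm p → ℝ) (P : Cm p → ℝ) : Prop where
  sm : ∀ m, ∀ z ∈ U, ContDiffAt ℝ ∞ (φ m) z
  psd : ∀ m, ∀ z ∈ U, (cHess (φ m) z).PosSemidef
  anti : ∀ m, ∀ z ∈ U, φ (m + 1) z ≤ φ m z
  lim : ∀ z ∈ U, Tendsto (fun m => Real.exp (φ m z)) atTop (𝓝 (P z))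
  pos : ∀ z ∈ U, ∃ᶠ w in 𝓝 z, 0 < P w

open Classical in
/-- the test function in the coordinates `w = τ z` -/
def tw (τ : Chart p (Cm p)) (ψ : Cm p → ℂ) (j k a b : Fin p) (w : Cm p) : ℂ :=
  if w ∈ τ.target then ψ (τ.symm w) * (jc τ (τ.symm w) a j * star (jc τ (τ.symm w) b k) /
    (‖(jc τ (τ.symm w)).det‖ ^ 2 : ℝ)) else 0

/-- `τ` is biholomorphic -/
def Bih (τ : Chart p (Cm p)) : Prop :=
  ∀ z ∈ τ.source, AnalyticAt ℂ τ z ∧ AnalyticAt ℂ τ.symm (τ z)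

/-- the unit ball of the Bergman space of the polydisc of radius three, with the weight `1 / W` -/
def Bg (W : Cm p → ℝ) : Set (Cm p → ℂ) :=
  {g | DifferentiableOn ℂ g (ball 0 3) ∧
    ∫⁻ z in ball (0 : Cm p) 3, ENNReal.ofReal (‖g z‖ ^ 2) * (ENNReal.ofReal (W z))⁻¹ ≤ 1}

/-- the Bergman kernel on the diagonal -/
def bg (W : Cm p → ℝ) (z : Cm p) : ℝ := sSup ((fun g : Cm p → ℂ => ‖g z‖ ^ 2) '' Bg W)

end flat

/-! ### definitions on manifolds -/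

section mfd
variable {n p : ℕ} {X Y : Type} [TopologicalSpace X] [ChartedSpace (Cm n) X] [TopologicalSpace Y]
  [ChartedSpace (Cm p) Y]

/-- `e` is a holomorphic coordinate system (maybe not in the atlas) -/
def Cd (e : Chart p Y) : Prop :=
  ∀ y ∈ e.source, ∀ e' : Chart p Y, At e' y →
    AnalyticAt ℂ (fun z => e (e'.symm z)) (e' y) ∧ AnalyticAt ℂ (fun z => e' (e.symm z)) (e y)

/-- the coordinate polydisc of radius `r` -/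
def Bl (e : Chart p Y) (r : ℝ) : Set Y := e.source ∩ e ⁻¹' ball 0 r

/-- the Gram matrix of the differentials of the components of `y`, computed in the chart `e` -/
def gmc (w : Fm n X) (y : X → Cm p) (e : Chart n X) (x : X) : Matrix (Fin p) (Fin p) ℂ :=
  (jc (fun z => y (e.symm z)) (e x)).map star * (w e (e x))⁻¹ * (jc (fun z => y (e.symm z)) (e x))ᵀ

/-- the Gram matrix of the differentials of the components of `y` -/
def gm (w : Fm n X) (y : X → Cm p) (x : X) : Matrix (Fin p) (Fin p) ℂ :=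
  gmc w y (chartAt (Cm n) x) x

/-- the direct image current in the coordinates `e` -/
def cur [MeasurableSpace X] (w : Fm n X) (μ : Measure X) (f : X → Y) (e : Chart p Y) : Cur p X :=
  ⟨μ.restrict (f ⁻¹' Bl e 5), fun x => e (f x), fun x => (gm w (fun x => e (f x)) x).adjugate⟩

variable (p) in
/-- near `y`, `Ψ` is the least upper bound of functions `|g|² exp (v a)` with `g` holomorphic and
finitely many smooth strictly plurisubharmonic `v a` -/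
def SupAt (Ψ : Y → ℝ) (y : Y) : Prop :=
  ∃ (A : Type) (_ : Finite A) (v : A → Y → ℝ) (F : A → Set (Y → ℂ)) (N : Set Y), N ∈ 𝓝 y ∧
    (∀ a, PosAt p (v a) y) ∧ (∀ a, ∀ g ∈ F a, ∀ x ∈ N, Hol p g x) ∧
    ∀ x ∈ N, IsLUB {t | ∃ a, ∃ g ∈ F a, t = ‖g x‖ ^ 2 * Real.exp (v a x)} (Ψ x)

variable (n) in
/-- local functions with the property `P`, with pluriharmonic differences -/
def Fam (P : (X → ℝ) → X → Prop) : Prop :=
  ∃ (ι : Type) (U : ι → Set X) (u : ι → X → ℝ), (∀ i, IsOpen (U i)) ∧ (∀ x, ∃ i, x ∈ U i) ∧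
    (∀ i, ∀ x ∈ U i, P (u i) x) ∧
    ∀ i j, ∀ x ∈ U i, x ∈ U j → FlatAt n (fun y => u i y - u j y) x

variable (n p) in
/-- `u` is continuous near `x`, and `u - ε |e ∘ π|²` is plurisubharmonic -/
def RPsh (π : X → Y) (u : X → ℝ) (x : X) : Prop :=
  ∃ (e' : Chart n X) (e : Chart p Y), At e' x ∧ At e (π x) ∧ ∃ ε > (0 : ℝ), ∃ N ∈ 𝓝 (e' x),
    ContinuousOn (fun z => u (e'.symm z)) N ∧
      Psh (fun z => u (e'.symm z) - ε * nsq (e (π (e'.symm z)))) N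

variable (n p) in
/-- `u + ∑ |g ∘ π|²` is strictly plurisubharmonic near `x` -/
def RPos (π : X → Y) (u : X → ℝ) (x : X) : Prop :=
  ∃ (m : ℕ) (g : Fin m → Y → ℂ), (∀ a, Hol p (g a) (π x)) ∧
    SPshAt n (fun y => u y + ∑ a, ‖g a (π y)‖ ^ 2) x

variable (n) in
/-- the pull back of the ideal is locally comparable with one function -/
def LPr (π : X → Y) (I : Idl p Y) : Prop :=
  ∀ x γ, π x ∈ I.U γ → ∃ s, Hol n s x ∧
    Cpb (𝓝 x) (fun y => ∑ i, ‖I.g γ i (π y)‖) fun y => ‖s y‖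

variable (n p) in
/-- the positivity delivered by the resolution -/
def Rel (π : X → Y) {r : ℕ} (G : Fin r → Set X) (c : Fin r → ℚ) (v : X → ℝ) : Prop :=
  ∀ y, ∃ (ζ : Fin r → X → ℂ) (m : ℕ) (g : Fin m → Y → ℂ) (h : X → ℝ),
    (∀ l, LEq n (G l) y (ζ l)) ∧ (∀ i, Hol p (g i) (π y)) ∧ SPshAt n h y ∧
    ∀ᶠ z in 𝓝 y, (∀ l, z ∉ G l) →
      h z = v z + ∑ i, ‖g i (π z)‖ ^ 2 - 2 * ∑ l, (c l : ℝ) * Real.log ‖ζ l z‖

variable (p Y) in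
/-- finitely many coordinate polydiscs -/
structure Cv where
  ι : Type
  [fin : Fintype ι]
  e : ι → Chart p Y
  cd : ∀ i, Cd (e i)
  tgt : ∀ i, closedBall 0 5 ⊆ (e i).target
  cov : ∀ y, ∃ i, y ∈ Bl (e i) 1

attribute [instance] Cv.fin

variable (p Y) in
/-- a Kähler current, given by its local potentials `log (W i) + c i |z|²` -/
structure KC extends Cv p Y where
  c : ι → ℝ
  c_pos : ∀ i, 0 < c i
  W : ι → Cm p → ℝ
  lpsh : ∀ i, LPsh (W i) (ball 0 4)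
  pos : ∀ i, ∃ z ∈ ball (0 : Cm p) 4, 0 < W i z
  h : ι → ι → Y → ℝ
  flat : ∀ i j, ∀ y ∈ Bl (e i) 4, y ∈ Bl (e j) 4 → FlatAt p (h i j) y
  chg : ∀ i j, ∀ y ∈ Bl (e i) 4, y ∈ Bl (e j) 4 → W i (e i y) * Real.exp (c i * nsq (e i y)) =
    W j (e j y) * Real.exp (c j * nsq (e j y)) * Real.exp (h i j y)
  coc : ∀ i j l, ∀ y ∈ Bl (e i) 4, y ∈ Bl (e j) 4 → y ∈ Bl (e l) 4 →
    h i j y + h j l y = h i l y

/-- the local approximations -/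
def KC.Q (K : KC p Y) (k : ℕ) (i : K.ι) (y : Y) : ℝ :=
  bg (fun z => K.W i z ^ k) (K.e i y) * Real.exp (k * (K.c i * nsq (K.e i y)))

/-- the comparison of the local approximations, with the constant `D` -/
def KC.Cmp (K : KC p Y) (k : ℕ) (D : ℝ) : Prop :=
  ∀ i j, ∀ y ∈ Bl (K.e i) 2, y ∈ Bl (K.e j) 2 →
    K.Q k i y ≤ D * (K.Q k j y * Real.exp (k * K.h i j y))

variable (p Y) in
/-- a Kähler current with analytic singularities -/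
structure AC where
  I : Idl p Y
  thin : Dense I.Zᶜ
  ι : Type
  O : ι → Set Y
  isOpen : ∀ i, IsOpen (O i)
  cover : ∀ y, ∃ i, y ∈ O i
  Ψ : ι → Y → ℝ
  h : ι → ι → Y → ℝ
  flat : ∀ i j, ∀ y ∈ O i, y ∈ O j → FlatAt p (h i j) y
  chg : ∀ i j, ∀ y ∈ O i, y ∈ O j → Ψ i y = Ψ j y * Real.exp (h i j y)
  sup : ∀ i, ∀ y ∈ O i, SupAt p (Ψ i) y
  cpb : ∀ i γ, ∀ y ∈ O i, y ∈ I.U γ → Cpb (𝓝 y) (Ψ i) fun x => (∑ l, ‖I.g γ l x‖) ^ 2

end mfd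

/-! ### statements: linear algebra and measure theory -/

/-- **MAT** -/
def StMat : Prop :=
  ∀ (n p : ℕ) (w : Matrix (Fin n) (Fin n) ℂ) (A B : Matrix (Fin p) (Fin n) ℂ)
    (α : Matrix (Fin p) (Fin p) ℂ) (t : ℂ), IsUnit w.det →
    t ^ p • (B * (t • w + Aᵀ * α * B).adjugate * Aᵀ) =
      (t ^ n * w.det) • ((t • 1 + B * w⁻¹ * Aᵀ * α).adjugate * (B * w⁻¹ * Aᵀ))

/-- **ADJ** -/
def StAdj : Prop :=
  ∀ (p : ℕ) (G : Matrix (Fin p) (Fin p) ℂ), G.PosSemidef → G.adjugate.PosSemidef ∧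
    ∀ v : Cm p, G.det.re * nsq v ≤ G.trace.re * (star v ⬝ᵥ (G.adjugate *ᵥ v)).re

/-- **EXTR** -/
def StExtr : Prop :=
  ∀ (p : ℕ) (Ω : Type) [MeasurableSpace Ω] (μ : Measure Ω) [IsFiniteMeasure μ]
    (G : Ω → Matrix (Fin p) (Fin p) ℂ) (a : Ω → Fin p → ℂ) (C : ℝ),
    (∀ i j, AEStronglyMeasurable (fun x => G x i j) μ) →
    (∀ i, AEStronglyMeasurable (fun x => a x i) μ) →
    (∀ᵐ x ∂μ, (∀ i j, ‖G x i j‖ ≤ C) ∧ ∀ i, ‖a x i‖ ≤ C) →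
    (∀ (α : Matrix (Fin p) (Fin p) ℂ) (t : ℂ), t ≠ 0 → ∀ k,
      ∫ x, ∑ m, a x m * ((t • 1 + G x * α).adjugate * G x) k m ∂μ = 0) →
    (∀ k, ∫ x, a x k * (G x).det ∂μ = 0) ∧
      ∀ i j k, ∫ x, a x k * (G x).adjugate i j ∂μ = ∫ x, a x i * (G x).adjugate k j ∂μ

/-- **MOLL** -/
def StMoll : Prop :=
  ∀ (p : ℕ) (Ω : Type) [MeasurableSpace Ω] (μ : Measure Ω) [IsFiniteMeasure μ] (y : Ω → Cm p)
    (s : Ω → ℂ) (C : ℝ), AEMeasurable y μ → AEStronglyMeasurable s μ → (∀ᵐ x ∂μ, ‖s x‖ ≤ C) →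
    (∀ r > (0 : ℝ), ContDiff ℝ ∞ (mo μ y s r) ∧ ∀ z k,
      dz k (mo μ y s r) z = -∫ x, dz k (fun w => (ker volume r (w - z) : ℂ)) (y x) * s x ∂μ ∧
      dzb k (mo μ y s r) z = -∫ x, dzb k (fun w => (ker volume r (w - z) : ℂ)) (y x) * s x ∂μ) ∧
    (∀ r > (0 : ℝ), ∀ r' > (0 : ℝ), ∀ z, ∫ w, (ker volume r' w : ℂ) * mo μ y s r (z + w) =
      ∫ w, (ker volume r w : ℂ) * mo μ y s r' (z + w)) ∧
    ∀ ψ, Ct univ ψ → Tendsto (fun r => ∫ z, ψ z * mo μ y s r z) (𝓝[>] 0)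
      (𝓝 (∫ x, ψ (y x) * s x ∂μ))

/-- **FIB**: the volume of the fibres is constant -/
def StFib : Prop :=
  ∀ (p : ℕ) (Ω : Type) [MeasurableSpace Ω] (μ : Measure Ω) [IsFiniteMeasure μ] (y : Ω → Cm p)
    (D : Ω → ℝ) (C R : ℝ), AEMeasurable y μ → AEStronglyMeasurable D μ → (∀ᵐ x ∂μ, |D x| ≤ C) →
    (∀ ψ, Tst (ball 0 R) ψ → ∀ k, ∫ x, dz k ψ (y x) * D x ∂μ = 0) →
    ∃ V : ℝ, ∀ ψ, Ct (ball 0 R) ψ → ∫ x, ψ (y x) * D x ∂μ = V * ∫ z, ψ z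

/-! ### statements: potentials in `ℂ^p` -/

/-- **STL**: the theorem of Stokes in a chart -/
def StStl : Prop :=
  ∀ (n : ℕ) (U : Set (Cm n)) (M : Cm n → Matrix (Fin n) (Fin n) ℂ) (u : Cm n → ℂ)
    (b : Cm n → Fin n → ℂ), IsOpen U → (∀ z ∈ U, ∀ i j, ContDiffAt ℝ ∞ (fun y => M y i j) z) →
    (∀ z ∈ U, ∀ i k l, dz i (fun y => M y k l) z = dz k (fun y => M y i l) z) → Tst U u →
    (∀ z ∈ U, ∀ l, ContDiffAt ℝ ∞ (fun y => b y l) z ∧ ∀ r, dz r (fun y => b y l) z = 0) →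
    ∫ z in U, ∑ r, ∑ l, (M z).adjugate l r * (dz r u z * b z l) = 0

/-- **MONO**: a decreasing sequence of potentials -/
def StMono : Prop :=
  ∀ (p : ℕ) (r : ℕ → ℝ) (ψ : ℕ → Cm p → ℝ), (∀ m, 0 < r m ∧ r m ≤ 1 / 10) →
    Tendsto r atTop (𝓝 0) → (∀ m, ContDiff ℝ ∞ (ψ m)) →
    (∀ m, ∀ z ∈ ball (0 : Cm p) (48 / 10), (cHess (ψ m) z).PosSemidef) →
    (∀ m l, ∀ z ∈ ball (0 : Cm p) (47 / 10),
      cHess (cv volume (r l) (ψ m)) z = cHess (cv volume (r m) (ψ l)) z) →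
    ∃ (s : ℕ → ℕ) (φ : ℕ → Cm p → ℝ) (P : Cm p → ℝ), StrictMono s ∧ Apx (ball 0 4) φ P ∧
      ∀ m, ∀ z ∈ ball (0 : Cm p) 4, cHess (φ m) z = cHess (ψ (s m)) z

/-- **POT**: potentials of a closed positive current -/
def StPot : Prop :=
  ∀ (p : ℕ) (Ω : Type) [MeasurableSpace Ω] (T : Cur p Ω) (c : ℝ), 0 ≤ c → T.Ok (ball 0 5) c →
    ∃ φ P, Apx (ball 0 4) φ P ∧ LPsh (fun z => P z * Real.exp (-(c * nsq z))) (ball 0 4) ∧
      ∀ ψ, Ct (ball 0 4) ψ → ∀ j k,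
        Tendsto (fun m => ∫ z, ψ z * cHess (φ m) z j k) atTop (𝓝 (T.ap ψ j k))

/-- **UNIQ**: two potentials of the same current -/
def StUniq : Prop :=
  ∀ (p : ℕ) (U : Set (Cm p)) (φ φ' : ℕ → Cm p → ℝ) (P P' : Cm p → ℝ), IsOpen U → Apx U φ P →
    Apx U φ' P' → (∀ ψ, Ct U ψ → ∀ j k, Tendsto (fun m => (∫ z, ψ z * cHess (φ m) z j k) -
      ∫ z, ψ z * cHess (φ' m) z j k) atTop (𝓝 0)) →
    ∃ h : Cm p → ℝ, ∀ z ∈ U, Fl h z ∧ P z = P' z * Real.exp (h z)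

/-- **CHG**: change of coordinates -/
def StChg : Prop :=
  ∀ (p : ℕ) (τ : Chart p (Cm p)) (U : Set (Cm p)), Bih τ → IsOpen U → U ⊆ τ.source →
    (∀ φ P, Apx (τ '' U) φ P → Apx U (fun m z => φ m (τ z)) fun z => P (τ z)) ∧
    ∀ ψ, Ct U ψ → ∀ j k, (∀ a b, Ct (τ '' U) (tw τ ψ j k a b)) ∧
      ∀ φ : Cm p → ℝ, (∀ z ∈ U, ContDiffAt ℝ ∞ φ (τ z)) →
        ∫ z, ψ z * cHess (fun z => φ (τ z)) z j k =
          ∑ a, ∑ b, ∫ w, tw τ ψ j k a b w * cHess φ w a b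

/-- **UNIT** -/
def StUnit : Prop :=
  ∀ (p : ℕ) (U : Set (Cm p)) (s s' : Cm p → ℂ) (D : Cm p → ℝ), IsOpen U → AnalyticOnNhd ℂ s U →
    AnalyticOnNhd ℂ s' U → U ⊆ closure {z ∈ U | s z ≠ 0} → ContinuousOn D U →
    (∀ z ∈ U, s z ≠ 0 → ‖s' z‖ ^ 2 = ‖s z‖ ^ 2 * Real.exp (D z)) → ∀ z ∈ U, Fl D z

/-- **SUP** -/
def StSup : Prop :=
  ∀ (p : ℕ) (U : Set (Cm p)) (s : Cm p → ℂ) (A : Type) [Finite A] (v : A → Cm p → ℝ)
    (F : A → Set (Cm p → ℂ)) (R : Cm p → ℝ) (C : ℝ), IsOpen U → AnalyticOnNhd ℂ s U →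
    U ⊆ closure {z ∈ U | s z ≠ 0} → (∀ a, ContinuousOn (v a) U ∧ Psh (v a) U) →
    (∀ a, ∀ g ∈ F a, AnalyticOnNhd ℂ g U) →
    (∀ z ∈ U, IsLUB {t | ∃ a, ∃ g ∈ F a, t = ‖g z‖ ^ 2 * Real.exp (v a z)} (R z)) → 0 < C →
    (∀ z ∈ U, R z ≤ C * ‖s z‖ ^ 2 ∧ ‖s z‖ ^ 2 ≤ C * R z) →
    ∃ u : Cm p → ℝ, ContinuousOn u U ∧ Psh u U ∧ ∀ z ∈ U, R z = ‖s z‖ ^ 2 * Real.exp (u z)

/-! ### statements: Bergman spaces -/

/-- **BD**: local bounds, and countable convex combinations -/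
def StBd : Prop :=
  ∀ (p : ℕ) (W : Cm p → ℝ), LPsh W (ball 0 4) →
    (∀ z ∈ ball (0 : Cm p) 3, ∃ C : ℝ, ∀ᶠ w in 𝓝 z, ∀ g ∈ Bg W, ‖g w‖ ≤ C) ∧
    ∀ (g : ℕ → Cm p → ℂ) (a : ℕ → ℝ), (∀ j, g j ∈ Bg W) → (∀ j, 0 ≤ a j) → Summable a →
      ∑' j, a j ≤ 1 → (fun z => ∑' j, (a j : ℂ) * g j z) ∈ Bg W

/-- **EXT**: extension from a small polydisc, with a constant which does not depend on `W` -/
def StExt : Prop :=
  ∀ (p : ℕ) (δ : ℝ), 0 < δ → δ ≤ 1 → ∃ C : ℝ, 0 < C ∧ ∀ (W : Cm p → ℝ) (x : Cm p) (g : Cm p → ℂ),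
    LPsh W (ball 0 4) → x ∈ closedBall (0 : Cm p) 2 → DifferentiableOn ℂ g (ball x δ) →
    ∫⁻ z in ball x δ, ENNReal.ofReal (‖g z‖ ^ 2) * (ENNReal.ofReal (W z))⁻¹ ≤ 1 →
    ∃ G ∈ Bg W, g x = C * G x

/-- **FG**: finitely many functions dominate the Bergman space near a point -/
def StFg : Prop :=
  ∀ (p : ℕ) (W : Cm p → ℝ), LPsh W (ball 0 4) → ∀ x ∈ ball (0 : Cm p) 3,
    ∃ (N : ℕ) (g : Fin N → Cm p → ℂ) (C : ℝ), (∀ l, g l ∈ Bg W) ∧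
      ∀ᶠ z in 𝓝 x, ∀ f ∈ Bg W, ‖f z‖ ≤ C * ∑ l, ‖g l z‖

/-- **NZ** -/
def StNz : Prop :=
  ∀ (p : ℕ) (W : Cm p → ℝ), LPsh W (ball 0 4) → (∃ z ∈ ball (0 : Cm p) 4, 0 < W z) →
    ∃ g ∈ Bg W, ∃ z ∈ ball (0 : Cm p) 3, g z ≠ 0

/-- **CMP**: comparison of the Bergman spaces of two charts -/
def StCmp : Prop :=
  ∀ (p : ℕ) (τ : Chart p (Cm p)) (U K : Set (Cm p)) (W W' T : Cm p → ℝ), Bih τ → IsOpen U →
    U ⊆ τ.source → U ⊆ ball 0 3 → MapsTo τ U (ball 0 3) → IsCompact K → K ⊆ U →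
    MapsTo τ K (closedBall 0 2) → LPsh W (ball 0 4) → LPsh W' (ball 0 4) →
    ContinuousOn T U → (∀ z ∈ U, W z = W' (τ z) * Real.exp (T z)) →
    ∀ η > (0 : ℝ), ∃ C : ℝ, 0 < C ∧ ∀ k : ℕ, ∀ x ∈ K, ∀ g ∈ Bg fun z => W z ^ k,
      ∃ G ∈ Bg fun z => W' z ^ k, ‖g x‖ ^ 2 ≤ C * Real.exp (k * (η + T x)) * ‖G (τ x)‖ ^ 2

/-! ### statements on manifolds -/

/-- **CD**: coordinate systems -/
def StCd : Prop :=
  ∀ (p : ℕ) (Y : Mf p), Nonempty (Cv p Y.X) ∧ (∀ e : Chart p Y.X, e ∈ atlas (Cm p) Y.X → Cd e) ∧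
    (∀ e e' : Chart p Y.X, Cd e → Cd e' → Bih (e.symm.trans e')) ∧
    ∀ e : Chart p Y.X, Cd e → ∀ y ∈ e.source,
      (∀ g, Hol p g y ↔ AnalyticAt ℂ (fun z => g (e.symm z)) (e y)) ∧
      (∀ u, FlatAt p u y ↔ Fl (fun z => u (e.symm z)) (e y)) ∧
      (∀ u, PosAt p u y ↔ ContDiffAt ℝ ∞ (fun z => u (e.symm z)) (e y) ∧
        (cHess (fun z => u (e.symm z)) (e y)).PosDef) ∧
      ∀ (n : ℕ) (V : Mf n) (f : V.X → Y.X) (x : V.X), HolM n p f → f x = y →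
        (∀ a, Hol n (fun x => e (f x) a) x) ∧ (∀ g, Hol p g y → Hol n (fun x => g (f x)) x) ∧
        ∀ u, FlatAt p u y → FlatAt n (fun x => u (f x)) x

/-- **GM**: the Gram matrix -/
def StGm : Prop :=
  ∀ (n p : ℕ) (V : Mf n) (w : Fm n V.X) (y : V.X → Cm p) (O : Set V.X), IsHermitian w → IsOpen O →
    (∀ x ∈ O, ∀ a, Hol n (fun x => y x a) x) →
    (∀ j k, ContinuousOn (fun x => gm w y x j k) O) ∧ ∀ x ∈ O,
      (∀ e, At e x → gm w y x = gmc w y e x) ∧ (gm w y x).PosSemidef ∧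
      (∀ e : Chart n V.X, At e x → Function.Surjective (fderiv ℂ (fun z => y (e.symm z)) (e x)) →
        (gm w y x).PosDef) ∧
      ∀ τ : Cm p → Cm p, AnalyticAt ℂ τ (y x) →
        gm w (fun x => τ (y x)) x = (jc τ (y x)).map star * gm w y x * (jc τ (y x))ᵀ

/-- **STG**: the theorem of Stokes on the manifold -/
def StStg : Prop :=
  ∀ (n p : ℕ) (V : Mf n) [MeasurableSpace V.X] [BorelSpace V.X] (w : Fm n V.X) (μ : Measure V.X)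
    (O : Set V.X) (y : V.X → Cm p) (ψ : Cm p → ℂ) (α : Matrix (Fin p) (Fin p) ℂ) (t : ℂ),
    IsKahler w → IsVol w μ → IsOpen O → (∀ x ∈ O, ∀ a, Hol n (fun x => y x a) x) →
    ContDiff ℝ ∞ ψ → IsCompact {x ∈ O | y x ∈ tsupport ψ} → t ≠ 0 → ∀ k,
    ∫ x in O, ∑ m, dz m ψ (y x) * ((t • 1 + gm w y x * α).adjugate * gm w y x) k m ∂μ = 0

/-- **CUR**: the direct image is a Kähler current -/
def StCur : Prop :=
  ∀ (n p : ℕ) (V : Mf n) (Y : Mf p) [MeasurableSpace V.X] [BorelSpace V.X] (w : Fm n V.X)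
    (μ : Measure V.X) (f : V.X → Y.X) (e : Chart p Y.X), IsKahler w → IsVol w μ → HolM n p f →
    Function.Surjective f → Cd e → closedBall 0 5 ⊆ e.target →
    ∃ c > (0 : ℝ), (cur w μ f e).Ok (ball 0 5) c

/-- **CMT**: the currents of two charts are compatible -/
def StCmt : Prop :=
  ∀ (n p : ℕ) (V : Mf n) (Y : Mf p) [MeasurableSpace V.X] [BorelSpace V.X] (w : Fm n V.X)
    (μ : Measure V.X) (f : V.X → Y.X) (e e' : Chart p Y.X) (c : ℝ) (U : Set (Cm p))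
    (ψ : Cm p → ℂ), IsHermitian w → HolM n p f → Cd e → Cd e' →
    (cur w μ f e').Ok (ball 0 5) c → IsOpen U → U ⊆ (e.symm.trans e').source → U ⊆ ball 0 5 →
    MapsTo (e.symm.trans e') U (ball 0 5) → Ct U ψ → ∀ j k,
    ∑ a, ∑ b, (cur w μ f e').ap (tw (e.symm.trans e') ψ j k a b) a b = (cur w μ f e).ap ψ j k

/-- **KC** -/
def StKC : Prop :=
  ∀ (n p : ℕ) (V : Mf n) (Y : Mf p) (f : V.X → Y.X), V.Kah → HolM n p f → Function.Surjective f →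
    Nonempty (KC p Y.X)

/-- **CMY**: the comparison on the manifold -/
def StCmy : Prop :=
  ∀ (p : ℕ) (Y : Mf p) (K : KC p Y.X), ∀ η > (0 : ℝ), ∃ C : ℝ, 1 ≤ C ∧ ∀ k : ℕ,
    K.Cmp k (C * Real.exp (k * η))

/-- **IDL**: the ideal of the singularities -/
def StIdl : Prop :=
  ∀ (p : ℕ) (Y : Mf p) (K : KC p Y.X) (k : ℕ) (D : ℝ), 0 < D → K.Cmp k D →
    ∃ I : Idl p Y.X, Dense I.Zᶜ ∧ ∀ i γ, ∀ y ∈ Bl (K.e i) 2, y ∈ I.U γ →
      Cpb (𝓝 y) (K.Q k i) fun x => (∑ l, ‖I.g γ l x‖) ^ 2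

/-- **GL**: gluing -/
def StGl : Prop := ∀ (p : ℕ) (Y : Mf p), KC p Y.X → Nonempty (AC p Y.X)

/-- **UP**: the potentials are continuous on the principalization -/
def StUp : Prop :=
  ∀ (p : ℕ) (V Y : Mf p) (π : V.X → Y.X) (A : AC p Y.X), HolM p p π → Dense (π ⁻¹' A.I.Z)ᶜ →
    LPr p π A.I → Fam p (RPsh p p π)

/-- **REL** -/
def StRel : Prop :=
  ∀ (n p : ℕ) (V : Mf n) (Y : Mf p) (π : V.X → Y.X) (r : ℕ) (G : Fin r → Set V.X) (c : Fin r → ℚ)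
    (v : V.X → ℝ), HolM n p π → (∀ l, 0 < c l) → Rel n p π G c v → Fam n (RPos n p π)

/-- **KUP** -/
def StKup : Prop :=
  ∀ (n p : ℕ) (V : Mf n) (Y : Mf p) (π : V.X → Y.X), HolM n p π → Fam n (RPos n p π) →
    Fam n (RPsh n p π) → V.Kah

/-- **RESP**: principalization, with relative positivity -/
def StResp : Prop :=
  ∀ (p : ℕ) (Y : Mf p) (I : Idl p Y.X), Dense I.Zᶜ →
    ∃ (V : Mf p) (π : V.X → Y.X) (r : ℕ) (G : Fin r → Set V.X) (c : Fin r → ℚ) (v : V.X → ℝ),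
      Modif p π I.Z ∧ LPr p π I ∧ (∀ l, 0 < c l) ∧ Rel p p π G c v

theorem ky_of (h1 : StKC) (h2 : StGl) (h3 : StResp) (h4 : StUp) (h5 : StRel) (h6 : StKup) : KY := by
  intro n p V Y f _ hV hf hs
  obtain ⟨K⟩ := h1 n p V Y f hV hf hs
  obtain ⟨A⟩ := h2 p Y K
  obtain ⟨Y₁, π, r, G, c, v, k1, k2, k3, k4⟩ := h3 p Y A.I A.thin
  exact ⟨Y₁, π, _, k1, h6 p p Y₁ Y π k1.2.hol (h5 p p Y₁ Y π r G c v k1.2.hol k3 k4)
    (h4 p Y₁ Y π A k1.2.hol k1.2.dense k2)⟩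

end Vale.Agent.P281Z.Ky
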