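import Vale.Agent.P281Z.Ky.Defs
import Vale.Agent.P284Z.F.Lp
import Vale.Agent.P284Z.F0.Levi
import Vale.Agent.P272.K.C2.Wirt

/-!
# P281Z, block KY, row MONO: a decreasing sequence of potentials
-/

open scoped ContDiff Topology ComplexOrder
open MeasureTheory Filter Set Metric
open Vale.Agent.P272.K (Cm cHess)
open Vale.Agent.P272.K.C2 (cHess_sub cHess_neg cHess_add cHess_const cHess_congr)
open Vale.Agent.P284Z Vale.Agent.P284Y.Lib

noncomputable section

namespace Vale.Agent.P281Z.Ky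

namespace MonoAux

variable {p : ℕ} {a b R R' : ℝ} {u v : Cm p → ℝ} {z : Cm p}

theorem two (h : ContDiff ℝ ∞ u) (z : Cm p) : ContDiffAt ℝ 2 u z :=
  h.contDiffAt.of_le (by norm_cast)

theorem itg (h : Continuous u) (z : Cm p) (a : ℝ) : IntegrableOn u (closedBall z a) :=
  h.continuousOn.integrableOn_compact (isCompact_closedBall z a)

theorem cv_sm (ha : 0 < a) (h : Continuous u) : ContDiff ℝ ∞ (cv volume a u) :=
  contDiff_iff_contDiffAt.2 fun _ => cv_smooth ha isOpen_univ (lc_cont h.continuousOn)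
    (subset_univ _)

theorem cv_comm (ha : 0 < a) (hb : 0 < b) (h : Continuous u) (z : Cm p) :
    cv volume a (cv volume b u) z = cv volume b (cv volume a u) z := by
  have h1 : Integrable (Function.uncurry fun w w' : Cm p =>
      ker volume a w * (ker volume b w' * u (z + w + w'))) (volume.prod volume) := by
    have k1 := (ker_sm (μ := (volume : Measure (Cm p))) a).continuous
    have k2 := (ker_sm (μ := (volume : Measure (Cm p))) b).continuous
    refine Continuous.integrable_of_hasCompactSupport (by unfold Function.uncurry; fun_prop)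
      (.intro ((isCompact_closedBall 0 a).prod (isCompact_closedBall 0 b)) fun q hq => ?_)
    rw [mem_prod, not_and_or, mem_closedBall_zero_iff, mem_closedBall_zero_iff, not_le,
      not_le] at hq
    rcases hq with hq | hq
    · simp only [Function.uncurry, ker_zero ha hq, zero_mul]
    · simp only [Function.uncurry, ker_zero hb hq, zero_mul, mul_zero]
  simp only [cv, ← integral_const_mul]
  rw [integral_integral_swap h1]
  simp only [mul_left_comm (ker volume a _), add_right_comm z]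

theorem cb_sub (hz : z ∈ ball (0 : Cm p) R) (ha : a ≤ 1 / 10) (h : R + 1 / 10 ≤ R') :
    closedBall z a ⊆ ball 0 R' :=
  closedBall_subset_ball' (by linarith [mem_ball.1 hz])

theorem cv_flat (ha : 0 < a) (h : ContDiff ℝ ∞ u) (h0 : ∀ y ∈ ball (0 : Cm p) R, cHess u y = 0)
    (hz : closedBall z a ⊆ ball 0 R) : cv volume a u z = u z :=
  cv_eq_self ha isOpen_ball h.continuous.continuousOn
    (psh_of_cHess fun y hy => ⟨two h y, h0 y hy ▸ .zero⟩)
    (psh_of_cHess fun y hy => ⟨(two h y).neg, by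
      rw [cHess_neg (two h y), h0 y hy, neg_zero]
      exact .zero⟩) hz

/-- normalised potentials -/
theorem normal {r : ℕ → ℝ} {ψ : ℕ → Cm p → ℝ} (hr : ∀ m, 0 < r m ∧ r m ≤ 1 / 10)
    (hs : ∀ m, ContDiff ℝ ∞ (ψ m)) (hc : ∀ m l, ∀ z ∈ ball (0 : Cm p) (47 / 10),
      cHess (cv volume (r l) (ψ m)) z = cHess (cv volume (r m) (ψ l)) z) :
    ∃ f : ℕ → Cm p → ℝ, (∀ m, ContDiff ℝ ∞ (f m)) ∧
      (∀ m, ∀ z ∈ ball (0 : Cm p) (47 / 10), cHess (f m) z = cHess (ψ m) z) ∧
      (∀ m, cv volume (r 0) (f m) 0 = cv volume (r m) (ψ 0) 0) ∧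
      ∀ m l, ∀ z ∈ ball (0 : Cm p) (45 / 10),
        cv volume (r l) (f m) z = cv volume (r m) (f l) z := by
  have s1 : ∀ m l, ContDiff ℝ ∞ (cv volume (r l) (ψ m)) := fun m l =>
    cv_sm (hr l).1 (hs m).continuous
  set h : ℕ → Cm p → ℝ := fun m z => cv volume (r 0) (ψ m) z - cv volume (r m) (ψ 0) z
  have s2 : ∀ m, ContDiff ℝ ∞ (h m) := fun m => (s1 m 0).sub (s1 0 m)
  have h1 : ∀ m, ∀ z ∈ ball (0 : Cm p) (47 / 10), cHess (h m) z = 0 := fun m z hz => by
    rw [cHess_sub (two (s1 m 0) z) (two (s1 0 m) z), hc m 0 z hz, sub_self]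
  set f : ℕ → Cm p → ℝ := fun m z => ψ m z - h m z
  have s3 : ∀ m, ContDiff ℝ ∞ (f m) := fun m => (hs m).sub (s2 m)
  have s4 : ∀ m l, ContDiff ℝ ∞ (cv volume (r l) (f m)) := fun m l =>
    cv_sm (hr l).1 (s3 m).continuous
  have h2 : ∀ m l, ∀ z ∈ ball (0 : Cm p) (46 / 10),
      cv volume (r l) (f m) z = cv volume (r l) (ψ m) z - h m z := fun m l z hz => by
    rw [cv_sub (hr l).1 (itg (hs m).continuous _ _) (itg (s2 m).continuous _ _),
      cv_flat (hr l).1 (s2 m) (h1 m) (cb_sub hz (hr l).2 (by norm_num))]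
  have h3 : ∀ m, ∀ z ∈ ball (0 : Cm p) (46 / 10),
      cv volume (r 0) (f m) z = cv volume (r m) (ψ 0) z := fun m z hz => by
    rw [h2 m 0 z hz, sub_sub_cancel]
  have h4 : ∀ m l, ∀ z ∈ ball (0 : Cm p) (46 / 10),
      cHess (cv volume (r l) (f m)) z = cHess (cv volume (r l) (ψ m)) z := fun m l z hz => by
    rw [cHess_congr (mem_of_superset (isOpen_ball.mem_nhds hz) (h2 m l)),
      cHess_sub (two (s1 m l) z) (two (s2 m) z), h1 m z (ball_subset_ball (by norm_num) hz),
      sub_zero]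
  have h5 : ∀ m l, ∀ z ∈ ball (0 : Cm p) (45 / 10), cv volume (r 0) (cv volume (r l) (f m)) z =
      cv volume (r l) (cv volume (r m) (ψ 0)) z := fun m l z hz => by
    rw [cv_comm (hr 0).1 (hr l).1 (s3 m).continuous]
    exact cv_congr (hr l).1 fun y hy => h3 m y (cb_sub hz (hr l).2 (by norm_num) hy)
  refine ⟨f, s3, fun m z hz => ?_, fun m => h3 m 0 (mem_ball_self (by norm_num)),
    fun m l z hz => ?_⟩
  · rw [cHess_sub (two (hs m) z) (two (s2 m) z), h1 m z hz, sub_zero]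
  · rw [← sub_eq_zero, ← cv_flat (R := 46 / 10) (hr 0).1 ((s4 m l).sub (s4 l m)) (fun y hy => ?_)
      (cb_sub hz (hr 0).2 (by norm_num)),
      cv_sub (hr 0).1 (itg (s4 m l).continuous _ _) (itg (s4 l m).continuous _ _), h5 m l z hz,
      h5 l m z hz, cv_comm (hr l).1 (hr m).1 (hs 0).continuous, sub_self]
    rw [cHess_sub (two (s4 m l) y) (two (s4 l m) y), h4 m l y hy, h4 l m y hy,
      hc m l y (ball_subset_ball (by norm_num) hy), sub_self]

theorem cv_unif {r : ℕ → ℝ} (hr : ∀ m, 0 < r m ∧ r m ≤ 1 / 10) (h0 : Tendsto r atTop (𝓝 0))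
    (h : Continuous u) {η : ℝ} (hη : 0 < η) :
    ∀ᶠ m in atTop, ∀ z ∈ ball (0 : Cm p) 4, cv volume (r m) u z ≤ u z + η := by
  obtain ⟨δ, hδ, k⟩ := Metric.uniformContinuousOn_iff.1
    ((isCompact_closedBall (0 : Cm p) 5).uniformContinuousOn_of_continuous h.continuousOn) η hη
  filter_upwards [h0.eventually (gt_mem_nhds hδ)] with m hm z hz
  refine cv_le (hr m).1 (itg h _ _) fun y hy => ?_
  have := k y (ball_subset_closedBall (cb_sub hz (hr m).2 (by norm_num) hy)) z
    (ball_subset_closedBall (ball_subset_ball (by norm_num) hz)) (lt_of_le_of_lt hy hm)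
  linarith [(abs_lt.1 this).2]

end MonoAux

open MonoAux in
theorem stMono : StMono := by
  intro p r ψ hr h0 hs hp hc
  obtain ⟨f, s1, h1, h2, h3⟩ := normal hr hs hc
  have p1 : ∀ m, ∀ z ∈ ball (0 : Cm p) (47 / 10), (cHess (f m) z).PosSemidef := fun m z hz =>
    h1 m z hz ▸ hp m z (ball_subset_ball (by norm_num) hz)
  have h4 : ∀ l k : ℕ, ∃ m, l < m ∧ ∀ z ∈ ball (0 : Cm p) 4, f m z ≤ f l z + 2⁻¹ ^ (k + 1) :=
    fun l k => by
    refine ((eventually_gt_atTop l).and ((cv_unif hr h0 (s1 l).continuous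
      (η := 2⁻¹ ^ (k + 1)) (by positivity)).mono fun m hm z hz => ?_)).exists
    refine le_trans ?_ (hm z hz)
    rw [← h3 m l z (ball_subset_ball (by norm_num) hz)]
    exact self_le_cv (hr l).1 isOpen_ball (psh_of_cHess fun y hy => ⟨two (s1 m) y, p1 m y hy⟩)
      (.of_cont (s1 m).continuous.continuousOn) (cb_sub hz (hr l).2 (by norm_num))
  choose N hN hN' using h4
  set s : ℕ → ℕ := fun k => Nat.rec 0 (fun k l => N l k) k
  set φ : ℕ → Cm p → ℝ := fun m z => f (s m) z + 2⁻¹ ^ m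
  have s2 : ∀ m, ContDiff ℝ ∞ (φ m) := fun m => (s1 _).add contDiff_const
  have b1 : ball (0 : Cm p) 4 ⊆ ball 0 (47 / 10) := ball_subset_ball (by norm_num)
  have h5 : ∀ m z, cHess (φ m) z = cHess (f (s m)) z := fun m z => by
    rw [cHess_add (two (s1 _) z) contDiffAt_const, cHess_const, add_zero]
  have h6 : ∀ m, ∀ z ∈ ball (0 : Cm p) 4, φ (m + 1) z ≤ φ m z := fun m z hz => by
    have := hN' (s m) m z hz
    show f (N (s m) m) z + 2⁻¹ ^ (m + 1) ≤ f (s m) z + 2⁻¹ ^ m
    rw [pow_succ] at this ⊢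
    linarith
  have h7 : ∀ z ∈ ball (0 : Cm p) 4, Antitone fun m => Real.exp (φ m z) := fun z hz =>
    antitone_nat_of_succ_le fun m => Real.exp_le_exp.2 (h6 m z hz)
  have h8 : ∀ z, BddBelow (range fun m => Real.exp (φ m z)) := fun z =>
    ⟨0, forall_mem_range.2 fun _ => (Real.exp_pos _).le⟩
  have h9 : ∀ z ∈ ball (0 : Cm p) 4, Tendsto (fun m => Real.exp (φ m z)) atTop
      (𝓝 (⨅ m, Real.exp (φ m z))) := fun z hz => tendsto_atTop_ciInf (h7 z hz) (h8 z)
  have p2 : ∀ m, ∀ z ∈ ball (0 : Cm p) 4, (cHess (φ m) z).PosSemidef := fun m z hz =>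
    h5 m z ▸ p1 _ z (b1 hz)
  have hL : LPsh (fun z => ⨅ m, Real.exp (φ m z)) (ball 0 4) := by
    refine lpsh_of_lim (upperSemicontinuousOn_ciInf (fun z _ => h8 z) fun m =>
      (s2 m).continuous.rexp.continuousOn.upperSemicontinuousOn) (.of_forall fun m =>
        (psh_of_cHess fun y hy => ⟨two (s2 m) y, p2 m y hy⟩).lpsh_exp
          (.of_cont (s2 m).continuous.continuousOn)) (fun K hK hK' => ?_) h9
    obtain ⟨M, hM⟩ := hK'.bddAbove_image (s2 0).continuous.rexp.continuousOn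
    exact ⟨M, .of_forall fun m z hz => (h7 z (hK hz) m.zero_le).trans (hM ⟨z, hz, rfl⟩)⟩
  have b2 : closedBall (0 : Cm p) (r 0) ⊆ ball 0 4 :=
    closedBall_subset_ball (by linarith [(hr 0).2])
  obtain ⟨C, hC⟩ := (isCompact_closedBall (0 : Cm p) 1).bddBelow_image
    (hs 0).continuous.continuousOn
  have cl : ∀ m, IsClosed (closedBall (0 : Cm p) (r 0) ∩ {z | C - 1 ≤ φ m z}) := fun m =>
    isClosed_closedBall.inter (isClosed_le continuous_const (s2 m).continuous)
  obtain ⟨x, hx⟩ := IsCompact.nonempty_iInter_of_sequence_nonempty_isCompact_isClosed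
    (fun m => closedBall (0 : Cm p) (r 0) ∩ {z | C - 1 ≤ φ m z})
    (fun m z hz => ⟨hz.1, le_trans hz.2 (h6 m z (b2 hz.1))⟩) (fun m => by
      by_contra k
      have k1 : cv volume (r 0) (f (s m)) 0 ≤ C - 1 :=
        cv_le (hr 0).1 (itg (s1 _).continuous _ _) fun y hy => le_of_not_gt fun k1 =>
          k ⟨y, hy, k1.le.trans (le_add_of_nonneg_right (by positivity))⟩
      have k2 : C ≤ cv volume (r (s m)) (ψ 0) 0 :=
        le_cv (hr _).1 (itg (hs 0).continuous _ _) fun y hy =>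
          hC ⟨y, closedBall_subset_closedBall (by linarith [(hr (s m)).2]) hy, rfl⟩
      linarith [h2 (s m)])
    ((isCompact_closedBall _ _).of_isClosed_subset (cl 0) inter_subset_left) cl
  rw [mem_iInter] at hx
  have hP := hL.ae_pos (μ := volume) isOpen_ball (convex_ball _ _).isPreconnected (b2 (hx 0).1)
    ((Real.exp_pos (C - 1)).trans_le (le_ciInf fun m => Real.exp_le_exp.2 (hx m).2))
  refine ⟨s, φ, _, strictMono_nat_of_lt_succ fun k => hN _ k,
    ⟨fun m z _ => (s2 m).contDiffAt, p2, h6, h9, fun z hz => frequently_iff.2 fun {t} ht => ?_⟩,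
    fun m z hz => (h5 m z).trans (h1 _ z (b1 hz))⟩
  obtain ⟨y, hy, k⟩ := exists_of_ae (inter_mem ht (isOpen_ball.mem_nhds hz))
    (hP.mono fun y hy k => hy k.2)
  exact ⟨y, hy.1, k⟩

end Vale.Agent.P281Z.Ky
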