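import Vale.Agent.P281Z.Ky.Gm
import Vale.Agent.P277Z.Van.GGb
import Vale.Agent.P277Z.Coh.Vol2

/-!
# P281Z, block KY: integration in a chart
-/

set_option linter.unusedSectionVars false

open scoped Manifold ContDiff Topology ComplexOrder Matrix ENNReal
open Filter Set MeasureTheory
open Vale.Agent.P272.K
open Vale.Agent.P301.H599 (Fm)
open Vale.Agent.P277Z.Van (IsVol)
open Vale.Agent.P277Z.C1.Vol2 (det_cont det_pos)

noncomputable section

namespace Vale.Agent.P281Z.Ky

variable {n : ℕ} {X : Type} [TopologicalSpace X] [ChartedSpace (Cm n) X]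
  [IsManifold 𝓘(ℂ, Cm n) ω X] {w : Fm n X} {e : Chart n X}

theorem det_re (hw : IsHermitian w) {x : X} (he : At e x) :
    (((w e (e x)).det.re : ℝ) : ℂ) = (w e (e x)).det :=
  Complex.ext rfl (by simpa using (Complex.lt_def.1 (hw.posDef e x he).det_pos).2)

/-- the support of a function read in a chart -/
theorem ind_supp {β : Type} [Zero β] {v : X → β} (hc : IsCompact (tsupport v))
    (hs : tsupport v ⊆ e.source) :
    IsCompact (e '' tsupport v) ∧
      tsupport (e.target.indicator fun z => v (e.symm z)) ⊆ e '' tsupport v := by
  have h1 : IsCompact (e '' tsupport v) := hc.image_of_continuousOn (e.continuousOn.mono hs)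
  refine ⟨h1, closure_minimal (fun z hz => ?_) h1.isClosed⟩
  rw [support_indicator] at hz
  exact ⟨_, subset_tsupport v hz.2, e.right_inv hz.1⟩

variable [MeasurableSpace X] [BorelSpace X] {μ : Measure X}

theorem vol_restrict (hw : IsHermitian w) (hμ : IsVol w μ) (he : e ∈ atlas (Cm n) X) :
    μ.restrict e.source = ((volume.restrict e.target).withDensity
      fun z => ENNReal.ofReal (w e z).det.re).map e.symm := by
  have h1 : AEMeasurable e.symm (volume.restrict e.target) :=
    e.continuousOn_symm.aemeasurable e.open_target.measurableSet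
  have hm : AEMeasurable (fun z => ENNReal.ofReal (w e z).det.re) (volume.restrict e.target) :=
    ((det_cont hw he).aemeasurable e.open_target.measurableSet).ennreal_ofReal
  ext A hA
  have hB := hA.inter e.open_source.measurableSet
  rw [Measure.restrict_apply hA, ← lintegral_indicator_one hB, ← lintegral_indicator_one hA,
    hμ e he _ (measurable_one.indicator hB) fun x hx => indicator_of_notMem (fun h => hx h.2) _,
    lintegral_map' (measurable_one.indicator hA).aemeasurable
      (h1.mono_ac (withDensity_absolutelyContinuous _ _)),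
    lintegral_withDensity_eq_lintegral_mul₀ hm (g := fun z => A.indicator 1 (e.symm z))
      ((measurable_one.indicator hA).comp_aemeasurable h1)]
  refine setLIntegral_congr_fun e.open_target.measurableSet fun z hz => ?_
  simp only [Pi.mul_apply]
  rw [mul_comm]
  by_cases h : e.symm z ∈ A
  · rw [indicator_of_mem h, indicator_of_mem (show _ ∈ A ∩ _ from ⟨h, e.map_target hz⟩)]
  · rw [indicator_of_notMem h, indicator_of_notMem fun h' : _ ∈ A ∩ _ => h h'.1]

theorem vol_int (hw : IsHermitian w) (hμ : IsVol w μ) (he : e ∈ atlas (Cm n) X) {F : X → ℂ}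
    (hF : AEStronglyMeasurable F μ) :
    ∫ x in e.source, F x ∂μ = ∫ z in e.target, (w e z).det * F (e.symm z) := by
  have h1 : AEMeasurable e.symm (volume.restrict e.target) :=
    e.continuousOn_symm.aemeasurable e.open_target.measurableSet
  have hm : AEMeasurable (fun z => ENNReal.ofReal (w e z).det.re) (volume.restrict e.target) :=
    ((det_cont hw he).aemeasurable e.open_target.measurableSet).ennreal_ofReal
  have h2 := hF.restrict (s := e.source)
  rw [vol_restrict hw hμ he] at h2 ⊢
  rw [integral_map (h1.mono_ac (withDensity_absolutelyContinuous _ _)) h2,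
    integral_withDensity_eq_integral_toReal_smul₀ hm
      (Eventually.of_forall fun _ => ENNReal.ofReal_lt_top)]
  refine setIntegral_congr_fun e.open_target.measurableSet fun z hz => ?_
  have h3 := det_re hw (x := e.symm z) ⟨he, e.map_target hz⟩
  rw [e.right_inv hz] at h3
  simp only [Complex.real_smul]
  rw [ENNReal.toReal_ofReal (det_pos hw he hz).le, h3]

theorem vol_fin [T2Space X] [CompactSpace X] (hw : IsHermitian w) (hμ : IsVol w μ) :
    IsFiniteMeasure μ := ⟨P277Z.Van.GG.vol_cpt hw hμ isCompact_univ⟩

end Vale.Agent.P281Z.Ky
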